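import Crest.Agent.N337.L4.Loop

/-!
# Row 337, block L4 (helper96): junk free return bounds

`Gd O ξ` is a path-local predicate, antitone in the point set.  `HG`: Green bound on good sets with
at most two open ends.  `bm`: mass of the purple sets that make the environment bad.
`retE`: return of an arc; `ret2`: closure of a loop that meets a far set.
-/

set_option autoImplicit false
set_option linter.unusedSectionVars false

namespace Crest.Agent.N337.Arc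

open Finset Equiv Matrix Crest.Agent.N337.Rep Crest.Agent.N337.LY0

variable {Λ : Type} [Fintype Λ] [DecidableEq Λ] {T : ℕ} [NeZero T] (ex ey : Fin T → Λ)

/-- number of open ends of a point set. -/
noncomputable def ends (ξ : Fin T → Bool) (O : Finset (Fin T × Λ)) : ℕ :=
  (O.filter fun v => Sg ex ey ξ v ∉ O).card

/-- path-local predicates, antitone in the point set. -/
structure Mono (Gd : Finset (Fin T × Λ) → (Fin T → Bool) → Prop) : Prop where
  loc : ∀ O ξ ξ', (∀ v ∈ O, Sg ex ey ξ' v = Sg ex ey ξ v) → Gd O ξ → Gd O ξ'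
  anti : ∀ O O' ξ, O ⊆ O' → Gd O' ξ → Gd O ξ

open Classical in
/-- given the coins, the mass of the purple sets that make `E` bad. -/
noncomputable def bad (b : Fin T × Λ → ℝ) (Gd : Finset (Fin T × Λ) → (Fin T → Bool) → Prop)
    (E : Finset (Fin T × Λ)) (ξ : Fin T → Bool) : ℝ :=
  ∑ D, aliv ex ey (kill b E) ξ D * if Gd (E ∪ on D) ξ then 0 else 1

/-- the mass of the bad purple sets in the environment `(E, ξ0)`. -/
noncomputable def bm (p : Fin T → ℝ) (b : Fin T × Λ → ℝ)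
    (Gd : Finset (Fin T × Λ) → (Fin T → Bool) → Prop) (E : Finset (Fin T × Λ))
    (ξ0 : Fin T → Bool) : ℝ :=
  ∑ ξ, Pw (pin p (tch ex ey E) ξ0) ξ * bad ex ey b Gd E ξ

/-- the Green bound on good sets. -/
def HG (p : Fin T → ℝ) (b : Fin T × Λ → ℝ) (Gd : Finset (Fin T × Λ) → (Fin T → Bool) → Prop)
    (Pr : Fin T × Λ → Fin T × Λ → Prop) (γ : ℝ) : Prop :=
  ∀ O ξ z f, Gd O ξ → ends ex ey ξ O ≤ 2 → Pr z f →
    Gf ex ey (pin p (tch ex ey O) ξ) (kill b O) (Pi.single z 1) f ≤ γ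

/-- rarity of bad purple sets in good environments. -/
def HE (p : Fin T → ℝ) (b : Fin T × Λ → ℝ)
    (Gd0 Gd1 : Finset (Fin T × Λ) → (Fin T → Bool) → Prop) (ε : ℝ) : Prop :=
  ∀ E ξ, Gd0 E ξ → ends ex ey ξ E ≤ 1 → bm ex ey p b Gd1 E ξ ≤ ε

variable {ex ey} {p : Fin T → ℝ} {b : Fin T × Λ → ℝ} {E O : Finset (Fin T × Λ)}
  {ξ ξ0 : Fin T → Bool} {Gd : Finset (Fin T × Λ) → (Fin T → Bool) → Prop}
  {Pr : Fin T × Λ → Fin T × Λ → Prop} {γ L : ℝ} {z f u : Fin T × Λ}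

lemma pin_pin {A B : Finset (Fin T)} (h : ∀ s ∈ A, ξ s = ξ0 s) :
    pin (pin p A ξ0) B ξ = pin p (A ∪ B) ξ := by
  funext s
  by_cases h1 : s ∈ B <;> by_cases h2 : s ∈ A <;> simp [pin, h1, h2, h]

lemma kill_kill (b : Fin T × Λ → ℝ) (E O : Finset (Fin T × Λ)) :
    kill (kill b E) O = kill b (E ∪ O) := by
  funext v
  by_cases h1 : v ∈ O <;> by_cases h2 : v ∈ E <;> simp [kill, h1, h2]

lemma pin_empty (p : Fin T → ℝ) (ξ : Fin T → Bool) :
    pin p (tch ex ey (∅ : Finset (Fin T × Λ))) ξ = p := by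
  funext s; simp [pin, tch]

lemma kill_empty (b : Fin T × Λ → ℝ) : kill b ∅ = b := by funext v; simp [kill]

lemma Mono.coin (hM : Mono ex ey Gd) {ξ' : Fin T → Bool} (h : ∀ s ∈ tch ex ey O, ξ' s = ξ s) :
    Gd O ξ → Gd O ξ' := hM.loc O ξ ξ' fun _ hv => Sg_congr ex ey h hv

lemma ends_congr (h : ∀ s ∈ tch ex ey E, ξ s = ξ0 s) : ends ex ey ξ E = ends ex ey ξ0 E :=
  congrArg card (filter_congr fun v hv => by rw [Sg_congr ex ey h hv])

lemma ends_union (ξ : Fin T → Bool) (E O : Finset (Fin T × Λ)) :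
    ends ex ey ξ (E ∪ O) ≤ ends ex ey ξ E + ends ex ey ξ O := by
  refine (card_le_card fun v hv => ?_).trans (card_union_le _ _)
  simp only [mem_filter, mem_union, not_or] at hv ⊢
  tauto

lemma ends_empty (ξ : Fin T → Bool) : ends ex ey ξ (∅ : Finset (Fin T × Λ)) = 0 := by simp [ends]

lemma ends_on {D : Fin T × Λ → Bool} (h : ∀ v, D (Sg ex ey ξ v) = D v) :
    ends ex ey ξ (on D) = 0 := by
  simp only [ends, card_eq_zero, filter_eq_empty_iff, mem_on, h, not_not, imp_self, implies_true]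

lemma ends_Al (ok : (ℕ → Fin T × Λ) → ℕ → Prop) (u : Fin T × Λ) (t : ℕ) (ξ : Fin T → Bool) :
    ends ex ey ξ (Al ex ey ok u t ξ) ≤ 1 := by
  have key : ∀ i j, i < j → j < t → run ex ey ok u ξ j →
      Sg ex ey ξ (arc ex ey u ξ i) ∈ Al ex ey ok u t ξ := fun i j h1 h2 h3 =>
    mem_Al.2 ⟨i + 1, by omega, fun l hl => h3 l (by omega), arc_succ ex ey u ξ i⟩
  refine card_le_one.2 fun v hv w hw => ?_
  obtain ⟨i, hi, ri, rfl⟩ := mem_Al.1 (mem_filter.1 hv).1
  obtain ⟨j, hj, rj, rfl⟩ := mem_Al.1 (mem_filter.1 hw).1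
  rcases lt_trichotomy i j with h | rfl | h
  · exact absurd (key i j h hj rj) (mem_filter.1 hv).2
  · rfl
  · exact absurd (key j i h hi ri) (mem_filter.1 hw).2

lemma bad_nn (hb : Fld b) (Gd : Finset (Fin T × Λ) → (Fin T → Bool) → Prop)
    (E : Finset (Fin T × Λ)) (ξ : Fin T → Bool) : 0 ≤ bad ex ey b Gd E ξ :=
  sum_nonneg fun D _ => mul_nonneg (aliv_nn ex ey (hb.kill E) ξ D) (by split_ifs <;> norm_num)

lemma bm_nn (hp : ∀ s, 0 ≤ p s ∧ p s ≤ 1) (hb : Fld b)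
    (Gd : Finset (Fin T × Λ) → (Fin T → Bool) → Prop) (E : Finset (Fin T × Λ))
    (ξ0 : Fin T → Bool) : 0 ≤ bm ex ey p b Gd E ξ0 :=
  sum_nonneg fun ξ _ => mul_nonneg (Pw_nonneg (pin_mem hp _ _) ξ) (bad_nn hb Gd E ξ)

/-- **return of an arc** whose tip is `Sg ξ0 v`, `v ∈ E`. -/
theorem retE (hp : ∀ s, 0 ≤ p s ∧ p s ≤ 1) (hb : Fld b) (hM : Mono ex ey Gd)
    (hG : HG ex ey p b Gd Pr γ) (hγ0 : 0 ≤ γ) (hL : 0 ≤ L) (he : ends ex ey ξ0 E ≤ 2)
    {v : Fin T × Λ} (hv : v ∈ E) (hP : Pr z (Sg ex ey ξ0 v)) (H : (Fin T → Bool) → ℝ)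
    (hH : ∀ ξ, Pw (pin p (tch ex ey E) ξ0) ξ ≠ 0 →
      H ξ ≤ L * aw (Sg ex ey ξ) (kill b E) (Pi.single z 1) (Sg ex ey ξ0 v)) :
    ∑ ξ, Pw (pin p (tch ex ey E) ξ0) ξ * H ξ ≤ L * γ +
      ∑ ξ, Pw (pin p (tch ex ey E) ξ0) ξ * (H ξ * bad ex ey b Gd E ξ) := by
  classical
  have e : ∀ ξ, Pw (pin p (tch ex ey E) ξ0) ξ ≠ 0 →
      PH.pw (E := fun _ : Fin T => Bool) (tch ex ey E) ξ0 ξ = ξ := fun ξ h => funext fun s => by
    by_cases k : s ∈ tch ex ey E
    · rw [PH.pw_mem _ _ k, Pw_pin_supp h s k]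
    · rw [PH.pw_not _ _ k]
  refine (ret0 ex ey (pin_mem hp _ ξ0) (hb.kill E) (Sg ex ey ξ0 v) (fun ξ h => ?_)
    (fun O ξ => Gd (E ∪ O) (PH.pw (E := fun _ : Fin T => Bool) (tch ex ey E) ξ0 ξ))
    (fun O ξ ξ' h => hM.coin fun s hs => ?_) hγ0 hL (fun D ξ h hi k => ?_) H
    hH).trans (add_le_add le_rfl (sum_le_sum fun ξ _ => ?_))
  · refine pr_zero (v := v) ?_ (if_pos hv)
    rw [← Sg_congr ex ey (Pw_pin_supp h) hv, o_apply]
  · rw [tch_union, mem_union] at hs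
    by_cases k : s ∈ tch ex ey E
    · rw [PH.pw_mem _ _ k, PH.pw_mem _ _ k]
    · rw [PH.pw_not _ _ k, PH.pw_not _ _ k, h s (hs.resolve_left k)]
  · rw [pin_pin (Pw_pin_supp h), ← tch_union, kill_kill]
    refine hG _ _ _ _ (e ξ h ▸ k) ((ends_union _ _ _).trans ?_) hP
    rwa [ends_on hi, ends_congr (Pw_pin_supp h)]
  · by_cases h : Pw (pin p (tch ex ey E) ξ0) ξ = 0
    · simp [h]
    refine le_of_eq (congrArg _ ?_)
    rw [bad, mul_sum]
    refine sum_congr rfl fun D _ => ?_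
    rw [e ξ h]
    split_ifs <;> ring

/-- the rest of the loop is one of the terms of `aw`. -/
lemma aw_rest (hb : ∀ v, 0 ≤ b v ∧ b v ≤ 1) {m : ℕ} (hm : m ≤ per (Sg ex ey ξ) z)
    (hO : ∀ i, m ≤ i → i < per (Sg ex ey ξ) z → arc ex ey z ξ i ∉ O) :
    ∏ w ∈ lo ex ey ξ z \ O, b w ≤
      aw (Sg ex ey ξ) (kill b O) (Pi.single z 1) (arc ex ey z ξ m) := by
  obtain ⟨j, hj⟩ := Nat.exists_eq_add_of_le hm
  have hk : ∀ v, 0 ≤ kill b O v ∧ kill b O v ≤ 1 := fun v => by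
    unfold kill; split_ifs; exacts [⟨le_rfl, zero_le_one⟩, hb v]
  refine le_trans ?_ (aw_ge (Sg ex ey ξ) hk (fun v => ?_) _ j)
  swap
  · rw [Pi.single_apply]; split_ifs <;> norm_num
  have e : ∀ i, (Sg ex ey ξ)^[i] (arc ex ey z ξ m) = arc ex ey z ξ (m + i) := fun i =>
    (arc_add ex ey z ξ m i).symm
  simp only [e]
  rw [← hj, show arc ex ey z ξ (per (Sg ex ey ξ) z) = z from it_per _ _, Pi.single_eq_same, one_mul,
    prod_congr rfl fun i hi => show kill b O (arc ex ey z ξ (m + i)) = b _ from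
      if_neg (hO _ (by omega) (by have := mem_range.1 hi; omega)),
    ← prod_image (g := fun i => arc ex ey z ξ (m + i)) (f := b) fun i hi l hl h => by
      have h1 : i < j := by simpa using hi
      have h2 : l < j := by simpa using hl
      have := it_inj (π := Sg ex ey ξ) (x := z) (i := m + i) (j := m + l) (by omega) (by omega) h
      omega]
  refine prod_le_prod_of_subset_of_le_one (fun w hw => ?_) (fun v _ => (hb v).1) fun v _ _ => (hb v).2
  obtain ⟨i, hi, rfl⟩ := mem_image.1 hw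
  exact mem_sdiff.2 ⟨arc_mem_lo _ _ _, hO _ (by omega) (by have := mem_range.1 hi; omega)⟩

lemma aliv_comp (b : Fin T × Λ → ℝ) (ξ : Fin T → Bool) (c : Orb (Sg ex ey ξ) → Bool) :
    aliv ex ey b ξ (c ∘ o _) =
      ∏ g, if c g = true then pr (Sg ex ey ξ) b g else 1 - pr (Sg ex ey ξ) b g := by
  rw [aliv, if_pos fun v => by simp [o_apply], zd_comp, ← prod_mul_distrib]
  refine prod_congr rfl fun g _ => ?_
  split_ifs with h
  · obtain ⟨v, hv⟩ := o_surj _ g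
    rw [pr_zero (a := kill b _) hv (if_pos (mem_on.2 (by simp [hv, h])))]; ring
  · rw [one_mul, pr_congr (a := kill b _) (b := b) fun v hv =>
      if_neg fun k => h (by simpa [mem_on, hv] using k)]

lemma sum_aliv_mul (b : Fin T × Λ → ℝ) (ξ : Fin T → Bool) (G : (Fin T × Λ → Bool) → ℝ) :
    ∑ D, aliv ex ey b ξ D * G D = ∑ c : Orb (Sg ex ey ξ) → Bool,
      (∏ g, if c g = true then pr (Sg ex ey ξ) b g else 1 - pr (Sg ex ey ξ) b g) * G (c ∘ o _) := by
  simp only [← aliv_comp]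
  rw [← sum_inv (Sg ex ey ξ) fun D => aliv ex ey b ξ D * G D]
  refine sum_congr rfl fun D _ => ?_
  split_ifs with h
  · rfl
  · rw [aliv, if_neg h, zero_mul]

/-- **ALIVE**: the weight of a loop is the probability that it is purple. -/
theorem alive (hb : Fld b) (hz : z ∈ O) (hO : O ⊆ lo ex ey ξ z) (G : Finset (Fin T × Λ) → ℝ)
    (hG : ∀ S, 0 ≤ G S) :
    pr (Sg ex ey ξ) b (o _ z) * ∑ D, aliv ex ey (kill b O) ξ D * G (on D ∪ lo ex ey ξ z) ≤
      ∑ D, aliv ex ey b ξ D * G (on D) := by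
  classical
  set g0 := o (Sg ex ey ξ) z with hg0
  have inv : Function.Involutive fun c : Orb (Sg ex ey ξ) → Bool =>
      Function.update c g0 (!c g0) := fun c => by simp
  rw [sum_aliv_mul, sum_aliv_mul, mul_sum, ← inv.bijective.sum_comp]
  refine sum_le_sum fun c _ => ?_
  have z0 : pr (Sg ex ey ξ) (kill b O) g0 = 0 := pr_zero hg0.symm (if_pos hz)
  rw [← mul_prod_erase _ _ (mem_univ g0), ← mul_prod_erase univ _ (mem_univ g0),
    Function.update_self, z0]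
  cases h : c g0
  · have n1 : ∀ g, 0 ≤ pr (Sg ex ey ξ) b g := pr_nonneg fun v => (hb.mem v).1
    have n2 : ∀ g, 0 ≤ 1 - pr (Sg ex ey ξ) b g := fun g => (sub_pos.2 (hb.pr_lt ex ey ξ g)).le
    simp only [Bool.not_false, if_true, zero_mul, mul_zero]
    refine mul_nonneg (mul_nonneg ?_ (prod_nonneg fun g _ => ?_)) (hG _) <;> split_ifs <;> simp [n1, n2]
  · have e1 : on (Function.update c g0 false ∘ o (Sg ex ey ξ)) ∪ lo ex ey ξ z = on (c ∘ o _) := by
      ext v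
      rw [mem_union, mem_on, mem_on, mem_lo, Function.comp, Function.comp, ← hg0]
      by_cases k : o (Sg ex ey ξ) v = g0
      · simp [k, h]
      · simp [k]
    simp only [Bool.not_true, e1, Bool.false_eq_true, if_false, if_true, sub_zero, one_mul,
      ← mul_assoc]
    refine le_of_eq (congrArg (· * _) (congrArg _ (prod_congr rfl fun g hg => ?_)))
    have k := (mem_erase.1 hg).1
    rw [Function.update_of_ne k, pr_congr (a := kill b O) (b := b) fun v hv =>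
      if_neg fun y => k (hv.symm.trans (mem_lo.1 (hO y)))]

open Classical in
/-- **RET2**: a loop that meets `F` rarely closes. -/
theorem ret2 (hp : ∀ s, 0 ≤ p s ∧ p s ≤ 1) (hb : Fld b) (hM : Mono ex ey Gd)
    (hG : HG ex ey p b Gd Pr γ) (hγ0 : 0 ≤ γ) (he : ends ex ey ξ0 E ≤ 1)
    {F : Finset (Fin T × Λ)} (hz : z ∉ F) (hF : ∀ f ∈ F, Pr z f) :
    ∑ ξ, Pw (pin p (tch ex ey E) ξ0) ξ * (if Disjoint (lo ex ey ξ z) F then 0 else
      pr (Sg ex ey ξ) (kill b E) (o _ z)) ≤ γ + bm ex ey p b Gd E ξ0 := by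
  set p' := pin p (tch ex ey E) ξ0 with hp'
  have hq : ∀ s, 0 ≤ p' s ∧ p' s ≤ 1 := pin_mem hp _ _
  have hP := pr_pb hq
  have hb' := hb.kill E
  set ok : (ℕ → Fin T × Λ) → ℕ → Prop := fun a i => a i ∉ F with hok
  have hr : Rule ok := fun a a' i h k => by simpa only [hok, h i le_rfl] using k
  set N := Fintype.card (Fin T × Λ) with hN
  have hper : ∀ ξ, per (Sg ex ey ξ) z ≤ N := fun ξ => Function.minimalPeriod_le_card
  set W1 : (Fin T → Bool) → ℝ := fun ξ => if ∃ v ∈ Al ex ey ok z N ξ, Sg ex ey ξ v ∈ F then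
    ∏ v ∈ Al ex ey ok z N ξ, kill b E v else 0 with hW1
  set W2 : (Fin T → Bool) → ℝ := fun ξ =>
    ∏ v ∈ lo ex ey ξ z \ Al ex ey ok z N ξ, kill b E v with hW2
  set B : (Fin T → Bool) → ℝ := fun ξ => W2 ξ * bad ex ey b Gd (E ∪ Al ex ey ok z N ξ) ξ with hB
  have m1 : PH.Meas (E := fun _ : Fin T => Bool) (X ex ey ok z N) W1 := fun ξ ξ' h => by
    simp only [hW1, Al_stop hr h]
    exact if_congr (exists_congr fun v => and_congr_right fun hv => by
      rw [Sg_congr ex ey h hv]) rfl rfl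
  have w0 : ∀ ξ, 0 ≤ W1 ξ ∧ W1 ξ ≤ 1 := fun ξ => by
    simp only [hW1]; split_ifs
    exacts [⟨prod_nonneg fun v _ => (hb'.mem v).1,
      prod_le_one (fun v _ => (hb'.mem v).1) fun v _ => (hb'.mem v).2⟩, ⟨le_rfl, zero_le_one⟩]
  have w12 : ∀ ξ, (∃ v ∈ Al ex ey ok z N ξ, Sg ex ey ξ v ∈ F) →
      W1 ξ * W2 ξ = pr (Sg ex ey ξ) (kill b E) (o _ z) := fun ξ h => by
    simp only [hW1, hW2, if_pos h]
    rw [mul_comm, prod_sdiff (Al_sub_lo ξ z N)]; rfl
  have a1 : ∀ ξ, (if Disjoint (lo ex ey ξ z) F then 0 else pr (Sg ex ey ξ) (kill b E) (o _ z)) ≤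
      W1 ξ * W2 ξ := fun ξ => by
    split_ifs with h
    · exact mul_nonneg (w0 ξ).1 (prod_nonneg fun v _ => (hb'.mem v).1)
    refine (w12 ξ ?_).ge
    obtain ⟨w, hw, hw'⟩ := not_disjoint_iff.1 h
    obtain ⟨i, hi, rfl⟩ := mem_lo'.1 hw
    have hex : ∃ i, arc ex ey z ξ i ∈ F := ⟨i, hw'⟩
    have h1 := Nat.find_min' hex hw'
    obtain ⟨m, hm⟩ := Nat.exists_eq_succ_of_ne_zero (n := Nat.find hex) fun k =>
      hz (by simpa [k, arc_zero] using Nat.find_spec hex)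
    refine ⟨arc ex ey z ξ m, mem_Al.2 ⟨m, by have := hper ξ; omega,
      fun j hj => Nat.find_min hex (by omega), rfl⟩, ?_⟩
    rw [← arc_succ, ← Nat.succ_eq_add_one, ← hm]; exact Nat.find_spec hex
  have a2 : ∀ ξ, Pw p' ξ ≠ 0 → W1 ξ * PH.P (pb p') (X ex ey ok z N) W2 ξ ≤
      W1 ξ * (γ + PH.P (pb p') (X ex ey ok z N) B ξ) := fun ξ h0 => by
    by_cases h : ∃ v ∈ Al ex ey ok z N ξ, Sg ex ey ξ v ∈ F
    swap
    · simp only [hW1, if_neg h, zero_mul, le_refl]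
    refine mul_le_mul_of_nonneg_left ?_ (w0 ξ).1
    obtain ⟨v, hv, hvF⟩ := h
    have s0 : ∀ ξ' : Fin T → Bool, (∀ s ∈ tch ex ey (E ∪ Al ex ey ok z N ξ), ξ' s = ξ s) →
        ∀ s ∈ X ex ey ok z N ξ, ξ' s = ξ s := fun ξ' k s hs =>
      k s (tch_mono ex ey subset_union_right hs)
    rw [P_pin, P_pin, hp', pin_pin (Pw_pin_supp h0), X, ← tch_union]
    refine (retE hp hb hM hG hγ0 zero_le_one ((ends_union _ _ _).trans ?_)
      (mem_union_right E hv) (hF _ hvF) W2 fun ξ' k => ?_).trans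
      (add_le_add (one_mul γ).le (sum_le_sum fun ξ' _ => ?_))
    · have := ends_Al (ex := ex) (ey := ey) ok z N ξ
      rw [ends_congr (Pw_pin_supp h0)]; omega
    · replace k := Pw_pin_supp k
      obtain ⟨m, hm, rm, rfl⟩ := mem_Al.1 hv
      have rm' := (run_iff hr (s0 ξ' k) hm.le).2 rm
      have e1 : arc ex ey z ξ' (m + 1) = Sg ex ey ξ (arc ex ey z ξ m) := by
        rw [← arc_succ]; exact agree (s0 ξ' k) _ hm fun j hj => rm j (by omega)
      have e2 : m + 1 ≤ per (Sg ex ey ξ') z := by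
        by_contra hc
        have h1 := Nat.mod_lt (m + 1) (per_pos (Sg ex ey ξ') z)
        refine rm' ((m + 1) % per (Sg ex ey ξ') z) (by omega) ?_
        rwa [show arc ex ey z ξ' ((m + 1) % per (Sg ex ey ξ') z) = arc ex ey z ξ' (m + 1) from
          Function.iterate_mod_minimalPeriod_eq, e1]
      rw [one_mul, ← kill_kill, ← e1, ← Al_stop hr (s0 ξ' k)]
      refine aw_rest hb'.mem e2 fun i h1 h2 h3 => ?_
      obtain ⟨j, -, rj, e3⟩ := mem_Al.1 h3
      have h4 : j ≤ m := by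
        by_contra hc
        exact rj (m + 1) (by omega) (e1 ▸ hvF)
      have := it_inj (π := Sg ex ey ξ') (x := z) (i := j) (j := i) (by omega) h2 e3
      omega
    · by_cases k : Pw (pin p (tch ex ey (E ∪ Al ex ey ok z N ξ)) ξ) ξ' = 0
      · simp [k]
      · simp only [hB, Al_stop hr (s0 ξ' (Pw_pin_supp k)), le_refl]
  have a3 : ∀ ξ, W1 ξ * B ξ ≤ bad ex ey b Gd E ξ := fun ξ => by
    by_cases h : ∃ v ∈ Al ex ey ok z N ξ, Sg ex ey ξ v ∈ F
    swap
    · simp only [hW1, if_neg h, zero_mul]; exact bad_nn hb Gd E ξ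
    rw [hB, ← mul_assoc, w12 ξ h]
    have hzA : z ∈ Al ex ey ok z N ξ := mem_Al.2 ⟨0, (per_pos _ z).trans_le (hper ξ),
      fun j hj => by rwa [Nat.le_zero.1 hj], rfl⟩
    refine le_trans (mul_le_mul_of_nonneg_left ?_ (pr_nonneg (fun v => (hb'.mem v).1) _))
      (alive hb' hzA (Al_sub_lo ξ z N) (fun S => if Gd (E ∪ S) ξ then 0 else 1)
        fun S => by split_ifs <;> norm_num)
    rw [bad, kill_kill]
    refine sum_le_sum fun D _ => mul_le_mul_of_nonneg_left ?_ (aliv_nn ex ey (hb.kill _) ξ D)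
    by_cases k : Gd (E ∪ (on D ∪ lo ex ey ξ z)) ξ
    · rw [if_pos k, if_pos (hM.anti _ _ _ ?_ k)]
      rw [union_assoc, union_comm _ (on D)]
      exact union_subset_union_right (union_subset_union_right (Al_sub_lo ξ z N))
    · rw [if_neg k]; split_ifs <;> norm_num
  have st := (expl (ex := ex) (ey := ey) (u := z) hr).stop N
  calc _ ≤ PH.ex (pb p') fun ξ => W1 ξ * W2 ξ := hP.ex_mono a1
    _ = PH.ex (pb p') fun ξ => W1 ξ * PH.P (pb p') (X ex ey ok z N) W2 ξ :=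
      (st.ex_mul_P hP m1 W2).symm
    _ ≤ PH.ex (pb p') fun ξ => γ * W1 ξ + W1 ξ * PH.P (pb p') (X ex ey ok z N) B ξ := by
      refine sum_le_sum fun ξ _ => ?_
      by_cases h0 : Pw p' ξ = 0
      · simp [w_pb, h0]
      · exact mul_le_mul_of_nonneg_left ((a2 ξ h0).trans_eq (by ring)) (hP.w_nn ξ)
    _ ≤ _ := by
      rw [PH.ex_add, st.ex_mul_P hP m1 B]
      refine add_le_add ?_ (hP.ex_mono a3)
      rw [← hP.ex_const γ]
      simp only [hP.ex_const]
      exact (hP.ex_mono fun ξ => mul_le_of_le_one_right hγ0 (w0 ξ).2).trans_eq (hP.ex_const γ)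

end Crest.Agent.N337.Arc
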