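import Crest.Agent.N337.L4.ZS

/-!
# Row 337, L4: grouped Shearer inequality and the abstract Gram lemma

`Sh`: explorers of FINE cells whose multiplicity and size are counted in groups.
`Gm.gram`: `Cov (∑ ψ a, Ψ)` is the diagonal `∑ E[ψ a * D a]` up to the early part (Lemma Z and
Shearer), the diagonal error, and the terms `O a` that touch the zone `Z a` of the late steps.
-/

set_option autoImplicit false
set_option linter.unusedSectionVars false

namespace Crest.Agent.N337.PH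

open Finset L4

variable {ι : Type} [Fintype ι] [DecidableEq ι] {E : ι → Type} [∀ i, Fintype (E i)]
  {κ : Type} [Fintype κ] [DecidableEq κ] {α : Type}

/-- explorers of fine cells, counted in groups. -/
structure Sh (gr : ι → κ) (s : Finset α) (ρ : α → ℝ) (Y : α → ℕ → (∀ i, E i) → Finset ι) (T : ℕ)
    (m : ℝ) (N : ℕ) : Prop where
  expl : ∀ a ∈ s, Expl (Y a)
  zero : ∀ a ∈ s, ∀ ω, Y a 0 ω = ∅
  pos : ∀ a ∈ s, 0 < ρ a
  m0 : 0 ≤ m
  mult : ∀ ω γ, ∑ a ∈ s, (if γ ∈ (Y a T ω).image gr then ρ a else 0) ≤ m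
  card : ∀ a ∈ s, ∀ ω, ((Y a T ω).image gr).card ≤ N

variable {p : ∀ i, E i → ℝ} {gr : ι → κ} {s : Finset α} {ρ : α → ℝ}
  {Y : α → ℕ → (∀ i, E i) → Finset ι} {T : ℕ} {e φ ψ : α → (∀ i, E i) → ℝ} {q m : ℝ} {N : ℕ}
  {X : ℕ → (∀ i, E i) → Finset ι} {f g : (∀ i, E i) → ℝ}

lemma subset_pre_image (A : Finset ι) : A ⊆ pre gr (A.image gr) := subset_pre.2 subset_rfl

lemma Expl.clo (h : Expl X) (gr : ι → κ) : Expl fun t ω => pre gr ((X t ω).image gr) :=
  ⟨fun ω ω' => by rw [h.zero ω ω'], fun t ω _ hi =>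
    mem_pre.2 (image_subset_image (h.mono t ω) (mem_pre.1 hi)),
    fun t ω ω' k => by rw [h.pred t ω ω' fun i hi => k i (subset_pre_image _ hi)]⟩

lemma mt_pre (U G : Finset κ) : mt gr G (pre gr U) ⊆ U := fun γ hγ => by
  obtain ⟨⟨i, hi, rfl⟩, -⟩ := mem_mt.1 hγ
  exact mem_pre.1 hi

lemma Sh.zs (hp : Pr p) (H : Sh gr s ρ Y T m N) : ZS p gr univ s ρ
    (fun a t ω => pre gr ((Y a t ω).image gr)) T (fun _ _ => 0) (1 / 64) m 0 N where
  expl a ha := (H.expl a ha).clo gr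
  zero a ha ω := by simp [H.zero a ha, pre]
  cl _ _ _ _ := cl_pre _
  pos := H.pos
  e0 _ _ _ := le_rfl
  e1 _ _ _ := zero_le_one
  q0 := by norm_num
  m0 := H.m0
  m0' := le_rfl
  mult ω γ _ := le_trans (sum_le_sum fun a ha => by
    have := (H.pos a ha).le
    by_cases k : γ ∈ (Y a T ω).image gr
    · rw [if_pos k]; split_ifs <;> simp [this]
    · rw [if_neg k, if_neg fun k' => k (mt_pre _ _ k')]) (H.mult ω γ)
  card a ha ω := (card_le_card (mt_pre _ _)).trans (H.card a ha ω)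
  split := ⟨fun _ _ _ => True, fun _ _ => ∅, fun _ _ _ _ _ _ _ => Iff.rfl,
    fun _ _ _ _ _ _ => by simp [hp.P_const], fun _ _ _ _ _ k => (k trivial).elim, by simp⟩

/-- **grouped Shearer inequality**, bilinear form. -/
theorem Sh.cov (hp : Pr p) (H : Sh gr s ρ Y T m N) (hφ : ∀ a ∈ s, Meas (Y a T) (φ a))
    (g : (∀ i, E i) → ℝ) : (∑ a ∈ s, ex p fun ω => φ a ω * (g ω - ex p g)) ^ 2 ≤
      48 * m * (Nat.log 2 N + 1) * (∑ a ∈ s, nsq p (φ a) / ρ a) * var p g := by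
  have k := (H.zs hp).zs hp (φ := φ) (h := g)
    (fun a ha => (hφ a ha).mono fun _ => subset_pre_image _)
    fun ω ω' b => by rw [funext fun i => b i (by simp)]
  simp only [cost, sub_zero, mul_one] at k
  exact k.trans (le_of_eq (by ring))

lemma le_of_sq_le_mul {x c : ℝ} (hc : 0 ≤ c) (h : x ^ 2 ≤ c * x) : x ≤ c := by
  by_contra k
  nlinarith

lemma Pr.var_nn (hp : Pr p) (g : (∀ i, E i) → ℝ) : 0 ≤ var p g := hp.nsq_nn _

lemma Pr.var_le (hp : Pr p) (g : (∀ i, E i) → ℝ) : var p g ≤ nsq p g := by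
  have k := (stop_const (E := E) ∅).nsq_split hp g
  have z : ∀ ω, P p (fun _ => ∅) g ω = ex p g := fun ω => P_empty g ω rfl
  simp only [z] at k
  rw [k]; exact le_add_of_nonneg_left (hp.nsq_nn _)

/-- **grouped Shearer inequality.** -/
theorem Sh.shearer (hp : Pr p) (H : Sh gr s ρ Y T m N) (g : (∀ i, E i) → ℝ) :
    ∑ a ∈ s, ρ a * nsq p (fun ω => P p (Y a T) g ω - ex p g) ≤
      48 * m * (Nat.log 2 N + 1) * var p g := by
  have hm : ∀ a ∈ s, Meas (Y a T) fun ω => ρ a * (P p (Y a T) g ω - ex p g) := fun a ha =>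
    (meas_const _).mul ((((H.expl a ha).stop T).meas_P g).sub (meas_const _))
  have k := H.cov hp hm g
  have e1 : ∀ a ∈ s, (ex p fun ω => ρ a * (P p (Y a T) g ω - ex p g) * (g ω - ex p g)) =
      ρ a * nsq p fun ω => P p (Y a T) g ω - ex p g := fun a ha => by
    rw [← ((H.expl a ha).stop T).ex_mul_P hp (hm a ha), nsq, ← ex_mul]
    congr 1; ext ω
    rw [P_sub, hp.P_const]; ring
  have e2 : ∀ a ∈ s, nsq p (fun ω => ρ a * (P p (Y a T) g ω - ex p g)) / ρ a =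
      ρ a * nsq p fun ω => P p (Y a T) g ω - ex p g := fun a ha => by
    have := (H.pos a ha).ne'
    simp only [nsq, mul_pow, ex_mul]
    field_simp
  rw [sum_congr rfl e1, sum_congr rfl e2] at k
  have := H.m0; have := hp.var_nn g
  exact le_of_sq_le_mul (by positivity) (k.trans (le_of_eq (by ring)))

/-- **grouped Shearer inequality**, dual form: the variance of a sum of explored functions. -/
theorem Sh.dual (hp : Pr p) (H : Sh gr s ρ Y T m N) (hφ : ∀ a ∈ s, Meas (Y a T) (φ a)) :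
    var p (fun ω => ∑ a ∈ s, φ a ω) ≤ 48 * m * (Nat.log 2 N + 1) * ∑ a ∈ s, nsq p (φ a) / ρ a := by
  set g : (∀ i, E i) → ℝ := fun ω => ∑ a ∈ s, φ a ω with hg
  have k := H.cov hp hφ g
  have e1 : (∑ a ∈ s, ex p fun ω => φ a ω * (g ω - ex p g)) = var p g := by
    rw [← ex_sum, var, nsq]
    have : (fun ω => (g ω - ex p g) ^ 2) = fun ω =>
        ∑ a ∈ s, φ a ω * (g ω - ex p g) - ex p g * (g ω - ex p g) := by
      ext ω; rw [← sum_mul]; ring
    rw [this, ex_sub, ex_mul, ex_sub, hp.ex_const]; ring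
  rw [e1] at k
  have := H.m0
  have := sum_nonneg fun a ha => div_nonneg (hp.nsq_nn (φ a)) (H.pos a ha).le
  exact le_of_sq_le_mul (by positivity) k

variable {χ : ℕ → (∀ i, E i) → ℝ}

lemma Expl.ex_tr_mul (hp : Pr p) (h : Expl X) (hχ : ∀ t, t < T → Meas (X t) (χ t))
    (f g : (∀ i, E i) → ℝ) : ex p (fun ω => tr χ (fun t => P p (X t) f) T ω * g ω) =
      ∑ t ∈ range T, ex p fun ω => χ t ω *
        ((P p (X (t + 1)) f ω - P p (X t) f ω) * (P p (X (t + 1)) g ω - P p (X t) g ω)) := by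
  have c := ((h.mart hp T f).tr h.filt fun t ht => ms_iff.2 (hχ t ht)).cov (h.mart hp T g)
  rw [← (h.stop T).ex_mul_P hp (h.meas_tr hp hχ f) g]
  refine Eq.trans c ?_
  simp only [tr, range_zero, sum_empty, zero_mul, sum_range_succ, add_sub_cancel_left]
  rw [show Ex (w p) (fun _ : ∀ i, E i => (0 : ℝ)) = 0 by simp [Ex], zero_add]
  refine sum_congr rfl fun t _ => ?_
  change ex p _ = _
  congr 1; ext ω; ring

/-- a transform can be moved to the other factor. -/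
lemma Expl.tr_swap (hp : Pr p) (h : Expl X) (hχ : ∀ t, t < T → Meas (X t) (χ t))
    (f g : (∀ i, E i) → ℝ) : ex p (fun ω => f ω * tr χ (fun t => P p (X t) g) T ω) =
      ex p fun ω => tr χ (fun t => P p (X t) f) T ω * g ω := by
  simp only [mul_comm (f _)]
  rw [h.ex_tr_mul hp hχ, h.ex_tr_mul hp hχ]
  simp only [mul_comm (P p (X _) g _ - _)]

/-- steps inside `Z` are neutral for functions of the cells off `Z`. -/
lemma Expl.ex_tr_off (hp : Pr p) (h : Expl X) (hχ : ∀ t, t < T → Meas (X t) (χ t)) {Z : Finset ι}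
    (hZ : ∀ t, t < T → ∀ ω, χ t ω ≠ 0 → X (t + 1) ω \ X t ω ⊆ Z) (hg : Meas (fun _ => Zᶜ) g)
    (f : (∀ i, E i) → ℝ) : ex p (fun ω => tr χ (fun t => P p (X t) f) T ω * g ω) = 0 := by
  rw [h.ex_tr_mul hp hχ]
  refine sum_eq_zero fun t ht => ?_
  rw [← hp.ex_const 0]
  congr 1; ext ω
  by_cases z : χ t ω = 0
  · rw [z, zero_mul]
  have : X (t + 1) ω ∩ Zᶜ = X t ω ∩ Zᶜ := by
    ext i
    have a := @hZ t (mem_range.1 ht) ω z i
    have b := @h.mono t ω i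
    simp only [mem_inter, mem_compl, mem_sdiff] at a ⊢
    tauto
  rw [P_eq_C (f := g), P_eq_C (f := g), hg.C_inter hp, hg.C_inter hp (X t ω), this]; ring

/-- hypotheses of the Gram lemma: `θ` marks the early steps, the late steps stay in `Z a`; after a
late step `Ψ` splits into a function `V a` of the cells off `Z a`, the own term `D a` and `O a`. -/
structure Gm (p : ∀ i, E i → ℝ) (s : Finset α) (Y : α → ℕ → (∀ i, E i) → Finset ι) (T : ℕ)
    (e ψ D O : α → (∀ i, E i) → ℝ) (Ψ : (∀ i, E i) → ℝ) (q : ℝ) : Prop where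
  q0 : 0 < q
  e0 : ∀ a ∈ s, ∀ ω, 0 ≤ e a ω
  e1 : ∀ a ∈ s, ∀ ω, e a ω ≤ 1
  eq : ∀ a ∈ s, ex p (e a) ≤ q
  meas : ∀ a ∈ s, Meas (Y a T) (ψ a)
  ψe : ∀ a ∈ s, ∀ ω, ψ a ω * e a ω = ψ a ω
  De : ∀ a ∈ s, ∀ ω, D a ω * e a ω = D a ω
  split : ∃ (θ : α → ℕ → (∀ i, E i) → Prop) (Z : α → Finset ι) (V : α → (∀ i, E i) → ℝ),
    (∀ a ∈ s, ∀ t, t < T → ∀ ω ω', (∀ i ∈ Y a t ω, ω' i = ω i) → (θ a t ω' ↔ θ a t ω)) ∧
    (∀ a ∈ s, ∀ t, t < T → ∀ ω, θ a t ω →
      P p (Y a t) (e a) ω ≤ q ∧ P p (Y a (t + 1)) (e a) ω ≤ q) ∧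
    (∀ a ∈ s, ∀ t, t < T → ∀ ω, ¬ θ a t ω → Y a (t + 1) ω \ Y a t ω ⊆ Z a) ∧
    (∀ a ∈ s, Meas (fun _ => (Z a)ᶜ) (V a)) ∧
    ∀ a ∈ s, ∀ t, t < T → ∀ ω, ¬ θ a t ω → Ψ ω = V a ω + D a ω + O a ω

/-- **Gram lemma.** -/
theorem Gm.gram {D O : α → (∀ i, E i) → ℝ} {Ψ : (∀ i, E i) → ℝ} (hp : Pr p)
    (H : Sh gr s ρ Y T m N) (K : Gm p s Y T e ψ D O Ψ q) :
    ((∑ a ∈ s, ex p fun ω => ψ a ω * (Ψ ω - ex p Ψ)) - ∑ a ∈ s, ex p fun ω => ψ a ω * D a ω) ^ 2 ≤
      3 * (∑ a ∈ s, nsq p (ψ a) / ρ a) * (3072 * q * m * (Nat.log 2 N + 1) * var p Ψ +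
        130 * q * ∑ a ∈ s, ρ a * nsq p (D a) + ∑ a ∈ s, ρ a * nsq p (O a)) := by
  classical
  obtain ⟨θ, Z, V, hθ, hq, hZ, hV, hd⟩ := K.split
  have q0 := K.q0
  set c : α → ℕ → (∀ i, E i) → ℝ := fun a t ω => if θ a t ω then 1 else 0 with hc
  have mc : ∀ a ∈ s, ∀ t, t < T → Meas (Y a t) (c a t) := fun a ha t ht ω ω' k => by
    simp only [c, hθ a ha t ht ω ω' k]
  have mc' : ∀ a ∈ s, ∀ t, t < T → Meas (Y a t) fun ω => 1 - c a t ω := fun a ha t ht =>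
    (meas_const 1).sub (mc a ha t ht)
  have P0 : ∀ a ∈ s, ∀ f ω, P p (Y a 0) f ω = ex p f := fun a ha f ω => P_empty f ω (H.zero a ha ω)
  set er : α → ((∀ i, E i) → ℝ) → (∀ i, E i) → ℝ := fun a f =>
    tr (c a) (fun t => P p (Y a t) f) T with her
  set la : α → ((∀ i, E i) → ℝ) → (∀ i, E i) → ℝ := fun a f =>
    tr (fun t ω => 1 - c a t ω) (fun t => P p (Y a t) f) T with hla
  have sp : ∀ a ∈ s, ∀ f ω, er a f ω + la a f ω = P p (Y a T) f ω - ex p f := fun a ha f ω => by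
    rw [← P0 a ha f ω]; exact tr_add_tr _ _ _ _
  have zn : ∀ a ∈ s, ∀ f, ex p (fun ω => e a ω * er a f ω ^ 2) ≤
      64 * q * nsq p fun ω => P p (Y a T) f ω - ex p f := fun a ha f => by
    have z := (H.expl a ha).zeno hp q0 (K.e0 a ha) (mc a ha)
      (fun t ω => by simp only [c]; split_ifs <;> simp)
      (fun t ht ω z => hq a ha t ht ω (by by_contra k; simp [c, k] at z)) f
    simpa only [P0 a ha] using z
  have esq : ∀ a ∈ s, ∀ u : (∀ i, E i) → ℝ, nsq p (fun ω => e a ω * u ω) ≤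
      ex p fun ω => e a ω * u ω ^ 2 := fun a ha u => hp.ex_mono fun ω => by
    rw [mul_pow]
    refine mul_le_mul_of_nonneg_right ?_ (sq_nonneg _)
    nlinarith [K.e0 a ha ω, K.e1 a ha ω]
  have Pψ : ∀ a ∈ s, nsq p (fun ω => P p (Y a T) (ψ a) ω - ex p (ψ a)) ≤ nsq p (ψ a) :=
    fun a ha => by simpa only [(K.meas a ha).P_eq hp, var] using hp.var_le (ψ a)
  have dec : ((∑ a ∈ s, ex p fun ω => ψ a ω * (Ψ ω - ex p Ψ)) -
      ∑ a ∈ s, ex p fun ω => ψ a ω * D a ω) =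
      ∑ a ∈ s, ex p (fun ω => ψ a ω * (e a ω * er a Ψ ω)) -
      ∑ a ∈ s, ex p (fun ω => e a ω * (ex p (ψ a) + er a (ψ a) ω) * D a ω) +
      ∑ a ∈ s, ex p (fun ω => la a (ψ a) ω * O a ω) := by
    rw [← sum_sub_distrib, ← sum_sub_distrib, ← sum_add_distrib]
    refine sum_congr rfl fun a ha => ?_
    have a1 : ex p (fun ω => ψ a ω * (Ψ ω - ex p Ψ)) =
        ex p (fun ω => ψ a ω * (e a ω * er a Ψ ω)) + ex p fun ω => ψ a ω * la a Ψ ω := by
      rw [← ex_add, ← ((H.expl a ha).stop T).ex_mul_P hp (K.meas a ha)]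
      congr 1; ext ω
      rw [P_sub, hp.P_const, ← sp a ha, ← mul_assoc, K.ψe a ha]; ring
    have a2 : ex p (fun ω => ψ a ω * la a Ψ ω) = ex p fun ω => la a (ψ a) ω * Ψ ω :=
      (H.expl a ha).tr_swap hp (mc' a ha) _ _
    have a3 : ex p (fun ω => la a (ψ a) ω * V a ω) = 0 := (H.expl a ha).ex_tr_off hp (mc' a ha)
      (fun t ht ω z => hZ a ha t ht ω fun k => z (by simp [c, k])) (hV a ha) _
    have a4 : (fun ω => la a (ψ a) ω * Ψ ω) = fun ω => la a (ψ a) ω * V a ω +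
        (ψ a ω * D a ω - e a ω * (ex p (ψ a) + er a (ψ a) ω) * D a ω) + la a (ψ a) ω * O a ω := by
      ext ω
      have b1 := sp a ha (ψ a) ω
      rw [(K.meas a ha).P_eq hp] at b1
      have b2 := K.De a ha ω
      have b3 : la a (ψ a) ω * Ψ ω = la a (ψ a) ω * (V a ω + D a ω + O a ω) := by
        by_cases k : ∀ t, t < T → θ a t ω
        · have : la a (ψ a) ω = 0 := sum_eq_zero fun t ht => by simp [c, k t (mem_range.1 ht)]
          simp [this]
        · push Not at k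
          obtain ⟨t, ht, k⟩ := k
          rw [hd a ha t ht ω k]
      rw [b3]
      linear_combination D a ω * b1 + (ex p (ψ a) + er a (ψ a) ω) * b2
    rw [a1, a2, a4, ex_add, ex_add, ex_sub, a3]; ring
  set Φ := ∑ a ∈ s, nsq p (ψ a) / ρ a with hΦ
  have Φ0 : 0 ≤ Φ := sum_nonneg fun a ha => div_nonneg (hp.nsq_nn _) (H.pos a ha).le
  have s0 : ∀ u : α → (∀ i, E i) → ℝ, 0 ≤ ∑ a ∈ s, ρ a * nsq p (u a) := fun u =>
    sum_nonneg fun a ha => mul_nonneg (H.pos a ha).le (hp.nsq_nn _)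
  have c1 : (∑ a ∈ s, ex p fun ω => ψ a ω * (e a ω * er a Ψ ω)) ^ 2 ≤
      Φ * (64 * q * (48 * m * (Nat.log 2 N + 1) * var p Ψ)) := by
    refine (hp.cs_sum s H.pos ψ _).trans (mul_le_mul_of_nonneg_left ?_ Φ0)
    refine le_trans ?_ (mul_le_mul_of_nonneg_left (H.shearer hp Ψ) (by positivity))
    rw [mul_sum]
    refine sum_le_sum fun a ha => ?_
    rw [mul_left_comm]
    exact mul_le_mul_of_nonneg_left ((esq a ha _).trans (zn a ha Ψ)) (H.pos a ha).le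
  have c2 : (∑ a ∈ s, ex p fun ω => e a ω * (ex p (ψ a) + er a (ψ a) ω) * D a ω) ^ 2 ≤
      130 * q * Φ * ∑ a ∈ s, ρ a * nsq p (D a) := by
    refine (hp.cs_sum s H.pos _ D).trans (mul_le_mul_of_nonneg_right ?_ (s0 D))
    rw [hΦ, mul_sum]
    refine sum_le_sum fun a ha => ?_
    rw [← mul_div_assoc]
    refine div_le_div_of_nonneg_right ((esq a ha _).trans ?_) (H.pos a ha).le
    refine (hp.ex_mono (g := fun ω => 2 * ex p (ψ a) ^ 2 * e a ω +
      2 * (e a ω * er a (ψ a) ω ^ 2)) fun ω => ?_).trans ?_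
    · nlinarith [mul_nonneg (K.e0 a ha ω) (sq_nonneg (ex p (ψ a) - er a (ψ a) ω))]
    · rw [ex_add, ex_mul, ex_mul]
      have b1 := (zn a ha (ψ a)).trans (mul_le_mul_of_nonneg_left (Pψ a ha) (by positivity))
      have b2 := mul_le_mul (hp.sq_ex_le (ψ a)) (K.eq a ha) (hp.ex_nn (K.e0 a ha)) (hp.nsq_nn _)
      nlinarith
  have c3 : (∑ a ∈ s, ex p fun ω => la a (ψ a) ω * O a ω) ^ 2 ≤ Φ * ∑ a ∈ s, ρ a * nsq p (O a) := by
    refine (hp.cs_sum s H.pos _ O).trans (mul_le_mul_of_nonneg_right ?_ (s0 O))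
    refine sum_le_sum fun a ha => div_le_div_of_nonneg_right (le_trans ?_ (Pψ a ha)) (H.pos a ha).le
    have z := tr_sq_le hp.w_nn (H.expl a ha).filt ((H.expl a ha).mart hp T (ψ a))
      (fun t ht => ms_iff.2 (mc' a ha t ht)) fun t ω => by simp only [c]; split_ifs <;> simp
    simp only [P0 a ha] at z
    exact z
  rw [dec]
  have t3 : ∀ x y z : ℝ, (x - y + z) ^ 2 ≤ 3 * (x ^ 2 + y ^ 2 + z ^ 2) := fun x y z => by
    nlinarith [sq_nonneg (x + y), sq_nonneg (x - z), sq_nonneg (y + z)]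
  refine (t3 _ _ _).trans ?_
  nlinarith

end Crest.Agent.N337.PH
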