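import Crest.Agent.N337.L4.Ret
import Crest.Agent.N337.A.Defs

/-!
# Row 337, block L4 (helper96): loop functions and linear statistics of the loops

`LF a`: `a ξ v` depends only on the loop through `v` (points and touching coins).
`Phi a ξ` is the sum of `a` over the loops, `psi a r` the share of the root `(0, r)`.
-/

set_option autoImplicit false
set_option linter.unusedSectionVars false

namespace Crest.Agent.N337.Arc

open Finset Equiv Crest.Agent.N337.Rep Crest.Agent.N337.LY0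

variable {Λ : Type} [Fintype Λ] [DecidableEq Λ] {T : ℕ} [NeZero T] (ex ey : Fin T → Λ)

/-- the points of the loop through `v`. -/
noncomputable def lo (ξ : Fin T → Bool) (v : Fin T × Λ) : Finset (Fin T × Λ) :=
  ob (Sg ex ey ξ) (o (Sg ex ey ξ) v)

/-- loop functions. -/
structure LF (a : (Fin T → Bool) → Fin T × Λ → ℝ) : Prop where
  inv : ∀ ξ v, a ξ (Sg ex ey ξ v) = a ξ v
  loc : ∀ ξ ξ' v, (∀ s ∈ tch ex ey (lo ex ey ξ v), ξ' s = ξ s) → a ξ' v = a ξ v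

/-- sum over the loops. -/
noncomputable def Phi (a : (Fin T → Bool) → Fin T × Λ → ℝ) (ξ : Fin T → Bool) : ℝ :=
  ∑ g : Orb (Sg ex ey ξ), a ξ (bp g)

/-- the share of a root. -/
noncomputable def psi (a : (Fin T → Bool) → Fin T × Λ → ℝ) (r : Λ) (ξ : Fin T → Bool) : ℝ :=
  a ξ (0, r) / A.wind ex ey ξ (0, r)

variable {ex ey}

lemma mem_lo {ξ : Fin T → Bool} {v w : Fin T × Λ} :
    w ∈ lo ex ey ξ v ↔ o (Sg ex ey ξ) w = o (Sg ex ey ξ) v := by simp [lo]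

lemma self_mem_lo (ξ : Fin T → Bool) (v : Fin T × Λ) : v ∈ lo ex ey ξ v := mem_lo.2 rfl

lemma arc_mem_lo (ξ : Fin T → Bool) (v : Fin T × Λ) (i : ℕ) : arc ex ey v ξ i ∈ lo ex ey ξ v :=
  mem_lo.2 (o_it _ i v)

lemma mem_lo' {ξ : Fin T → Bool} {v w : Fin T × Λ} :
    w ∈ lo ex ey ξ v ↔ ∃ i < per (Sg ex ey ξ) v, arc ex ey v ξ i = w := by
  simp only [lo, ob_eq, mem_image, mem_range, arc]

lemma lo_eq {ξ : Fin T → Bool} {v w : Fin T × Λ} (h : w ∈ lo ex ey ξ v) :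
    lo ex ey ξ w = lo ex ey ξ v := by rw [lo, mem_lo.1 h, lo]

lemma arc_congr {ξ ξ' : Fin T → Bool} {v : Fin T × Λ}
    (h : ∀ s ∈ tch ex ey (lo ex ey ξ v), ξ' s = ξ s) (i : ℕ) :
    arc ex ey v ξ' i = arc ex ey v ξ i := by
  induction i with
  | zero => rfl
  | succ i ih => rw [arc_succ, arc_succ, ih, Sg_congr ex ey h (arc_mem_lo ξ v i)]

lemma lo_congr {ξ ξ' : Fin T → Bool} {v : Fin T × Λ}
    (h : ∀ s ∈ tch ex ey (lo ex ey ξ v), ξ' s = ξ s) : lo ex ey ξ' v = lo ex ey ξ v := by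
  ext w
  constructor
  · intro hw
    obtain ⟨i, -, rfl⟩ := mem_lo'.1 hw
    rw [arc_congr h]; exact arc_mem_lo ξ v i
  · intro hw
    obtain ⟨i, -, rfl⟩ := mem_lo'.1 hw
    rw [← arc_congr h]; exact arc_mem_lo ξ' v i

lemma wind_eq (ξ : Fin T → Bool) (v : Fin T × Λ) :
    A.wind ex ey ξ v = (univ.filter fun x : Λ => (0, x) ∈ lo ex ey ξ v).card := by
  simp only [A.wind, mem_lo]

lemma wind_congr {ξ ξ' : Fin T → Bool} {v : Fin T × Λ}
    (h : ∀ s ∈ tch ex ey (lo ex ey ξ v), ξ' s = ξ s) : A.wind ex ey ξ' v = A.wind ex ey ξ v := by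
  rw [wind_eq, wind_eq, lo_congr h]

lemma wind_lo {ξ : Fin T → Bool} {v w : Fin T × Λ} (h : w ∈ lo ex ey ξ v) :
    A.wind ex ey ξ w = A.wind ex ey ξ v := by rw [wind_eq, wind_eq, lo_eq h]

lemma wind_pos (ξ : Fin T → Bool) (v : Fin T × Λ) : 0 < A.wind ex ey ξ v := by
  obtain ⟨x, hx⟩ := exists_time ex ey ξ (o _ v) 0
  exact card_pos.2 ⟨x, mem_filter.2 ⟨mem_univ _, hx⟩⟩

lemma lf_wind : LF ex ey fun ξ v => (A.wind ex ey ξ v : ℝ) :=
  ⟨fun ξ v => by rw [wind_lo (v := v) (w := Sg ex ey ξ v) (arc_mem_lo ξ v 1)],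
    fun _ _ _ h => by rw [wind_congr h]⟩

/-- the loop closes after `wind` periods. -/
lemma per_le (ξ : Fin T → Bool) (v : Fin T × Λ) :
    per (Sg ex ey ξ) v ≤ A.wind ex ey ξ v * T := by
  obtain ⟨x, hx⟩ := exists_time ex ey ξ (o _ v) 0
  have hp : per (Sg ex ey ξ) v = per (Sg ex ey ξ) (0, x) := by
    have h1 := sum_ob (Sg ex ey ξ) v fun _ => 1
    have h2 := sum_ob (Sg ex ey ξ) (0, x) fun _ => 1
    rw [hx, h1] at h2
    simpa using h2
  set k := A.wind ex ey ξ v with hk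
  have t0 : ∀ i, arc ex ey (0, x) ξ (i * T) = (0, (arc ex ey (0, x) ξ (i * T)).2) := fun i =>
    Prod.ext (Fin.ext (by rw [arc_time]; simp)) rfl
  obtain ⟨i, hi, j, hj, hne, he⟩ := exists_ne_map_eq_of_card_lt_of_maps_to
    (s := range (k + 1)) (t := univ.filter fun y : Λ => o (Sg ex ey ξ) (0, y) = o (Sg ex ey ξ) v)
    (by rw [card_range]; exact Nat.lt_succ_self _)
    (f := fun i => (arc ex ey (0, x) ξ (i * T)).2) fun i _ => by
      simp only [coe_filter, mem_univ, true_and, Set.mem_ofPred_eq]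
      rw [← t0, ← hx]; exact o_it _ _ _
  have key : ∀ i j, i < j → j ≤ k → arc ex ey (0, x) ξ (i * T) = arc ex ey (0, x) ξ (j * T) →
      per (Sg ex ey ξ) (0, x) ≤ k * T := by
    intro i j hij hj e
    obtain ⟨m, rfl⟩ := Nat.exists_eq_add_of_lt hij
    have e2 : (Sg ex ey ξ)^[(m + 1) * T] (0, x) = (0, x) := by
      refine (Sg ex ey ξ).injective.iterate (i * T) ?_
      rw [← Function.iterate_add_apply, ← add_mul, ← add_assoc]; exact e.symm
    refine (Function.IsPeriodicPt.minimalPeriod_le (Nat.mul_pos m.succ_pos (NeZero.pos T))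
      e2).trans (Nat.mul_le_mul_right _ (by omega))
  rw [hp]
  have he' : arc ex ey (0, x) ξ (i * T) = arc ex ey (0, x) ξ (j * T) := by
    rw [t0 i, t0 j]; exact congrArg _ he
  rcases lt_or_gt_of_ne hne with h | h
  · exact key i j h (by simpa [Nat.lt_succ_iff] using hj) he'
  · exact key j i h (by simpa [Nat.lt_succ_iff] using hi) he'.symm

variable {a c : (Fin T → Bool) → Fin T × Λ → ℝ}

lemma LF.of_mem (ha : LF ex ey a) {ξ : Fin T → Bool} {v w : Fin T × Λ} (h : w ∈ lo ex ey ξ v) :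
    a ξ w = a ξ v := by
  obtain ⟨i, -, rfl⟩ := mem_lo'.1 h
  induction i with
  | zero => rfl
  | succ i ih => rw [arc_succ, ha.inv]; exact ih (arc_mem_lo ξ v i)

lemma LF.comp₂ (ha : LF ex ey a) (hc : LF ex ey c) (F : ℝ → ℝ → ℝ) :
    LF ex ey fun ξ v => F (a ξ v) (c ξ v) :=
  ⟨fun ξ v => by rw [ha.inv, hc.inv], fun ξ ξ' v h => by rw [ha.loc ξ ξ' v h, hc.loc ξ ξ' v h]⟩

lemma LF.comp (ha : LF ex ey a) (F : ℝ → ℝ) : LF ex ey fun ξ v => F (a ξ v) :=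
  ha.comp₂ ha fun x _ => F x

/-- restriction by a property of the point set. -/
lemma LF.ite (ha : LF ex ey a) (Q : Finset (Fin T × Λ) → Prop) [DecidablePred Q] :
    LF ex ey fun ξ v => if Q (lo ex ey ξ v) then a ξ v else 0 :=
  ⟨fun ξ v => by rw [ha.inv, lo_eq (v := v) (w := Sg ex ey ξ v) (arc_mem_lo ξ v 1)],
    fun ξ ξ' v h => by rw [ha.loc ξ ξ' v h, lo_congr h]⟩

/-- loops are counted through their roots. -/
theorem Phi_eq (ha : LF ex ey a) (ξ : Fin T → Bool) : Phi ex ey a ξ = ∑ r, psi ex ey a r ξ := by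
  rw [Phi, ← sum_fiberwise univ fun r : Λ => o (Sg ex ey ξ) (0, r)]
  refine sum_congr rfl fun g _ => ?_
  have e : ∀ r ∈ univ.filter fun r : Λ => o (Sg ex ey ξ) (0, r) = g,
      psi ex ey a r ξ = a ξ (bp g) / A.wind ex ey ξ (bp g) := by
    intro r hr
    have h : (0, r) ∈ lo ex ey ξ (bp g) := mem_lo.2 (by rw [o_bp]; exact (mem_filter.1 hr).2)
    rw [psi, ha.of_mem h, wind_lo h]
  have hw : (univ.filter fun r : Λ => o (Sg ex ey ξ) (0, r) = g).card = A.wind ex ey ξ (bp g) := by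
    rw [A.wind, o_bp]
  have h0 : (A.wind ex ey ξ (bp g) : ℝ) ≠ 0 := by exact_mod_cast (wind_pos ξ _).ne'
  rw [sum_congr rfl e, sum_const, hw, nsmul_eq_mul, mul_div_cancel₀ _ h0]

lemma Phi_nonneg (h : ∀ ξ v, 0 ≤ a ξ v) (ξ : Fin T → Bool) : 0 ≤ Phi ex ey a ξ :=
  sum_nonneg fun _ _ => h _ _

lemma Phi_mono {ξ : Fin T → Bool} (h : ∀ v, a ξ v ≤ c ξ v) : Phi ex ey a ξ ≤ Phi ex ey c ξ :=
  sum_le_sum fun _ _ => h _

/-- `∑ r, psi a r * c (0, r)` is the diagonal. -/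
lemma sum_psi_mul (ha : LF ex ey a) (hc : LF ex ey c) (ξ : Fin T → Bool) :
    ∑ r, psi ex ey a r ξ * c ξ (0, r) = Phi ex ey (fun ξ v => a ξ v * c ξ v) ξ := by
  rw [Phi_eq (ha.comp₂ hc (· * ·))]
  exact sum_congr rfl fun r _ => by simp only [psi]; ring

lemma sum_psi_sq (ha : LF ex ey a) (ξ : Fin T → Bool) : ∑ r, psi ex ey a r ξ ^ 2 =
    Phi ex ey (fun ξ v => a ξ v ^ 2 / A.wind ex ey ξ v) ξ := by
  rw [Phi_eq (ha.comp₂ lf_wind fun x y => x ^ 2 / y)]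
  exact sum_congr rfl fun r _ => by simp only [psi]; ring

lemma sum_root (ha : LF ex ey a) (ξ : Fin T → Bool) : ∑ r, a ξ (0, r) =
    Phi ex ey (fun ξ v => a ξ v * A.wind ex ey ξ v) ξ := by
  rw [Phi_eq (ha.comp₂ lf_wind (· * ·))]
  refine sum_congr rfl fun r _ => ?_
  have h0 : (A.wind ex ey ξ (0, r) : ℝ) ≠ 0 := by exact_mod_cast (wind_pos ξ _).ne'
  simp only [psi]; field_simp

/-- a loop function supported on loops inside the stopping set `R` is measurable. -/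
lemma LF.meas (ha : LF ex ey a) {R : (Fin T → Bool) → Finset (Fin T)}
    (hR : PH.Stop (E := fun _ : Fin T => Bool) R) (v : Fin T × Λ)
    (h : ∀ ξ, a ξ v ≠ 0 → tch ex ey (lo ex ey ξ v) ⊆ R ξ) :
    PH.Meas (E := fun _ : Fin T => Bool) R fun ξ => a ξ v := by
  intro ξ ξ' e
  by_cases h1 : a ξ v = 0
  · by_cases h2 : a ξ' v = 0
    · exact h2.trans h1.symm
    · exact (ha.loc ξ' ξ v fun s hs => (e s (hR ξ ξ' e ▸ h ξ' h2 hs)).symm).symm
  · exact ha.loc ξ ξ' v fun s hs => e s (h ξ h1 hs)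

lemma lf_psi (ha : LF ex ey a) : LF ex ey fun ξ v => a ξ v / A.wind ex ey ξ v :=
  ha.comp₂ lf_wind (· / ·)

/-- **neutrality**: loops that do not touch the zone `Z` do not see its coins. -/
theorem meas_out (ha : LF ex ey a) (Z : Finset (Fin T)) :
    PH.Meas (E := fun _ : Fin T => Bool) (fun _ => Zᶜ)
      (Phi ex ey fun ξ v => if Disjoint (tch ex ey (lo ex ey ξ v)) Z then a ξ v else 0) := by
  have hl := ha.ite fun O => Disjoint (tch ex ey O) Z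
  intro ξ ξ' e
  rw [Phi_eq hl, Phi_eq hl]
  refine sum_congr rfl fun r _ => (lf_psi hl).meas (PH.stop_const Zᶜ) (0, r) (fun η h => ?_) ξ ξ' e
  by_cases k : Disjoint (tch ex ey (lo ex ey η (0, r))) Z
  · exact subset_compl_iff_disjoint_right.2 k
  · simp [k] at h

variable {ok : (ℕ → Fin T × Λ) → ℕ → Prop}

lemma lo_sub_Al {ξ : Fin T → Bool} {u : Fin T × Λ} {K : ℕ} (hK : A.wind ex ey ξ u ≤ K)
    (h : ∀ i, ok (arc ex ey u ξ) i) : lo ex ey ξ u ⊆ Al ex ey ok u (K * T) ξ := by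
  intro w hw
  obtain ⟨i, hi, rfl⟩ := mem_lo'.1 hw
  exact mem_Al.2 ⟨i, hi.trans_le ((per_le ξ u).trans (Nat.mul_le_mul_right _ hK)),
    fun j _ => h j, rfl⟩

lemma Al_sub_lo (ξ : Fin T → Bool) (u : Fin T × Λ) (t : ℕ) :
    Al ex ey ok u t ξ ⊆ lo ex ey ξ u := by
  intro w hw
  obtain ⟨i, -, -, rfl⟩ := mem_Al.1 hw
  exact arc_mem_lo ξ u i

/-- the value at the root is known at the end of the exploration. -/
theorem meas_root (ha : LF ex ey a) (hr : Rule ok) {u : Fin T × Λ} {K : ℕ}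
    (h : ∀ ξ, a ξ u ≠ 0 → A.wind ex ey ξ u ≤ K ∧ ∀ i, ok (arc ex ey u ξ) i) :
    PH.Meas (E := fun _ : Fin T => Bool) (X ex ey ok u (K * T)) fun ξ => a ξ u :=
  ha.meas ((expl hr).stop _) u fun ξ k => tch_mono ex ey (lo_sub_Al (h ξ k).1 (h ξ k).2)

theorem meas_psi (ha : LF ex ey a) (hr : Rule ok) {r : Λ} {K : ℕ}
    (h : ∀ ξ, a ξ (0, r) ≠ 0 → A.wind ex ey ξ (0, r) ≤ K ∧ ∀ i, ok (arc ex ey (0, r) ξ) i) :
    PH.Meas (E := fun _ : Fin T => Bool) (X ex ey ok (0, r) (K * T)) (psi ex ey a r) :=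
  meas_root (lf_psi ha) hr fun ξ k => h ξ fun z => k (by simp [z])

end Crest.Agent.N337.Arc
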