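import Mathlib

/-!
# Row 337, L4: finite product probability spaces, stopping sets, conditional expectations

`Ω = ∀ i, E i` with independent cells of law `p i`.  `P p R f` is the conditional expectation of
`f` given the cells of the stopping set `R`; `C p A f` is the case of a fixed set `A`.
-/

set_option autoImplicit false
set_option linter.unusedSectionVars false

namespace Crest.Agent.N337.PH

open Finset

variable {ι : Type} [Fintype ι] [DecidableEq ι] {E : ι → Type} [∀ i, Fintype (E i)]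

/-- every `p i` is a probability vector. -/
structure Pr (p : ∀ i, E i → ℝ) : Prop where
  nn : ∀ i x, 0 ≤ p i x
  one : ∀ i, ∑ x, p i x = 1

/-- product weight. -/
def w (p : ∀ i, E i → ℝ) (ω : ∀ i, E i) : ℝ := ∏ i, p i (ω i)

/-- expectation. -/
def ex (p : ∀ i, E i → ℝ) (f : (∀ i, E i) → ℝ) : ℝ := ∑ ω, w p ω * f ω

/-- squared norm. -/
def nsq (p : ∀ i, E i → ℝ) (f : (∀ i, E i) → ℝ) : ℝ := ex p fun ω => f ω ^ 2

/-- variance. -/
def var (p : ∀ i, E i → ℝ) (f : (∀ i, E i) → ℝ) : ℝ := nsq p fun ω => f ω - ex p f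

/-- `ω` on `A`, `ω'` off `A`. -/
def pw (A : Finset ι) (ω ω' : ∀ i, E i) : ∀ i, E i := fun i => if i ∈ A then ω i else ω' i

@[simp] lemma pw_mem {A : Finset ι} (ω ω' : ∀ i, E i) {i : ι} (h : i ∈ A) : pw A ω ω' i = ω i :=
  if_pos h

@[simp] lemma pw_not {A : Finset ι} (ω ω' : ∀ i, E i) {i : ι} (h : i ∉ A) : pw A ω ω' i = ω' i :=
  if_neg h

@[simp] lemma pw_empty (ω ω' : ∀ i, E i) : pw ∅ ω ω' = ω' := funext fun _ => pw_not _ _ (by simp)

/-- `R` is a stopping set: it is determined by the cells it contains. -/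
def Stop (R : (∀ i, E i) → Finset ι) : Prop :=
  ∀ ω ω', (∀ i ∈ R ω, ω' i = ω i) → R ω' = R ω

/-- conditional expectation given the cells in `R ω`. -/
def P (p : ∀ i, E i → ℝ) (R : (∀ i, E i) → Finset ι) (f : (∀ i, E i) → ℝ) (ω : ∀ i, E i) : ℝ :=
  ∑ ω', w p ω' * f (pw (R ω) ω ω')

/-- conditional expectation given the cells in the fixed set `A`. -/
def C (p : ∀ i, E i → ℝ) (A : Finset ι) (f : (∀ i, E i) → ℝ) : (∀ i, E i) → ℝ :=
  P p (fun _ => A) f

/-- `f` is determined by the cells of `R`. -/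
def Meas (R : (∀ i, E i) → Finset ι) (f : (∀ i, E i) → ℝ) : Prop :=
  ∀ ω ω', (∀ i ∈ R ω, ω' i = ω i) → f ω' = f ω

/-- `D_c f = f - E_c f`. -/
def D (p : ∀ i, E i → ℝ) (c : ι) (f : (∀ i, E i) → ℝ) (ω : ∀ i, E i) : ℝ :=
  f ω - C p {c}ᶜ f ω

variable {p : ∀ i, E i → ℝ} {R R' : (∀ i, E i) → Finset ι} {f g : (∀ i, E i) → ℝ}

lemma Pr.w_nn (hp : Pr p) (ω : ∀ i, E i) : 0 ≤ w p ω := prod_nonneg fun i _ => hp.nn i _

lemma Pr.sum_w (hp : Pr p) : ∑ ω, w p ω = 1 := by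
  have h := Finset.prod_univ_sum (fun i => (univ : Finset (E i))) p
  simp only [hp.one, prod_const_one, Fintype.piFinset_univ] at h
  exact h.symm

lemma stop_const (A : Finset ι) : Stop (E := E) fun _ => A := fun _ _ _ => rfl

lemma P_eq_C (ω : ∀ i, E i) : P p R f ω = C p (R ω) f ω := rfl

lemma ex_add (f g : (∀ i, E i) → ℝ) : ex p (fun ω => f ω + g ω) = ex p f + ex p g := by
  simp only [ex, mul_add, sum_add_distrib]

lemma ex_sub (f g : (∀ i, E i) → ℝ) : ex p (fun ω => f ω - g ω) = ex p f - ex p g := by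
  simp only [ex, mul_sub, sum_sub_distrib]

lemma ex_mul (a : ℝ) (f : (∀ i, E i) → ℝ) : ex p (fun ω => a * f ω) = a * ex p f := by
  simp only [ex, mul_sum]; exact sum_congr rfl fun _ _ => by ring

lemma ex_sum {κ : Type} (s : Finset κ) (F : κ → (∀ i, E i) → ℝ) :
    ex p (fun ω => ∑ k ∈ s, F k ω) = ∑ k ∈ s, ex p (F k) := by
  simp only [ex, mul_sum]; exact sum_comm

lemma Pr.ex_const (hp : Pr p) (a : ℝ) : ex p (fun _ => a) = a := by
  simp only [ex, ← sum_mul, hp.sum_w, one_mul]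

lemma Pr.ex_mono (hp : Pr p) (h : ∀ ω, f ω ≤ g ω) : ex p f ≤ ex p g :=
  sum_le_sum fun ω _ => mul_le_mul_of_nonneg_left (h ω) (hp.w_nn ω)

lemma Pr.ex_nn (hp : Pr p) (h : ∀ ω, 0 ≤ f ω) : 0 ≤ ex p f :=
  sum_nonneg fun ω _ => mul_nonneg (hp.w_nn ω) (h ω)

lemma Pr.nsq_nn (hp : Pr p) (f : (∀ i, E i) → ℝ) : 0 ≤ nsq p f := hp.ex_nn fun _ => sq_nonneg _

/-- Jensen. -/
lemma Pr.sq_ex_le (hp : Pr p) (f : (∀ i, E i) → ℝ) : ex p f ^ 2 ≤ nsq p f := by
  have h := hp.nsq_nn fun ω => f ω - ex p f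
  have e : nsq p (fun ω => f ω - ex p f) = nsq p f - ex p f ^ 2 := by
    have : (fun ω => (f ω - ex p f) ^ 2) =
        fun ω => (f ω ^ 2 - (2 * ex p f) * f ω) + ex p f ^ 2 := by ext; ring
    rw [nsq, this, ex_add, ex_sub, ex_mul, hp.ex_const, nsq]; ring
  linarith

/-- Cauchy-Schwarz. -/
lemma Pr.cs (hp : Pr p) (f g : (∀ i, E i) → ℝ) :
    ex p (fun ω => f ω * g ω) ^ 2 ≤ nsq p f * nsq p g := by
  refine sum_sq_le_sum_mul_sum_of_sq_le_mul _ (fun ω _ => ?_) (fun ω _ => ?_) fun ω _ => ?_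
  · exact mul_nonneg (hp.w_nn ω) (sq_nonneg _)
  · exact mul_nonneg (hp.w_nn ω) (sq_nonneg _)
  · exact le_of_eq (by ring)

lemma w_pw (A : Finset ι) (ω ω' : ∀ i, E i) :
    w p (pw A ω ω') * w p (pw A ω' ω) = w p ω * w p ω' := by
  simp only [w, ← prod_mul_distrib]
  refine prod_congr rfl fun i _ => ?_
  by_cases h : i ∈ A
  · simp only [pw_mem _ _ h]
  · simp only [pw_not _ _ h, mul_comm]

lemma Stop.pw_eq (hR : Stop R) (ω ω' : ∀ i, E i) : R (pw (R ω) ω ω') = R ω :=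
  hR _ _ fun _ h => pw_mem _ _ h

/-- the basic symmetry: exchange the unrevealed cells of two independent copies. -/
theorem Stop.swap (hR : Stop R) (F : (∀ i, E i) → (∀ i, E i) → ℝ) :
    ∑ ω, ∑ ω', w p ω * w p ω' * F (pw (R ω) ω ω') (pw (R ω) ω' ω) =
      ∑ ω, ∑ ω', w p ω * w p ω' * F ω ω' := by
  rw [← sum_product', ← sum_product']
  have inv : Function.Involutive fun x : (∀ i, E i) × (∀ i, E i) =>
      (pw (R x.1) x.1 x.2, pw (R x.1) x.2 x.1) := by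
    rintro ⟨ω, ω'⟩
    simp only [hR.pw_eq, Prod.mk.injEq]
    constructor <;> ext i <;> by_cases h : i ∈ R ω <;> simp [h]
  refine Fintype.sum_bijective _ inv.bijective _ _ fun x => ?_
  simp only [w_pw]

/-- self-adjointness. -/
theorem Stop.symm (hR : Stop R) (f g : (∀ i, E i) → ℝ) :
    ex p (fun ω => f ω * P p R g ω) = ex p fun ω => P p R f ω * g ω := by
  have h := hR.swap (p := p) fun ω ω' => f (pw (R ω) ω ω') * g ω
  simp only [hR.pw_eq] at h
  have e : ∀ ω ω' : ∀ i, E i, pw (R ω) (pw (R ω) ω ω') (pw (R ω) ω' ω) = ω := by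
    intro ω ω'; ext i; by_cases h : i ∈ R ω <;> simp [h]
  simp only [e] at h
  simp only [ex, P, mul_sum, sum_mul]
  convert h using 3 <;> ring

lemma P_add (f g : (∀ i, E i) → ℝ) (ω : ∀ i, E i) :
    P p R (fun ω => f ω + g ω) ω = P p R f ω + P p R g ω := by
  simp only [P, mul_add, sum_add_distrib]

lemma P_sub (f g : (∀ i, E i) → ℝ) (ω : ∀ i, E i) :
    P p R (fun ω => f ω - g ω) ω = P p R f ω - P p R g ω := by
  simp only [P, mul_sub, sum_sub_distrib]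

lemma P_smul (a : ℝ) (f : (∀ i, E i) → ℝ) (ω : ∀ i, E i) :
    P p R (fun ω => a * f ω) ω = a * P p R f ω := by
  simp only [P, mul_sum]; exact sum_congr rfl fun _ _ => by ring

lemma P_sum {κ : Type} (s : Finset κ) (F : κ → (∀ i, E i) → ℝ) (ω : ∀ i, E i) :
    P p R (fun ω => ∑ k ∈ s, F k ω) ω = ∑ k ∈ s, P p R (F k) ω := by
  simp only [P, mul_sum]; exact sum_comm

lemma Pr.P_mono (hp : Pr p) (h : ∀ ω, f ω ≤ g ω) (ω : ∀ i, E i) : P p R f ω ≤ P p R g ω :=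
  sum_le_sum fun ω' _ => mul_le_mul_of_nonneg_left (h _) (hp.w_nn ω')

lemma Pr.P_nn (hp : Pr p) (h : ∀ ω, 0 ≤ f ω) (ω : ∀ i, E i) : 0 ≤ P p R f ω :=
  sum_nonneg fun ω' _ => mul_nonneg (hp.w_nn ω') (h _)

/-- measurable factors come out. -/
lemma Meas.P_mul (hf : Meas R f) (g : (∀ i, E i) → ℝ) (ω : ∀ i, E i) :
    P p R (fun ω => f ω * g ω) ω = f ω * P p R g ω := by
  simp only [P, mul_sum]
  refine sum_congr rfl fun ω' _ => ?_
  rw [hf ω (pw (R ω) ω ω') fun _ h => pw_mem _ _ h]; ring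

lemma Pr.P_const (hp : Pr p) (a : ℝ) (ω : ∀ i, E i) : P p R (fun _ => a) ω = a := by
  simp only [P, ← sum_mul, hp.sum_w, one_mul]

lemma Meas.P_eq (hp : Pr p) (hf : Meas R f) (ω : ∀ i, E i) : P p R f ω = f ω := by
  have h := hf.P_mul (p := p) (fun _ => 1) ω
  simpa only [mul_one, hp.P_const] using h

lemma Stop.meas_P (hR : Stop R) (f : (∀ i, E i) → ℝ) : Meas R (P p R f) := by
  intro ω ω' h
  simp only [P, hR ω ω' h]
  refine sum_congr rfl fun η _ => ?_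
  congr 2
  ext i
  by_cases hi : i ∈ R ω <;> simp [hi, h i]

lemma Meas.mono (hf : Meas R f) (h : ∀ ω, R ω ⊆ R' ω) : Meas R' f :=
  fun ω ω' e => hf ω ω' fun i hi => e i (h ω hi)

lemma Meas.mul (hf : Meas R f) (hg : Meas R g) : Meas R fun ω => f ω * g ω :=
  fun ω ω' e => by beta_reduce; rw [hf ω ω' e, hg ω ω' e]

lemma Meas.sub (hf : Meas R f) (hg : Meas R g) : Meas R fun ω => f ω - g ω :=
  fun ω ω' e => by beta_reduce; rw [hf ω ω' e, hg ω ω' e]

lemma meas_const (a : ℝ) : Meas R fun _ => a := fun _ _ _ => rfl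

/-- defining property of the conditional expectation. -/
lemma Stop.ex_mul_P (hp : Pr p) (hR : Stop R) (hf : Meas R f) (g : (∀ i, E i) → ℝ) :
    ex p (fun ω => f ω * P p R g ω) = ex p fun ω => f ω * g ω := by
  rw [hR.symm]; simp only [hf.P_eq hp]

lemma Stop.ex_P (hp : Pr p) (hR : Stop R) (g : (∀ i, E i) → ℝ) : ex p (P p R g) = ex p g := by
  simpa only [one_mul] using hR.ex_mul_P hp (meas_const 1) g

/-- conditional Jensen. -/
lemma Pr.sq_P_le (hp : Pr p) (f : (∀ i, E i) → ℝ) (ω : ∀ i, E i) :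
    P p R f ω ^ 2 ≤ P p R (fun ω => f ω ^ 2) ω :=
  hp.sq_ex_le fun ω' => f (pw (R ω) ω ω')

/-- weighted contraction. -/
lemma Stop.ex_sq_P_le (hp : Pr p) (hR : Stop R) (hf : Meas R f) (h0 : ∀ ω, 0 ≤ f ω)
    (g : (∀ i, E i) → ℝ) :
    ex p (fun ω => f ω * P p R g ω ^ 2) ≤ ex p fun ω => f ω * g ω ^ 2 := by
  rw [← hR.ex_mul_P hp hf fun ω => g ω ^ 2]
  exact hp.ex_mono fun ω => mul_le_mul_of_nonneg_left (hp.sq_P_le g ω) (h0 ω)

lemma Stop.nsq_P_le (hp : Pr p) (hR : Stop R) (g : (∀ i, E i) → ℝ) : nsq p (P p R g) ≤ nsq p g := by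
  simpa only [one_mul, nsq] using hR.ex_sq_P_le hp (meas_const 1) (fun _ => zero_le_one) g

/-- Pythagoras. -/
lemma Stop.nsq_split (hp : Pr p) (hR : Stop R) (g : (∀ i, E i) → ℝ) :
    nsq p g = nsq p (P p R g) + nsq p fun ω => g ω - P p R g ω := by
  have h := hR.ex_mul_P hp (hR.meas_P (p := p) g) g
  have e : (fun ω => (g ω - P p R g ω) ^ 2) = fun ω =>
      (g ω ^ 2 - 2 * (P p R g ω * g ω)) + P p R g ω * P p R g ω := by ext; ring
  have e2 : (fun ω => P p R g ω ^ 2) = fun ω => P p R g ω * P p R g ω := by ext; ring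
  simp only [nsq]
  rw [e, ex_add, ex_sub, ex_mul, e2, h]; ring

lemma P_empty (f : (∀ i, E i) → ℝ) (ω : ∀ i, E i) (h : R ω = ∅) : P p R f ω = ex p f := by
  simp only [P, h, pw_empty, ex]

lemma C_empty (f : (∀ i, E i) → ℝ) (ω : ∀ i, E i) : C p ∅ f ω = ex p f := P_empty f ω rfl

lemma Pr.C_univ (hp : Pr p) (f : (∀ i, E i) → ℝ) (ω : ∀ i, E i) : C p univ f ω = f ω :=
  Meas.P_eq hp (fun _ _ h => by rw [funext fun i => h i (mem_univ i)]) ω

theorem Pr.C_C (hp : Pr p) (A B : Finset ι) (f : (∀ i, E i) → ℝ) (ω : ∀ i, E i) :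
    C p A (C p B f) ω = C p (A ∩ B) f ω := by
  have h := (stop_const (E := E) B).swap (p := p) fun η _ => f (pw (A ∩ B) ω η)
  have e : ∀ η η' : ∀ i, E i, pw (A ∩ B) ω (pw B η η') =
      pw B (pw A ω η) η' := by
    intro η η'; ext i; by_cases ha : i ∈ A <;> by_cases hb : i ∈ B <;> simp [ha, hb]
  simp only [e] at h
  simp only [C, P, mul_sum, ← mul_assoc, h]
  refine sum_congr rfl fun η _ => ?_
  rw [← sum_mul, ← mul_sum, hp.sum_w, mul_one]

/-- tower property, outer form. -/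
lemma Stop.P_P (hp : Pr p) (hR : Stop R) (h : ∀ ω, R ω ⊆ R' ω) (f : (∀ i, E i) → ℝ)
    (ω : ∀ i, E i) : P p R' (P p R f) ω = P p R f ω :=
  ((hR.meas_P f).mono h).P_eq hp ω

/-- a coarser conditional expectation has smaller norm. -/
lemma Stop.nsq_mono (hp : Pr p) (hR : Stop R) (hR' : Stop R') (h : ∀ ω, R ω ⊆ R' ω)
    (f : (∀ i, E i) → ℝ) : nsq p (P p R f) ≤ nsq p (P p R' f) := by
  have m := hR.meas_P (p := p) f
  have e1 := hR.ex_mul_P hp m f
  have e2 := hR'.ex_mul_P hp (m.mono h) f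
  have c := hp.cs (P p R f) (P p R' f)
  have e : nsq p (P p R f) = ex p fun ω => P p R f ω * P p R f ω := by
    simp only [nsq, sq]
  rw [e2, ← e1, ← e] at c
  have h0 := hp.nsq_nn (P p R f)
  have h1 := hp.nsq_nn (P p R' f)
  nlinarith

/-- orthogonal increments. -/
lemma Stop.nsq_incr (hp : Pr p) (hR : Stop R) (hR' : Stop R') (h : ∀ ω, R ω ⊆ R' ω)
    (f : (∀ i, E i) → ℝ) :
    nsq p (P p R' f) = nsq p (P p R f) + nsq p fun ω => P p R' f ω - P p R f ω := by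
  have m := hR.meas_P (p := p) f
  have e1 := hR.ex_mul_P hp m f
  have e2 := hR'.ex_mul_P hp (m.mono h) f
  have e : (fun ω => (P p R' f ω - P p R f ω) ^ 2) = fun ω =>
      (P p R' f ω ^ 2 - 2 * (P p R f ω * P p R' f ω)) + P p R f ω * P p R f ω := by ext; ring
  have e3 : (fun ω => P p R f ω ^ 2) = fun ω => P p R f ω * P p R f ω := by ext; ring
  simp only [nsq]
  rw [e, ex_add, ex_sub, ex_mul, e3, e1, e2]; ring

end Crest.Agent.N337.PH
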