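import Crest.Agent.N337.L4.Shearer
import Crest.Agent.N337.Rep.Path

/-!
# Row 337, block L4 (helper96): the explorer of the arc from a root

`arc u ξ i` is the tip after `i` steps, `Al ok u t ξ` the explored points, `X ok u t ξ` the revealed
coins (all coins touching the explored points).  Given them the law of the coins is `Pw (pin ..)`.
With the speed limit `spd` the multiplicity of every cell is bounded deterministically.
-/

set_option autoImplicit false
set_option linter.unusedSectionVars false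

namespace Crest.Agent.N337.Arc

open Finset Equiv Crest.Agent.N337.Rep

variable {Λ : Type} [Fintype Λ] [DecidableEq Λ] {T : ℕ} [NeZero T]

/-- the laws of the coins. -/
def pb (p : Fin T → ℝ) : ∀ _ : Fin T, Bool → ℝ := fun s b => wb (p s) b

lemma w_pb (p : Fin T → ℝ) (ξ : Fin T → Bool) : PH.w (pb p) ξ = Pw p ξ := rfl

lemma pr_pb {p : Fin T → ℝ} (hp : ∀ s, 0 ≤ p s ∧ p s ≤ 1) : PH.Pr (pb p) :=
  ⟨fun s b => by unfold pb wb; split_ifs; exacts [(hp s).1, sub_nonneg.2 (hp s).2],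
    fun s => by simp [pb, wb]⟩

/-- the coins of `A` are pinned to their values in `ξ`. -/
def pin (p : Fin T → ℝ) (A : Finset (Fin T)) (ξ : Fin T → Bool) : Fin T → ℝ :=
  fun s => if s ∈ A then (if ξ s = true then 1 else 0) else p s

lemma pin_mem {p : Fin T → ℝ} (hp : ∀ s, 0 ≤ p s ∧ p s ≤ 1) (A : Finset (Fin T))
    (ξ : Fin T → Bool) (s : Fin T) : 0 ≤ pin p A ξ s ∧ pin p A ξ s ≤ 1 := by
  unfold pin; split_ifs
  exacts [⟨zero_le_one, le_rfl⟩, ⟨le_rfl, zero_le_one⟩, hp s]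

lemma pin_congr (p : Fin T → ℝ) {A : Finset (Fin T)} {ξ ξ' : Fin T → Bool}
    (h : ∀ s ∈ A, ξ' s = ξ s) : pin p A ξ' = pin p A ξ := by
  funext s; unfold pin; by_cases hs : s ∈ A
  · rw [if_pos hs, if_pos hs, h s hs]
  · rw [if_neg hs, if_neg hs]

lemma Pw_pin_supp {p : Fin T → ℝ} {A : Finset (Fin T)} {ξ ξ' : Fin T → Bool}
    (h : Pw (pin p A ξ) ξ' ≠ 0) : ∀ s ∈ A, ξ' s = ξ s := by
  intro s hs
  have := prod_ne_zero_iff.1 h s (mem_univ s)
  simp only [pin, hs, if_true, wb] at this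
  cases h1 : ξ s <;> cases h2 : ξ' s <;> simp_all

/-- the conditional law given the coins of `A`. -/
theorem C_pin {p : Fin T → ℝ} (A : Finset (Fin T)) (f : (Fin T → Bool) → ℝ) (ξ : Fin T → Bool) :
    PH.C (pb p) A f ξ = ∑ ξ', Pw (pin p A ξ) ξ' * f ξ' := by
  have e : ∀ η : Fin T → Bool, f (PH.pw A ξ η) =
      ∑ ξ', (∏ s, if ξ' s = PH.pw A ξ η s then (1 : ℝ) else 0) * f ξ' := by
    intro η
    rw [sum_eq_single (PH.pw A ξ η)]
    · simp
    · intro ξ' _ hne
      obtain ⟨s, hs⟩ := Function.ne_iff.1 hne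
      rw [prod_eq_zero (mem_univ s) (if_neg hs), zero_mul]
    · simp
  simp only [PH.C, PH.P, e, mul_sum]
  rw [sum_comm]
  refine sum_congr rfl fun ξ' _ => ?_
  simp only [← mul_assoc]
  rw [← sum_mul]
  congr 1
  simp only [PH.w, ← prod_mul_distrib]
  have h := Finset.prod_univ_sum (fun _ : Fin T => (univ : Finset Bool)) fun s b =>
    pb p s b * if ξ' s = (if s ∈ A then ξ s else b) then (1 : ℝ) else 0
  rw [Fintype.piFinset_univ] at h
  refine h.symm.trans (prod_congr rfl fun s _ => ?_)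
  by_cases hs : s ∈ A <;> cases h1 : ξ s <;> cases h2 : ξ' s <;> simp [pb, wb, pin, hs, h1]

lemma P_pin {p : Fin T → ℝ} (R : (Fin T → Bool) → Finset (Fin T)) (f : (Fin T → Bool) → ℝ)
    (ξ : Fin T → Bool) : PH.P (pb p) R f ξ = ∑ ξ', Pw (pin p (R ξ) ξ) ξ' * f ξ' :=
  C_pin (R ξ) f ξ

/-- kill on a set of points. -/
def kill (b : Fin T × Λ → ℝ) (O : Finset (Fin T × Λ)) : Fin T × Λ → ℝ :=
  fun v => if v ∈ O then 0 else b v

variable (ex ey : Fin T → Λ)

/-- the coins touching a set of points. -/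
def tch (O : Finset (Fin T × Λ)) : Finset (Fin T) :=
  univ.filter fun s => (s, ex s) ∈ O ∨ (s, ey s) ∈ O

lemma mem_tch {O : Finset (Fin T × Λ)} {s : Fin T} :
    s ∈ tch ex ey O ↔ (s, ex s) ∈ O ∨ (s, ey s) ∈ O := by simp [tch]

lemma tch_mono {O O' : Finset (Fin T × Λ)} (h : O ⊆ O') : tch ex ey O ⊆ tch ex ey O' :=
  fun _ hs => (mem_tch ex ey).2 (((mem_tch ex ey).1 hs).imp (@h _) (@h _))

lemma tch_union (O O' : Finset (Fin T × Λ)) :
    tch ex ey (O ∪ O') = tch ex ey O ∪ tch ex ey O' := by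
  ext s; simp only [mem_tch, mem_union]; tauto

/-- the step of a point only reads a coin touching it. -/
lemma Sg_congr {O : Finset (Fin T × Λ)} {ξ ξ' : Fin T → Bool}
    (h : ∀ s ∈ tch ex ey O, ξ' s = ξ s) {v : Fin T × Λ} (hv : v ∈ O) :
    Sg ex ey ξ' v = Sg ex ey ξ v := by
  obtain ⟨s, x⟩ := v
  rw [Sg_apply, Sg_apply]
  by_cases hs : s ∈ tch ex ey O
  · rw [h s hs]
  · rw [mem_tch, not_or] at hs
    have h1 : x ≠ ex s := fun e => hs.1 (e ▸ hv)
    have h2 : x ≠ ey s := fun e => hs.2 (e ▸ hv)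
    have : ∀ b, sg (ex s) (ey s) b x = x := fun b => by
      cases b <;> simp [sg, swap_apply_of_ne_of_ne h1 h2]
    rw [this, this]

/-- the tip after `i` steps. -/
def arc (u : Fin T × Λ) (ξ : Fin T → Bool) (i : ℕ) : Fin T × Λ := (Sg ex ey ξ)^[i] u

lemma arc_zero (u : Fin T × Λ) (ξ : Fin T → Bool) : arc ex ey u ξ 0 = u := rfl

lemma arc_succ (u : Fin T × Λ) (ξ : Fin T → Bool) (i : ℕ) :
    arc ex ey u ξ (i + 1) = Sg ex ey ξ (arc ex ey u ξ i) := Function.iterate_succ_apply' _ _ _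

lemma arc_add (u : Fin T × Λ) (ξ : Fin T → Bool) (i j : ℕ) :
    arc ex ey u ξ (i + j) = arc ex ey (arc ex ey u ξ i) ξ j := by
  rw [arc, add_comm, Function.iterate_add_apply]; rfl

lemma arc_time (u : Fin T × Λ) (ξ : Fin T → Bool) (i : ℕ) :
    (arc ex ey u ξ i).1.val = (u.1.val + i) % T := by
  induction i with
  | zero => simp [arc_zero, Nat.mod_eq_of_lt u.1.2]
  | succ i ih =>
    rw [arc_succ]
    change ((arc ex ey u ξ i).1 + 1).val = _
    rw [Fin.val_add, ih, Fin.val_one', ← Nat.add_mod, add_assoc]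

/-- a stop rule reads the path up to the present step. -/
def Rule (ok : (ℕ → Fin T × Λ) → ℕ → Prop) : Prop :=
  ∀ a a' i, (∀ j ≤ i, a' j = a j) → ok a i → ok a' i

variable (ok : (ℕ → Fin T × Λ) → ℕ → Prop) (u : Fin T × Λ)

/-- the explorer is allowed to make step `i`. -/
def run (ξ : Fin T → Bool) (i : ℕ) : Prop := ∀ j ≤ i, ok (arc ex ey u ξ) j

open Classical in
/-- the explored points. -/
noncomputable def Al (t : ℕ) (ξ : Fin T → Bool) : Finset (Fin T × Λ) :=
  ((range t).filter (run ex ey ok u ξ)).image (arc ex ey u ξ)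

/-- the revealed coins. -/
noncomputable def X (t : ℕ) (ξ : Fin T → Bool) : Finset (Fin T) := tch ex ey (Al ex ey ok u t ξ)

variable {ex ey ok u}

lemma mem_Al {t : ℕ} {ξ : Fin T → Bool} {v : Fin T × Λ} :
    v ∈ Al ex ey ok u t ξ ↔ ∃ i < t, run ex ey ok u ξ i ∧ arc ex ey u ξ i = v := by
  simp only [Al, mem_image, mem_filter, mem_range, and_assoc]

lemma Al_zero (ξ : Fin T → Bool) : Al ex ey ok u 0 ξ = ∅ := by simp [Al]

lemma X_zero (ξ : Fin T → Bool) : X ex ey ok u 0 ξ = ∅ := by simp [X, Al_zero, tch]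

lemma Al_mono {s t : ℕ} (h : s ≤ t) (ξ : Fin T → Bool) :
    Al ex ey ok u s ξ ⊆ Al ex ey ok u t ξ := fun _ hv => by
  obtain ⟨i, hi, h1⟩ := mem_Al.1 hv
  exact mem_Al.2 ⟨i, hi.trans_le h, h1⟩

/-- the path is determined by the revealed coins as long as the explorer runs. -/
theorem agree {t : ℕ} {ξ ξ' : Fin T → Bool} (h : ∀ s ∈ X ex ey ok u t ξ, ξ' s = ξ s) :
    ∀ i ≤ t, (∀ j < i, ok (arc ex ey u ξ) j) → arc ex ey u ξ' i = arc ex ey u ξ i := by
  intro i
  induction i with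
  | zero => intros; rfl
  | succ i ih =>
    intro hi hr
    rw [arc_succ, arc_succ, ih (by omega) fun j hj => hr j (by omega)]
    exact Sg_congr ex ey h (mem_Al.2 ⟨i, hi, fun j hj => hr j (by omega), rfl⟩)

theorem run_iff (hr : Rule ok) {t : ℕ} {ξ ξ' : Fin T → Bool}
    (h : ∀ s ∈ X ex ey ok u t ξ, ξ' s = ξ s) {i : ℕ} (hi : i ≤ t) :
    run ex ey ok u ξ' i ↔ run ex ey ok u ξ i := by
  constructor
  · intro h' j
    induction j using Nat.strong_induction_on with
    | _ j ih =>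
      intro hj
      refine hr _ _ j (fun l hl => (agree h l (by omega) fun m hm => ?_).symm) (h' j hj)
      exact ih m (by omega) (by omega)
  · intro h' j hj
    exact hr _ _ j (fun l hl => agree h l (by omega) fun m hm => h' m (by omega)) (h' j hj)

theorem Al_pred (hr : Rule ok) {t : ℕ} {ξ ξ' : Fin T → Bool}
    (h : ∀ s ∈ X ex ey ok u t ξ, ξ' s = ξ s) :
    Al ex ey ok u (t + 1) ξ' = Al ex ey ok u (t + 1) ξ := by
  ext v
  simp only [mem_Al]
  refine exists_congr fun i => and_congr_right fun hi => ?_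
  rw [run_iff hr h (by omega)]
  refine and_congr_right fun h1 => ?_
  rw [agree h i (by omega) fun j hj => h1 j hj.le]

theorem Al_stop (hr : Rule ok) {t : ℕ} {ξ ξ' : Fin T → Bool}
    (h : ∀ s ∈ X ex ey ok u t ξ, ξ' s = ξ s) : Al ex ey ok u t ξ' = Al ex ey ok u t ξ := by
  cases t with
  | zero => rw [Al_zero, Al_zero]
  | succ t => exact Al_pred hr fun s hs => h s (tch_mono ex ey (Al_mono t.le_succ ξ) hs)

/-- the arc is an explorer. -/
theorem expl (hr : Rule ok) : PH.Expl (E := fun _ : Fin T => Bool) (X ex ey ok u) :=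
  ⟨fun _ _ => by rw [X_zero, X_zero], fun t ξ => tch_mono ex ey (Al_mono t.le_succ ξ),
    fun _ _ _ h => by rw [X, X, Al_pred hr h]⟩

/-- a new coin touches the present tip. -/
lemma new_coin {t : ℕ} {ξ : Fin T → Bool} {s : Fin T} (h1 : s ∈ X ex ey ok u (t + 1) ξ)
    (h2 : s ∉ X ex ey ok u t ξ) : run ex ey ok u ξ t ∧
      (arc ex ey u ξ t = (s, ex s) ∨ arc ex ey u ξ t = (s, ey s)) := by
  have key : ∀ v ∈ Al ex ey ok u (t + 1) ξ, v ∉ Al ex ey ok u t ξ →
      run ex ey ok u ξ t ∧ arc ex ey u ξ t = v := fun v hv hv' => by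
    obtain ⟨i, hi, hr, e⟩ := mem_Al.1 hv
    rcases Nat.lt_succ_iff_lt_or_eq.1 hi with h | rfl
    · exact absurd (mem_Al.2 ⟨i, h, hr, e⟩) hv'
    · exact ⟨hr, e⟩
  rw [X, mem_tch] at h1 h2
  rw [not_or] at h2
  rcases h1 with h | h
  · exact ⟨(key _ h h2.1).1, Or.inl (key _ h h2.1).2⟩
  · exact ⟨(key _ h h2.2).1, Or.inr (key _ h h2.2).2⟩

open Classical in
/-- functions of the running path are measurable. -/
theorem meas_path (hr : Rule ok) {t i : ℕ} (hi : i ≤ t) (F : (ℕ → Fin T × Λ) → ℝ)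
    (hF : ∀ a a', (∀ j ≤ i, a' j = a j) → F a' = F a) :
    PH.Meas (E := fun _ : Fin T => Bool) (X ex ey ok u t) fun ξ =>
      if ∀ j < i, ok (arc ex ey u ξ) j then F (arc ex ey u ξ) else 0 := by
  intro ξ ξ' h
  have e : (∀ j < i, ok (arc ex ey u ξ') j) ↔ ∀ j < i, ok (arc ex ey u ξ) j := by
    cases i with
    | zero => simp
    | succ i =>
      simp only [Nat.lt_succ_iff]
      exact run_iff hr h (by omega)
  beta_reduce
  by_cases h1 : ∀ j < i, ok (arc ex ey u ξ) j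
  · rw [if_pos h1, if_pos (e.2 h1)]
    exact hF _ _ fun j hj => agree h j (by omega) fun l hl => h1 l (by omega)
  · rw [if_neg h1, if_neg fun k => h1 (e.1 k)]

section speed

/-- the speed limit: the tip is near its position at the start `ws s` of the window. -/
def spd (ws : Fin T → Fin T) (near : Λ → Λ → Prop) (a : ℕ → Fin T × Λ) (i : ℕ) : Prop :=
  near (a (i - ((a i).1.val - (ws (a i).1).val))).2 (a i).2

lemma rule_spd (ws : Fin T → Fin T) (near : Λ → Λ → Prop) : Rule (spd ws near) := by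
  intro a a' i h
  simp only [spd, h i le_rfl, h _ (Nat.sub_le _ _), imp_self]

lemma Rule.and {ok ok' : (ℕ → Fin T × Λ) → ℕ → Prop} (h : Rule ok) (h' : Rule ok') :
    Rule fun a i => ok a i ∧ ok' a i :=
  fun a a' i e k => ⟨h a a' i e k.1, h' a a' i e k.2⟩

variable {ws : Fin T → Fin T} {near : Λ → Λ → Prop}

/-- a revealed coin comes from a window start near one of its ends. -/
lemma anchor (hws : ∀ s, ws s ≤ s) (hok : ∀ a i, ok a i → spd ws near a i) {K : ℕ} {r : Λ}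
    {ξ : Fin T → Bool} {s : Fin T} (hs : s ∈ X ex ey ok (0, r) (K * T) ξ) :
    ∃ k < K, ∃ x0, arc ex ey (0, r) ξ (k * T + (ws s).val) = (ws s, x0) ∧
      (near x0 (ex s) ∨ near x0 (ey s)) := by
  have key : ∀ x, (s, x) ∈ Al ex ey ok (0, r) (K * T) ξ →
      ∃ k < K, ∃ x0, arc ex ey (0, r) ξ (k * T + (ws s).val) = (ws s, x0) ∧ near x0 x := by
    intro x hx
    obtain ⟨i, hi, hr, e⟩ := mem_Al.1 hx
    have h1 := hok _ _ (hr i le_rfl)
    have h2 := arc_time ex ey (0, r) ξ i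
    simp only [spd, e] at h1
    simp only [e, Fin.val_zero, zero_add] at h2
    have h3 : (ws s).val ≤ s.val := hws s
    have h4 := Nat.div_add_mod i T
    have h5 : i - (s.val - (ws s).val) = i / T * T + (ws s).val := by
      rw [mul_comm]; omega
    rw [h5] at h1
    refine ⟨i / T, Nat.div_lt_of_lt_mul (by rwa [mul_comm]), _, Prod.ext (Fin.ext ?_) rfl, h1⟩
    rw [arc_time]
    simp [Nat.mod_eq_of_lt (ws s).2]
  rcases (mem_tch ex ey).1 hs with h | h
  · obtain ⟨k, hk, x0, h1, h2⟩ := key _ h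
    exact ⟨k, hk, x0, h1, Or.inl h2⟩
  · obtain ⟨k, hk, x0, h1, h2⟩ := key _ h
    exact ⟨k, hk, x0, h1, Or.inr h2⟩

variable {κ : Type} [DecidableEq κ] {cl : Fin T → κ}

/-- **multiplicity**: a cell is seen by at most `K * m0` roots. -/
theorem mult_le (hws : ∀ s, ws s ≤ s) {oks : Λ → (ℕ → Fin T × Λ) → ℕ → Prop}
    (hok : ∀ r a i, oks r a i → spd ws near a i) {m0 : ℕ}
    (N : κ → Finset (Fin T × Λ)) (hN : ∀ c, (N c).card ≤ m0)
    (hm : ∀ s x0, near x0 (ex s) ∨ near x0 (ey s) → (ws s, x0) ∈ N (cl s)) (K : ℕ)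
    (ξ : Fin T → Bool) (c : κ) :
    (univ.filter fun r : Λ => c ∈ (X ex ey (oks r) (0, r) (K * T) ξ).image cl).card ≤ K * m0 := by
  have sub : (univ.filter fun r : Λ => c ∈ (X ex ey (oks r) (0, r) (K * T) ξ).image cl) ⊆
      (range K ×ˢ N c).image fun z => ((Sg ex ey ξ).symm^[z.1 * T + z.2.1.val] z.2).2 := by
    intro r hr
    obtain ⟨s, hs, rfl⟩ := mem_image.1 (mem_filter.1 hr).2
    obtain ⟨k, hk, x0, h1, h2⟩ := anchor hws (hok r) hs
    refine mem_image.2 ⟨(k, (ws s, x0)), mem_product.2 ⟨mem_range.2 hk, hm s x0 h2⟩, ?_⟩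
    simp only
    rw [← h1, arc, Function.LeftInverse.iterate (Sg ex ey ξ).symm_apply_apply _ _]
  refine (card_le_card sub).trans (card_image_le.trans ?_)
  rw [card_product, card_range]
  exact Nat.mul_le_mul_left _ (hN c)

/-- **size**: an explorer sees at most `K * B * n0` cells. -/
theorem size_le (hws : ∀ s, ws s ≤ s) (hok : ∀ a i, ok a i → spd ws near a i) {B n0 : ℕ}
    (hB : (univ.image ws).card ≤ B) (M : Fin T × Λ → Finset κ) (hM : ∀ v, (M v).card ≤ n0)
    (hm : ∀ s x0, near x0 (ex s) ∨ near x0 (ey s) → cl s ∈ M (ws s, x0)) (K : ℕ) (r : Λ)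
    (ξ : Fin T → Bool) : ((X ex ey ok (0, r) (K * T) ξ).image cl).card ≤ K * B * n0 := by
  have sub : (X ex ey ok (0, r) (K * T) ξ).image cl ⊆ (range K ×ˢ univ.image ws).biUnion
      fun z => M (arc ex ey (0, r) ξ (z.1 * T + z.2.val)) := by
    intro c hc
    obtain ⟨s, hs, rfl⟩ := mem_image.1 hc
    obtain ⟨k, hk, x0, h1, h2⟩ := anchor hws hok hs
    refine mem_biUnion.2 ⟨(k, ws s), mem_product.2 ⟨mem_range.2 hk, mem_image_of_mem _ (mem_univ s)⟩,
      ?_⟩
    simp only [h1]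
    exact hm s x0 h2
  refine (card_le_card sub).trans ((card_biUnion_le_card_mul _ _ n0 fun z _ => hM _).trans ?_)
  rw [card_product, card_range]
  gcongr

end speed

end Crest.Agent.N337.Arc
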