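import Crest.Agent.N337.L4.Gram2
import Crest.Agent.N337.L4.Loop

/-!
# Row 337, L4 (helper96): the linear Turán–Kubilius bounds in the product medium

`tk0`: universal variance bound for a linear statistic of slow loops.
`gram`: the covariance of two linear statistics is diagonal up to a small error.
-/

set_option autoImplicit false
set_option linter.unusedSectionVars false

namespace Crest.Agent.N337.Arc

open Finset Equiv Crest.Agent.N337.Rep Crest.Agent.N337.LY0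

variable {Λ : Type} [Fintype Λ] [DecidableEq Λ] {T : ℕ} [NeZero T] {ex ey : Fin T → Λ}
  {κ : Type} [Fintype κ] [DecidableEq κ] {cl : Fin T → κ} {p : Fin T → ℝ}
  {oks : Λ → (ℕ → Fin T × Λ) → ℕ → Prop} {a c : (Fin T → Bool) → Fin T × Λ → ℝ}

/-- expectation over the coins. -/
abbrev EP (p : Fin T → ℝ) (f : (Fin T → Bool) → ℝ) : ℝ := PH.ex (pb p) f

/-- the explorers from the roots, `K` periods long, with multiplicity `m` and size `N`. -/
abbrev Shr (ex ey : Fin T → Λ) (cl : Fin T → κ) (oks : Λ → (ℕ → Fin T × Λ) → ℕ → Prop) (K : ℕ)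
    (m : ℝ) (N : ℕ) : Prop :=
  PH.Sh (E := fun _ : Fin T => Bool) cl univ (fun _ => 1) (fun r => X ex ey (oks r) (0, r))
    (K * T) m N

/-- speed limits give the hypotheses of the Shearer inequality. -/
theorem shr_of {ws : Fin T → Fin T} {near : Λ → Λ → Prop} (hr : ∀ r, Rule (oks r))
    (hws : ∀ s, ws s ≤ s) (hok : ∀ r a i, oks r a i → spd ws near a i) {m0 B n0 : ℕ}
    (N : κ → Finset (Fin T × Λ)) (hN : ∀ c, (N c).card ≤ m0)
    (hm : ∀ s x0, near x0 (ex s) ∨ near x0 (ey s) → (ws s, x0) ∈ N (cl s))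
    (hB : (univ.image ws).card ≤ B) (M : Fin T × Λ → Finset κ) (hM : ∀ v, (M v).card ≤ n0)
    (hm' : ∀ s x0, near x0 (ex s) ∨ near x0 (ey s) → cl s ∈ M (ws s, x0)) (K : ℕ) :
    Shr ex ey cl oks K (K * m0 : ℕ) (K * B * n0) where
  expl r _ := expl (hr r)
  zero _ _ ω := X_zero ω
  pos _ _ := one_pos
  m0 := by positivity
  mult ω γ := by
    rw [sum_boole]
    exact_mod_cast mult_le hws hok N hN hm K ω γ
  card r _ ω := size_le hws (hok r) hB M hM hm' K r ω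

/-- `a` lives on loops of winding at most `K` along which the explorers run. -/
def Sup (ex ey : Fin T → Λ) (oks : Λ → (ℕ → Fin T × Λ) → ℕ → Prop) (K : ℕ)
    (a : (Fin T → Bool) → Fin T × Λ → ℝ) : Prop :=
  ∀ r ξ, a ξ (0, r) ≠ 0 → A.wind ex ey ξ (0, r) ≤ K ∧ ∀ i, oks r (arc ex ey (0, r) ξ) i

lemma sum_nsq_psi (ha : LF ex ey a) : ∑ r, PH.nsq (pb p) (psi ex ey a r) =
    EP p (Phi ex ey fun ξ v => a ξ v ^ 2 / A.wind ex ey ξ v) := by
  simp only [PH.nsq]
  rw [← PH.ex_sum]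
  congr 1; funext ξ; exact sum_psi_sq ha ξ

/-- **TK0.** -/
theorem tk0 (hp : ∀ s, 0 ≤ p s ∧ p s ≤ 1) (hr : ∀ r, Rule (oks r)) {K N : ℕ} {m : ℝ}
    (H : Shr ex ey cl oks K m N) (hc : LF ex ey c) (hs : Sup ex ey oks K c) :
    PH.var (pb p) (Phi ex ey c) ≤ 48 * m * (Nat.log 2 N + 1) *
      EP p (Phi ex ey fun ξ v => c ξ v ^ 2 / A.wind ex ey ξ v) := by
  have k := H.dual (pr_pb hp) (φ := psi ex ey c) fun r _ => meas_psi hc (hr r) (hs r)
  simp only [div_one, ← Phi_eq hc, sum_nsq_psi hc] at k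
  exact k

open Classical in
/-- the number of loops of the support of `c` that touch `Z` and miss `u`. -/
noncomputable def cnt (ex ey : Fin T → Λ) (c : (Fin T → Bool) → Fin T × Λ → ℝ)
    (Z : Finset (Fin T)) (u : Fin T × Λ) : (Fin T → Bool) → ℝ :=
  Phi ex ey fun ξ v => if ¬ Disjoint (tch ex ey (lo ex ey ξ v)) Z ∧ u ∉ lo ex ey ξ v ∧ c ξ v ≠ 0
    then 1 else 0

lemma Phi_own (hc : LF ex ey c) (u : Fin T × Λ) (ξ : Fin T → Bool) :
    Phi ex ey (fun ξ v => if u ∈ lo ex ey ξ v then c ξ v else 0) ξ = c ξ u := by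
  rw [Phi, sum_eq_single (o (Sg ex ey ξ) u)]
  · have : u ∈ lo ex ey ξ (bp (o (Sg ex ey ξ) u)) := mem_lo.2 (o_bp _).symm
    rw [if_pos this, hc.of_mem this]
  · intro g _ hg
    exact if_neg fun k => hg (by rw [mem_lo.1 k, o_bp])
  · simp

open Classical in
/-- hypotheses of the Gram bound: zones `W r`, closure bound `q`, touch bound `q'`. -/
structure Gh (ex ey : Fin T → Λ) (p : Fin T → ℝ) (oks : Λ → (ℕ → Fin T × Λ) → ℕ → Prop)
    (K K' mZ : ℕ) (W : Λ → Finset (Fin T × Λ)) (a c : (Fin T → Bool) → Fin T × Λ → ℝ)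
    (q q' : ℝ) : Prop where
  q0 : 0 < q
  h0 : ∀ r, EP p (fun ξ => if a ξ (0, r) = 0 then 0 else 1) ≤ q
  h1 : ∀ r t ξ, run ex ey (oks r) (0, r) ξ t → t < per (Sg ex ey ξ) (0, r) →
    arc ex ey (0, r) ξ t ∉ W r →
    PH.P (pb p) (X ex ey (oks r) (0, r) t) (fun ξ => if a ξ (0, r) = 0 then 0 else 1) ξ ≤ q ∧
    PH.P (pb p) (X ex ey (oks r) (0, r) (t + 1)) (fun ξ => if a ξ (0, r) = 0 then 0 else 1) ξ ≤ q
  tou : ∀ r ξ, PH.P (pb p) (X ex ey (oks r) (0, r) (K * T))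
    (cnt ex ey c (tch ex ey (W r)) (0, r)) ξ ≤ q'
  wc : ∀ ξ v, c ξ v ≠ 0 → A.wind ex ey ξ v ≤ K'
  mz : ∀ ξ v, c ξ v ≠ 0 →
    (univ.filter fun r => ¬ Disjoint (tch ex ey (lo ex ey ξ v)) (tch ex ey (W r))).card ≤ mZ

lemma mem_Al_iff {ok : (ℕ → Fin T × Λ) → ℕ → Prop} {u : Fin T × Λ} {ξ : Fin T → Bool} {t : ℕ}
    (h : run ex ey ok u ξ t) :
    arc ex ey u ξ t ∈ Al ex ey ok u t ξ ↔ per (Sg ex ey ξ) u ≤ t := by
  constructor
  · intro k
    obtain ⟨i, hi, -, e⟩ := mem_Al.1 k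
    by_contra hc
    have := it_inj (π := Sg ex ey ξ) (x := u) (i := i) (j := t) (by omega) (by omega) e
    omega
  · intro k
    have h1 := Nat.mod_lt t (per_pos (Sg ex ey ξ) u)
    exact mem_Al.2 ⟨t % per (Sg ex ey ξ) u, by omega, fun j hj => h j (by omega),
      Function.iterate_mod_minimalPeriod_eq⟩

/-- **product Gram bound.** -/
theorem gram (hp : ∀ s, 0 ≤ p s ∧ p s ≤ 1) (hr : ∀ r, Rule (oks r)) {K K' mZ N : ℕ} {m q q' : ℝ}
    {W : Λ → Finset (Fin T × Λ)} (H : Shr ex ey cl oks K m N) (ha : LF ex ey a) (hc : LF ex ey c)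
    (hs : Sup ex ey oks K a) (G : Gh ex ey p oks K K' mZ W a c q q') :
    (EP p (fun ξ => Phi ex ey a ξ * (Phi ex ey c ξ - EP p (Phi ex ey c))) -
      EP p (Phi ex ey fun ξ v => a ξ v * c ξ v)) ^ 2 ≤
      3 * EP p (Phi ex ey fun ξ v => a ξ v ^ 2 / A.wind ex ey ξ v) *
        (3072 * q * m * (Nat.log 2 N + 1) * PH.var (pb p) (Phi ex ey c) +
          (130 * q * K' + q' * mZ) * EP p (Phi ex ey fun ξ v => c ξ v ^ 2)) := by
  classical
  have hP := pr_pb hp
  set e : Λ → (Fin T → Bool) → ℝ := fun r ξ => if a ξ (0, r) = 0 then 0 else 1 with he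
  set Z : Λ → Finset (Fin T) := fun r => tch ex ey (W r) with hZ
  set O : Λ → (Fin T → Bool) → ℝ := fun r => Phi ex ey fun ξ v =>
    if ¬ Disjoint (tch ex ey (lo ex ey ξ v)) (Z r) ∧ (0, r) ∉ lo ex ey ξ v then c ξ v else 0 with hO
  set S : Λ → (Fin T → Bool) → ℝ := fun r => Phi ex ey fun ξ v =>
    if ¬ Disjoint (tch ex ey (lo ex ey ξ v)) (Z r) then c ξ v ^ 2 else 0 with hS
  have dead : ∀ r t ξ, ¬ run ex ey (oks r) (0, r) ξ t → ∀ n, t ≤ n →
      PH.P (pb p) (X ex ey (oks r) (0, r) n) (e r) ξ ≤ q := by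
    intro r t ξ h n hn
    refine le_trans (le_of_eq ?_) G.q0.le
    refine sum_eq_zero fun η _ => ?_
    have k := run_iff (hr r) (ξ := ξ) (ξ' := PH.pw (X ex ey (oks r) (0, r) n ξ) ξ η)
      (fun s hs => PH.pw_mem _ _ hs) hn
    have : a (PH.pw (X ex ey (oks r) (0, r) n ξ) ξ η) (0, r) = 0 := by
      by_contra hc
      exact h (k.1 fun j _ => (hs r _ hc).2 j)
    simp only [he, this, if_true, mul_zero]
  have gm : PH.Gm2 (E := fun _ : Fin T => Bool) (pb p) univ (fun r => X ex ey (oks r) (0, r))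
      (K * T) e (psi ex ey a) (fun r ξ => c ξ (0, r)) O (Phi ex ey c) q := by
    refine ⟨G.q0, fun r _ ξ => ?_, fun r _ ξ => ?_, fun r _ => G.h0 r,
      fun r _ => meas_psi ha (hr r) (hs r), fun r _ ξ => ?_,
      fun r t ξ => run ex ey (oks r) (0, r) ξ t →
        arc ex ey (0, r) ξ t ∉ Al ex ey (oks r) (0, r) t ξ ∧ arc ex ey (0, r) ξ t ∉ W r,
      Z, fun r => Phi ex ey fun ξ v => if Disjoint (tch ex ey (lo ex ey ξ v)) (Z r) then
        (if (0, r) ∉ lo ex ey ξ v then c ξ v else 0) else 0,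
      fun r _ t _ ξ ξ' h => ?_, fun r _ t _ ξ h => ?_, fun r _ t _ ξ h s hs => ?_,
      fun r _ => meas_out (hc.ite fun O => (0, r) ∉ O) (Z r), fun r _ t _ ξ _ => ?_⟩
    · simp only [he]; split_ifs <;> norm_num
    · simp only [he]; split_ifs <;> norm_num
    · simp only [he, psi]; split_ifs with h <;> simp [h]
    · beta_reduce
      rw [run_iff (hr r) h le_rfl]
      refine imp_congr_right fun k => ?_
      rw [Al_stop (hr r) h, agree h t le_rfl fun j hj => k j hj.le]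
    · by_cases k : run ex ey (oks r) (0, r) ξ t
      · exact G.h1 r t ξ k (not_le.1 fun z => (h k).1 ((mem_Al_iff k).2 z)) (h k).2
      · exact ⟨dead r t ξ k t le_rfl, dead r t ξ k _ t.le_succ⟩
    · obtain ⟨k1, k2⟩ := new_coin (mem_sdiff.1 hs).1 (mem_sdiff.1 hs).2
      have k3 : arc ex ey (0, r) ξ t ∉ Al ex ey (oks r) (0, r) t ξ := fun z =>
        (mem_sdiff.1 hs).2 ((mem_tch ex ey).2
          (k2.imp (fun y => by rwa [← y]) fun y => by rwa [← y]))
      have k4 : arc ex ey (0, r) ξ t ∈ W r := by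
        by_contra z; exact h fun _ => ⟨k3, z⟩
      exact (mem_tch ex ey).2 (k2.imp (fun y => by rwa [← y]) fun y => by rwa [← y])
    · rw [← Phi_own hc (0, r) ξ]
      simp only [hO, Phi, ← sum_add_distrib]
      refine sum_congr rfl fun g _ => ?_
      by_cases h1 : Disjoint (tch ex ey (lo ex ey ξ (bp g))) (Z r) <;>
        by_cases h2 : (0, r) ∈ lo ex ey ξ (bp g) <;> simp [h1, h2]
  have k := gm.gram hP H
  simp only [div_one, one_mul, sum_nsq_psi ha] at k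
  rw [← PH.ex_sum, ← PH.ex_sum] at k
  simp only [← sum_mul, ← Phi_eq ha, sum_psi_mul ha hc] at k
  refine k.trans (mul_le_mul_of_nonneg_left ?_ (mul_nonneg (by norm_num)
    (hP.ex_nn (Phi_nonneg fun ξ v => by positivity))))
  rw [add_assoc, add_mul]
  have q0 := G.q0
  refine add_le_add le_rfl (add_le_add ?_ ?_)
  · rw [mul_assoc (130 * q)]
    refine mul_le_mul_of_nonneg_left ?_ (by positivity)
    simp only [PH.nsq]
    rw [← PH.ex_sum, ← PH.ex_mul]
    refine hP.ex_mono fun ξ => ?_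
    rw [sum_root (hc.comp (· ^ 2)), Phi, Phi, mul_sum]
    refine sum_le_sum fun g _ => ?_
    by_cases z : c ξ (bp g) = 0
    · simp [z]
    · rw [mul_comm]
      exact mul_le_mul_of_nonneg_right (by exact_mod_cast G.wc ξ _ z) (sq_nonneg _)
  have S0 : ∀ r ξ, 0 ≤ S r ξ := fun r => Phi_nonneg fun ξ v => by split_ifs <;> positivity
  have n0 : ∀ r ξ, 0 ≤ cnt ex ey c (Z r) (0, r) ξ := fun r =>
    Phi_nonneg fun ξ v => by split_ifs <;> positivity
  have c1 : ∀ r ξ, O r ξ ^ 2 ≤ cnt ex ey c (Z r) (0, r) ξ * S r ξ := fun r ξ => by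
    refine sum_sq_le_sum_mul_sum_of_sq_le_mul _
      (fun g _ => by beta_reduce; split_ifs <;> positivity)
      (fun g _ => by beta_reduce; split_ifs <;> positivity) fun g _ => ?_
    by_cases h1 : Disjoint (tch ex ey (lo ex ey ξ (bp g))) (Z r) <;>
      by_cases h2 : (0, r) ∈ lo ex ey ξ (bp g) <;> by_cases h3 : c ξ (bp g) = 0 <;>
      simp [h1, h2, h3]
  have c2 : ∀ r, PH.nsq (pb p) (PH.P (pb p) (X ex ey (oks r) (0, r) (K * T)) (O r)) ≤
      q' * EP p (S r) := fun r => by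
    rw [EP, ← ((expl (hr r)).stop (K * T)).ex_P hP (S r), ← PH.ex_mul]
    refine hP.ex_mono fun ξ => le_trans ?_
      (mul_le_mul_of_nonneg_right (G.tou r ξ) (hP.P_nn (S0 r) ξ))
    refine sum_sq_le_sum_mul_sum_of_sq_le_mul _ (fun η _ => mul_nonneg (hP.w_nn η) (n0 r _))
      (fun η _ => mul_nonneg (hP.w_nn η) (S0 r _)) fun η _ => ?_
    rw [mul_pow, mul_mul_mul_comm, ← sq]
    exact mul_le_mul_of_nonneg_left (c1 r _) (sq_nonneg _)
  rcases isEmpty_or_nonempty Λ with hΛ | ⟨⟨r0⟩⟩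
  · have z : ∀ ξ, Phi ex ey (fun ξ v => c ξ v ^ 2) ξ = 0 := fun ξ => by
      rw [Phi_eq (hc.comp (· ^ 2))]; simp
    simp [PH.ex, z]
  have q1 : 0 ≤ q' := (hP.P_nn (n0 r0) fun _ => false).trans (G.tou r0 _)
  refine (sum_le_sum fun r _ => c2 r).trans ?_
  rw [← mul_sum, mul_assoc]
  refine mul_le_mul_of_nonneg_left ?_ q1
  rw [← PH.ex_sum, ← PH.ex_mul]
  refine hP.ex_mono fun ξ => ?_
  simp only [hS, Phi]
  rw [sum_comm, mul_sum]
  refine sum_le_sum fun g _ => ?_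
  by_cases z : c ξ (bp g) = 0
  · simp [z]
  · rw [← sum_filter, sum_const, nsmul_eq_mul]
    exact mul_le_mul_of_nonneg_right (by exact_mod_cast G.mz ξ _ z) (sq_nonneg _)

end Crest.Agent.N337.Arc
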