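import Crest.Agent.N337.L4.Ret2
import Crest.Agent.N337.L4.TKP

/-!
# Row 337, block L4 (helper96): the hypotheses of the Gram bound from `HG` and `HE`
-/

set_option autoImplicit false
set_option linter.unusedSectionVars false

namespace Crest.Agent.N337.Arc

open Finset Equiv Crest.Agent.N337.Rep Crest.Agent.N337.LY0

variable {Λ : Type} [Fintype Λ] [DecidableEq Λ] {T : ℕ} [NeZero T] {ex ey : Fin T → Λ}
  {p : Fin T → ℝ} {b : Fin T × Λ → ℝ} {Gd0 Gd1 : Finset (Fin T × Λ) → (Fin T → Bool) → Prop}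
  {Pr Pr2 : Fin T × Λ → Fin T × Λ → Prop} {γ γ2 ε L : ℝ} {ws : Fin T → Fin T} {near : Λ → Λ → Prop}
  {a c : (Fin T → Bool) → Fin T × Λ → ℝ} {ξ : Fin T → Bool}

/-- every time slice of a loop has `wind` points. -/
lemma slice (ξ : Fin T → Bool) (v : Fin T × Λ) (s : Fin T) :
    (univ.filter fun x : Λ => (s, x) ∈ lo ex ey ξ v).card = A.wind ex ey ξ v := by
  rw [wind_eq]
  have ht : ∀ x, arc ex ey (0, x) ξ s.val = (s, (arc ex ey (0, x) ξ s.val).2) := fun x =>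
    Prod.ext (Fin.ext (by rw [arc_time]; simp [Nat.mod_eq_of_lt s.2])) rfl
  have inj : Function.Injective fun x => (arc ex ey (0, x) ξ s.val).2 := fun x y h => by
    have : arc ex ey (0, x) ξ s.val = arc ex ey (0, y) ξ s.val := by
      rw [ht x, ht y]; exact congrArg _ h
    exact (Prod.ext_iff.1 ((Sg ex ey ξ).injective.iterate _ this)).2
  refine (card_bijective _ inj.bijective_of_finite fun x => ?_).symm
  simp only [mem_filter, mem_univ, true_and]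
  rw [← ht, mem_lo, mem_lo, arc, o_it]

lemma supp_pin {A : Finset (Fin T)} {η : Fin T → Bool} (h : Pw p ξ ≠ 0)
    (h' : Pw (pin p A ξ) η ≠ 0) : Pw p η ≠ 0 := by
  refine prod_ne_zero_iff.2 fun s _ => ?_
  by_cases k : s ∈ A
  · rw [Pw_pin_supp h' s k]; exact prod_ne_zero_iff.1 h s (mem_univ s)
  · simpa only [pin, if_neg k] using prod_ne_zero_iff.1 h' s (mem_univ s)

/-- the probabilistic inputs. -/
structure Inp (ex ey : Fin T → Λ) (p : Fin T → ℝ) (b : Fin T × Λ → ℝ)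
    (Gd0 Gd1 : Finset (Fin T × Λ) → (Fin T → Bool) → Prop) (Pr : Fin T × Λ → Fin T × Λ → Prop)
    (γ ε L : ℝ) : Prop where
  hp : ∀ s, 0 ≤ p s ∧ p s ≤ 1
  hb : Fld b
  mono : Mono ex ey Gd1
  hG : HG ex ey p b Gd1 Pr γ
  hE : HE ex ey p b Gd0 Gd1 ε
  γ0 : 0 < γ
  L1 : 1 ≤ L
  g0 : ∀ ξ, Gd0 ∅ ξ

lemma Inp.ε0 (I : Inp ex ey p b Gd0 Gd1 Pr γ ε L) : 0 ≤ ε :=
  (bm_nn I.hp I.hb Gd1 ∅ fun _ => false).trans (I.hE _ _ (I.g0 _) (by rw [ends_empty]; omega))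

/-- **closure of an arc.** -/
theorem close (I : Inp ex ey p b Gd0 Gd1 Pr γ ε L) {ok : (ℕ → Fin T × Λ) → ℕ → Prop}
    {u : Fin T × Λ} {n : ℕ} (hn : run ex ey ok u ξ n) (hp : n < per (Sg ex ey ξ) u)
    (hg : Gd0 (Al ex ey ok u (n + 1) ξ) ξ) (hP : Pr u (arc ex ey u ξ (n + 1)))
    (H : (Fin T → Bool) → ℝ) (H1 : ∀ η, H η ≤ 1)
    (hH : ∀ η, Pw (pin p (X ex ey ok u (n + 1) ξ) ξ) η ≠ 0 →
      H η ≤ L * pr (Sg ex ey η) b (o _ u)) :
    PH.P (pb p) (X ex ey ok u (n + 1)) H ξ ≤ L * (γ + ε) := by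
  have L0 : 0 ≤ L := zero_le_one.trans I.L1
  have he := ends_Al (ex := ex) (ey := ey) ok u (n + 1) ξ
  rw [P_pin, X, mul_add]
  rw [arc_succ] at hP
  refine (retE I.hp I.hb I.mono I.hG I.γ0.le L0 (he.trans one_le_two)
    (mem_Al.2 ⟨n, n.lt_succ_self, hn, rfl⟩) hP H fun η k => (hH η k).trans ?_).trans
    (add_le_add le_rfl (le_trans (sum_le_sum fun η _ => ?_)
      ((I.hE _ _ hg he).trans (le_mul_of_one_le_left I.ε0 I.L1))))
  · have e : ∀ i ≤ n + 1, arc ex ey u η i = arc ex ey u ξ i := fun i hi =>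
      agree (Pw_pin_supp k) i hi fun j hj => hn j (by omega)
    have h1 : n + 1 ≤ per (Sg ex ey η) u := by
      by_contra hc
      have h2 := per_pos (Sg ex ey η) u
      have := it_inj (π := Sg ex ey ξ) (x := u) (i := per (Sg ex ey η) u) (j := 0) (by omega)
        (by omega) ((e _ (by omega)).symm.trans (it_per _ _))
      omega
    rw [← arc_succ, ← e _ le_rfl]
    refine mul_le_mul_of_nonneg_left (le_trans ?_ (aw_rest I.hb.mem h1 fun i h2 h3 h4 => ?_)) L0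
    · exact prod_le_prod_of_subset_of_le_one sdiff_subset (fun v _ => (I.hb.mem v).1)
        fun v _ _ => (I.hb.mem v).2
    · obtain ⟨j, hj, -, e3⟩ := mem_Al.1 h4
      have := it_inj (π := Sg ex ey η) (x := u) (i := j) (j := i) (by omega) h3
        ((e j hj.le).trans e3)
      omega
  · exact mul_le_mul_of_nonneg_left (mul_le_of_le_one_left (bad_nn I.hb _ _ _) (H1 η))
      (Pw_nonneg (pin_mem I.hp _ _) η)

/-- **closure of a far reaching loop** in a good environment. -/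
theorem far (I : Inp ex ey p b Gd0 Gd1 Pr γ ε L) {E F : Finset (Fin T × Λ)} {z : Fin T × Λ}
    (hg : Gd0 E ξ) (he : ends ex ey ξ E ≤ 1) (hz : z ∉ F) (hF : ∀ f ∈ F, Pr z f)
    (H : (Fin T → Bool) → ℝ) (H1 : ∀ η, H η ≤ 1)
    (hH : ∀ η, Pw (pin p (tch ex ey E) ξ) η ≠ 0 → H η ≠ 0 → ¬ Disjoint (lo ex ey η z) F ∧
      Disjoint (lo ex ey η z) E ∧ 1 ≤ L * pr (Sg ex ey η) b (o _ z)) :
    ∑ η, Pw (pin p (tch ex ey E) ξ) η * H η ≤ L * (γ + ε) := by
  have L0 : 0 ≤ L := zero_le_one.trans I.L1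
  refine le_trans ?_ (mul_le_mul_of_nonneg_left ((ret2 I.hp I.hb I.mono I.hG I.γ0.le he hz hF).trans
    (add_le_add le_rfl (I.hE _ _ hg he))) L0)
  rw [mul_sum]
  refine sum_le_sum fun η _ => ?_
  by_cases k : Pw (pin p (tch ex ey E) ξ) η = 0
  · simp [k]
  rw [mul_left_comm]
  refine mul_le_mul_of_nonneg_left ?_ (Pw_nonneg (pin_mem I.hp _ _) η)
  by_cases h : H η = 0
  · rw [h]
    refine mul_nonneg L0 ?_
    split_ifs; exacts [le_rfl, pr_nonneg (fun v => ((I.hb.kill E).mem v).1) _]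
  · obtain ⟨h1, h2, h3⟩ := hH η k h
    rw [if_neg h1, pr_congr (a := kill b E) (b := b) fun v hv =>
      if_neg (disjoint_left.1 h2 (mem_lo.2 hv))]
    exact (H1 η).trans h3

/-- the class of the loop through `v`: slow, heavy, with good (perturbed) parts. -/
structure Cls (ex ey : Fin T → Λ) (b : Fin T × Λ → ℝ)
    (Gd0 : Finset (Fin T × Λ) → (Fin T → Bool) → Prop) (ws : Fin T → Fin T) (near : Λ → Λ → Prop)
    (L : ℝ) (ξ : Fin T → Bool) (v : Fin T × Λ) : Prop where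
  slow : ∀ r, (0, r) ∈ lo ex ey ξ v → ∀ i, spd ws near (arc ex ey (0, r) ξ) i
  wt : 1 ≤ L * pr (Sg ex ey ξ) b (o _ v)
  gd : ∀ O ⊆ lo ex ey ξ v, ∀ ξ' w, (∀ x ∈ O, x ≠ w → Sg ex ey ξ' x = Sg ex ey ξ x) → Gd0 O ξ'

/-- the stop rule: slow and good whatever the next step is. -/
def okG (ex ey : Fin T → Λ) (Gd0 : Finset (Fin T × Λ) → (Fin T → Bool) → Prop)
    (ws : Fin T → Fin T) (near : Λ → Λ → Prop) (r : Λ) (a : ℕ → Fin T × Λ) (i : ℕ) : Prop :=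
  spd ws near a i ∧
    ∀ ξ', (∀ j ≤ i, arc ex ey (0, r) ξ' j = a j) → Gd0 ((range (i + 1)).image a) ξ'

lemma rule_okG (r : Λ) : Rule (okG ex ey Gd0 ws near r) := by
  refine (rule_spd ws near).and fun a a' i h k ξ' e => ?_
  rw [image_congr (g := a) fun j hj => h j (by simpa [Nat.lt_succ_iff] using hj)]
  exact k ξ' fun j hj => (e j hj).trans (h j hj)

lemma Cls.ok {r : Λ} (h : Cls ex ey b Gd0 ws near L ξ (0, r)) (i : ℕ) :
    okG ex ey Gd0 ws near r (arc ex ey (0, r) ξ) i := by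
  refine ⟨h.slow r (self_mem_lo _ _) i, fun ξ' e => h.gd _ (fun x hx => ?_) ξ'
    (arc ex ey (0, r) ξ i) fun x hx hne => ?_⟩
  · obtain ⟨j, -, rfl⟩ := mem_image.1 hx
    exact arc_mem_lo _ _ _
  · obtain ⟨j, hj, rfl⟩ := mem_image.1 hx
    have h1 : j ≤ i := by simpa [Nat.lt_succ_iff] using hj
    have h2 : j < i := lt_of_le_of_ne h1 fun k => hne (k ▸ rfl)
    rw [← arc_succ, ← e j h1, ← arc_succ, e _ h2]

lemma Al_succ {ok : (ℕ → Fin T × Λ) → ℕ → Prop} {u : Fin T × Λ} {n : ℕ}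
    (h : run ex ey ok u ξ n) :
    Al ex ey ok u (n + 1) ξ = (range (n + 1)).image (arc ex ey u ξ) := by
  ext v
  simp only [mem_Al, mem_image, mem_range]
  exact exists_congr fun i => and_congr_right fun hi =>
    and_iff_right fun j hj => h j (by omega)

lemma gd_Al (g0 : ∀ ξ, Gd0 ∅ ξ) (r : Λ) (t : ℕ) (ξ : Fin T → Bool) :
    Gd0 (Al ex ey (okG ex ey Gd0 ws near r) (0, r) t ξ) ξ := by
  induction t with
  | zero => rw [Al_zero]; exact g0 ξ
  | succ t ih =>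
    by_cases h : run ex ey (okG ex ey Gd0 ws near r) (0, r) ξ t
    · rw [Al_succ h]; exact (h t le_rfl).2 ξ fun _ _ => rfl
    · convert ih using 1
      refine Subset.antisymm (fun v hv => ?_) (Al_mono t.le_succ ξ)
      obtain ⟨i, hi, ri, e⟩ := mem_Al.1 hv
      exact mem_Al.2 ⟨i, lt_of_le_of_ne (by omega) fun k => h (k ▸ ri), ri, e⟩

/-- geometry: zones `W r`, their anchors `Zt r`, far sets `F z`. -/
structure Zon (ex ey : Fin T → Λ) (ws : Fin T → Fin T) (near : Λ → Λ → Prop)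
    (Pr Pr2 : Fin T × Λ → Fin T × Λ → Prop) (W Zt : Λ → Finset (Fin T × Λ))
    (F : Fin T × Λ → Finset (Fin T × Λ)) (nZ n3 τ K0 : ℕ) : Prop where
  hws : ∀ s, ws s ≤ s
  hW : ∀ r v ξ, v ∉ W r → Pr (0, r) (Sg ex ey ξ v)
  hZ : ∀ r s x0, s ∈ tch ex ey (W r) → near x0 (ex s) ∨ near x0 (ey s) → (ws s, x0) ∈ Zt r
  cZ : ∀ r, (Zt r).card ≤ nZ
  c3 : ∀ z, (univ.filter fun r => z ∈ Zt r).card ≤ n3
  cT : ((univ.biUnion Zt).image Prod.fst).card ≤ τ
  hF : ∀ z, z ∉ F z ∧ (∀ f ∈ F z, Pr2 z f) ∧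
    ∃ s, (univ.filter fun x => (s, x) ∉ F z).card < K0

variable {W Zt : Λ → Finset (Fin T × Λ)} {F : Fin T × Λ → Finset (Fin T × Λ)} {nZ n3 τ K0 : ℕ}

lemma Zon.meet (Z : Zon ex ey ws near Pr Pr2 W Zt F nZ n3 τ K0) {z : Fin T × Λ}
    (h : K0 ≤ A.wind ex ey ξ z) : ¬ Disjoint (lo ex ey ξ z) (F z) := by
  intro k
  obtain ⟨s, hs⟩ := (Z.hF z).2.2
  refine absurd (hs.trans_le h) (not_lt.2 ?_)
  rw [← slice ξ z s]
  exact card_le_card (monotone_filter_right _ fun x _ hx => disjoint_left.1 k hx)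

lemma Zon.anc (Z : Zon ex ey ws near Pr Pr2 W Zt F nZ n3 τ K0) {v : Fin T × Λ} {r : Λ}
    (hc : Cls ex ey b Gd0 ws near L ξ v)
    (h : ¬ Disjoint (tch ex ey (lo ex ey ξ v)) (tch ex ey (W r))) :
    ∃ z ∈ Zt r, z ∈ lo ex ey ξ v := by
  obtain ⟨s, h1, h2⟩ := not_disjoint_iff.1 h
  obtain ⟨x, hx⟩ := exists_time ex ey ξ (o _ v) 0
  have hx' : (0, x) ∈ lo ex ey ξ v := mem_lo.2 hx
  rw [← lo_eq hx'] at h1 ⊢
  obtain ⟨k, -, x0, e, hn⟩ := anchor Z.hws (fun _ _ h => h)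
    (tch_mono ex ey (lo_sub_Al le_rfl (hc.slow x hx')) h1)
  exact ⟨_, Z.hZ r s x0 h2 hn, e ▸ arc_mem_lo _ _ _⟩

lemma Zon.mz (Z : Zon ex ey ws near Pr Pr2 W Zt F nZ n3 τ K0) {v : Fin T × Λ}
    (hc : Cls ex ey b Gd0 ws near L ξ v) :
    (univ.filter fun r => ¬ Disjoint (tch ex ey (lo ex ey ξ v)) (tch ex ey (W r))).card ≤
      τ * A.wind ex ey ξ v * n3 := by
  have sub : (univ.filter fun r => ¬ Disjoint (tch ex ey (lo ex ey ξ v)) (tch ex ey (W r))) ⊆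
      (((univ.biUnion Zt).image Prod.fst).biUnion fun s =>
        (univ.filter fun x : Λ => (s, x) ∈ lo ex ey ξ v).image (Prod.mk s)).biUnion
        fun z => univ.filter fun r => z ∈ Zt r := fun r hr => by
    obtain ⟨z, h1, h2⟩ := Z.anc hc (mem_filter.1 hr).2
    exact mem_biUnion.2 ⟨z, mem_biUnion.2 ⟨z.1, mem_image_of_mem _
      (mem_biUnion.2 ⟨r, mem_univ _, h1⟩), mem_image.2 ⟨z.2, mem_filter.2 ⟨mem_univ _, h2⟩, rfl⟩⟩,
      mem_filter.2 ⟨mem_univ _, h1⟩⟩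
  refine (card_le_card sub).trans ((card_biUnion_le_card_mul _ _ n3 fun z _ => Z.c3 z).trans
    (Nat.mul_le_mul_right _ ((card_biUnion_le_card_mul _ _ _ fun s _ =>
      card_image_le.trans (slice ξ v s).le).trans (Nat.mul_le_mul_right _ Z.cT))))

open Classical in
lemma Zon.cnt_le (Z : Zon ex ey ws near Pr Pr2 W Zt F nZ n3 τ K0) (hc : LF ex ey c)
    (hC : ∀ ξ v, c ξ v ≠ 0 → Cls ex ey b Gd0 ws near L ξ v) (r : Λ) (u : Fin T × Λ)
    (ξ : Fin T → Bool) : cnt ex ey c (tch ex ey (W r)) u ξ ≤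
      ∑ z ∈ Zt r, if c ξ z ≠ 0 ∧ u ∉ lo ex ey ξ z then 1 else 0 := by
  rw [← sum_fiberwise (Zt r) (o (Sg ex ey ξ))]
  refine sum_le_sum fun g _ => ?_
  beta_reduce
  split_ifs with h
  · obtain ⟨z, h1, h2⟩ := Z.anc (hC _ _ h.2.2) h.1
    refine le_trans ?_ (single_le_sum (f := fun z => if c ξ z ≠ 0 ∧ u ∉ lo ex ey ξ z then (1 : ℝ)
      else 0) (fun z _ => by split_ifs <;> norm_num)
      (mem_filter.2 ⟨h1, (mem_lo.1 h2).trans (o_bp g)⟩))
    rw [if_pos ⟨by rw [hc.of_mem h2]; exact h.2.2, by rw [lo_eq h2]; exact h.2.1⟩]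
  · exact sum_nonneg fun z _ => by split_ifs <;> norm_num

open Classical in
/-- **the hypotheses of `gram`**: long test loops; `c` long, or the crude touch bound. -/
theorem gh (I : Inp ex ey p b Gd0 Gd1 Pr γ ε L) (I2 : Inp ex ey p b Gd0 Gd1 Pr2 γ2 ε L)
    (hγ : γ2 ≤ γ) (Z : Zon ex ey ws near Pr Pr2 W Zt F nZ n3 τ K0)
    (hc : LF ex ey c) {K K' : ℕ} {q' : ℝ}
    (hA : ∀ ξ v, a ξ v ≠ 0 → Cls ex ey b Gd0 ws near L ξ v ∧ K0 ≤ A.wind ex ey ξ v)
    (hC : ∀ ξ v, c ξ v ≠ 0 → Cls ex ey b Gd0 ws near L ξ v ∧ A.wind ex ey ξ v ≤ K')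
    (hq : 1 ≤ q' ∨ (L * (γ2 + ε) ≤ q' ∧ ∀ ξ v, c ξ v ≠ 0 → K0 ≤ A.wind ex ey ξ v)) :
    Gh ex ey p (okG ex ey Gd0 ws near) K K' (τ * K' * n3) W a c (L * (γ + ε)) (nZ * q') := by
  have hP := pr_pb I.hp
  have q0 : 0 < L * (γ + ε) := mul_pos (zero_lt_one.trans_le I.L1) (by linarith [I.γ0, I.ε0])
  have h2 : ∀ r t ξ, run ex ey (okG ex ey Gd0 ws near r) (0, r) ξ t →
      t < per (Sg ex ey ξ) (0, r) → arc ex ey (0, r) ξ t ∉ W r →
      PH.P (pb p) (X ex ey (okG ex ey Gd0 ws near r) (0, r) (t + 1))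
        (fun ξ => if a ξ (0, r) = 0 then 0 else 1) ξ ≤ L * (γ + ε) := fun r t ξ k1 k2 k3 => by
    refine close I k1 k2 (gd_Al I.g0 r _ ξ) (by rw [arc_succ]; exact Z.hW r _ ξ k3) _
      (fun η => by split_ifs <;> norm_num) fun η _ => ?_
    split_ifs with h
    · exact mul_nonneg (zero_le_one.trans I.L1) (pr_nonneg (fun v => (I.hb.mem v).1) _)
    · exact (hA _ _ h).1.wt
  refine ⟨q0, fun r => ?_, fun r t ξ k1 k2 k3 => ⟨?_, h2 r t ξ k1 k2 k3⟩, fun r ξ => ?_,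
    fun ξ v h => (hC ξ v h).2, fun ξ v h => (Z.mz (hC ξ v h).1).trans ?_⟩
  · have := far I2 (I.g0 fun _ => false) (by rw [ends_empty]; omega) (Z.hF (0, r)).1
      (Z.hF (0, r)).2.1 (fun ξ => if a ξ (0, r) = 0 then 0 else 1)
      (fun η => by split_ifs <;> norm_num) fun η _ h => by
        have h' : a η (0, r) ≠ 0 := fun k => h (if_pos k)
        exact ⟨Z.meet (hA _ _ h').2, disjoint_empty_right _, (hA _ _ h').1.wt⟩
    rw [pin_empty] at this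
    exact this.trans (mul_le_mul_of_nonneg_left (add_le_add hγ le_rfl) (zero_le_one.trans I.L1))
  · have E := expl (ex := ex) (ey := ey) (u := (0, r)) (rule_okG (ex := ex) (ey := ey)
      (Gd0 := Gd0) (ws := ws) (near := near) r)
    refine (E.stop t).P_le hP (E.stop (t + 1)) (E.mono t) ξ fun η e => ?_
    have e1 := (run_iff (rule_okG r) e le_rfl).2 k1
    have e2 := agree e t le_rfl fun j hj => k1 j hj.le
    refine h2 r t _ e1 (not_le.1 fun z => ?_) (e2 ▸ k3)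
    have := (mem_Al_iff e1).2 z
    rw [e2, Al_stop (rule_okG r) e, mem_Al_iff k1] at this
    omega
  · refine (hP.P_mono (Z.cnt_le hc (fun ξ v h => (hC ξ v h).1) r (0, r)) ξ).trans ?_
    rw [PH.P_sum]
    have q1 : 0 ≤ q' := hq.elim (zero_le_one.trans ·) fun h =>
      (mul_nonneg (zero_le_one.trans I.L1) (add_nonneg I2.γ0.le I.ε0)).trans h.1
    refine (sum_le_card_nsmul _ _ q' fun z _ => ?_).trans ?_
    swap
    · rw [nsmul_eq_mul]
      exact mul_le_mul_of_nonneg_right (by exact_mod_cast Z.cZ r) q1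
    rcases hq with h | h
    · refine le_trans ((hP.P_mono (g := fun _ => 1) (fun η => ?_) ξ).trans_eq (hP.P_const 1 ξ)) h
      split_ifs <;> norm_num
    · rw [P_pin]
      refine (far I2 (gd_Al I.g0 r _ ξ) (ends_Al _ _ _ ξ) (Z.hF z).1 (Z.hF z).2.1 _
        (fun η => by split_ifs <;> norm_num) fun η k1 k2 => ?_).trans h.1
      have k3 : c η z ≠ 0 ∧ (0, r) ∉ lo ex ey η z := by
        by_contra k; exact k2 (if_neg k)
      refine ⟨Z.meet (h.2 _ _ k3.1), disjoint_left.2 fun w h1 h2 => k3.2 ?_, (hC _ _ k3.1).1.wt⟩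
      rw [← Al_stop (rule_okG r) (Pw_pin_supp k1)] at h2
      rw [← lo_eq h1, lo_eq (Al_sub_lo η _ _ h2)]
      exact self_mem_lo _ _
  · exact Nat.mul_le_mul_right _ (Nat.mul_le_mul_left _ (hC ξ v h).2)

end Crest.Agent.N337.Arc
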