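import Crest.Agent.N337.L4.Close
import Crest.Agent.N337.TK.Defs

/-!
# Row 337, block (c) (helper96): `TK.Crs`, `TK.Hit` and the universal variance bound on the gas
-/

set_option autoImplicit false
set_option linter.unusedSectionVars false

namespace Crest.Agent.N337.Cr

open Finset Crest.Agent.N337.Rep Crest.Agent.N337.Arc Crest.Agent.N337.TK
open Crest.Agent.N337.LY0 hiding Ph
open Crest.Agent.N337.Gas (Lp lp qq ub L)

variable {Λ : Type} [Fintype Λ] [DecidableEq Λ] {T : ℕ} [NeZero T]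

/-- the class of loops: slow, winding `≤ Km`, weight `≥ 1 / L0`, all parts (with one step
changed) good. -/
structure CL (ex ey : Fin T → Λ) (b : Fin T × Λ → ℝ)
    (Gd0 : Finset (Fin T × Λ) → (Fin T → Bool) → Prop) (ws : Fin T → Fin T) (near : Λ → Λ → Prop)
    (L0 : ℝ) (Km : ℕ) (g : Lp T Λ) : Prop where
  slow : Slw ex ey (spd ws near) g
  wind : wd g ≤ Km
  wt : 1 ≤ L0 * ub b g
  gd : ∀ ξ v, lp ex ey ξ v = g → ∀ O ⊆ g.2, ∀ ξ' w,
    (∀ x ∈ O, x ≠ w → Sg ex ey ξ' x = Sg ex ey ξ x) → Gd0 O ξ'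

/-- `B` windows; `nb y` contains the slots near an edge at `y`. -/
structure Cel (ex ey : Fin T → Λ) (ws : Fin T → Fin T) (near : Λ → Λ → Prop) (nb : Λ → Finset Λ)
    (m0 B : ℕ) : Prop where
  hws : ∀ s, ws s ≤ s
  hB : (univ.image ws).card ≤ B
  mem : ∀ s x, near x (ex s) ∨ near x (ey s) → x ∈ nb (ex s)
  c1 : ∀ y, (nb y).card ≤ m0
  c2 : ∀ x, (univ.filter fun y => x ∈ nb y).card ≤ m0

/-- constant of the variance bound of one winding class. -/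
noncomputable def V0 (m0 B Km : ℕ) : ℝ := 96 * m0 * (Nat.log 2 (2 * Km * B * m0) + 1)

/-- the gain in the cross Gram bound. -/
noncomputable def κc (m0 B Km nZ n3 τ : ℕ) (q q2 δ : ℝ) : ℝ :=
  (Nat.log 2 Km + 1) ^ 2 * (q * (192 * V0 m0 B Km ^ 2 + 780) + 6 * q2 * (nZ * τ * n3) +
    δ * (2 * V0 m0 B Km ^ 2 + 2 + 3 * (nZ * τ * n3)))

variable {ex ey : Fin T → Λ} {p : Fin T → ℝ} {b : Fin T × Λ → ℝ}
  {Gd0 Gd1 : Finset (Fin T × Λ) → (Fin T → Bool) → Prop} {Pr Pr2 : Fin T × Λ → Fin T × Λ → Prop}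
  {γ γ2 ε L0 δ : ℝ} {ws : Fin T → Fin T} {near : Λ → Λ → Prop} {nb : Λ → Finset Λ}
  {W Zt : Λ → Finset (Fin T × Λ)} {F : Fin T × Λ → Finset (Fin T × Λ)}
  {m0 B Km nZ n3 τ k0 k j : ℕ} {a c D : Lp T Λ → ℝ} {g : Lp T Λ} {ξ : Fin T → Bool}

lemma lf_lp (a : Lp T Λ → ℝ) : LF ex ey fun ξ v => a (lp ex ey ξ v) :=
  ⟨fun ξ v => by rw [Gas.lp_eq_iff.2 (o_apply _ v)],
    fun ξ ξ' v h => by rw [Gas.lp_congr fun s hs => h s ((mem_tch ex ey).2 hs)]⟩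

lemma Ph_eq (a : Lp T Λ → ℝ) : Ph ex ey a = Phi ex ey fun ξ v => a (lp ex ey ξ v) :=
  funext fun ξ => Gas.sum_L ξ a

lemma wd_lp (ξ : Fin T → Bool) (v : Fin T × Λ) : wd (lp ex ey ξ v) = A.wind ex ey ξ v :=
  (wind_eq ξ v).symm

lemma wd_pos (h : g ∈ L ex ey ξ) : 0 < wd g := by
  obtain ⟨v, rfl⟩ := Gas.mem_L.1 h
  rw [wd_lp]; exact wind_pos ξ v

lemma CL.cls {v : Fin T × Λ} (h : CL ex ey b Gd0 ws near L0 Km (lp ex ey ξ v)) :
    Cls ex ey b Gd0 ws near L0 ξ v :=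
  ⟨fun r hr => h.slow ξ r (Gas.lp_eq_iff.2 (mem_lo.1 hr)), h.wt, h.gd ξ v rfl⟩

lemma qq_ne (hp : ∀ s, 0 ≤ p s ∧ p s ≤ 1) (h : Pw p ξ ≠ 0) (hg : g ∈ L ex ey ξ) :
    qq ex ey p {g} ≠ 0 := by
  refine (sum_pos' (fun η _ => mul_nonneg (Pw_nonneg hp η) (by split_ifs <;> norm_num))
    ⟨ξ, mem_univ _, ?_⟩).ne'
  rw [if_pos (singleton_subset_iff.2 hg), mul_one]
  exact (Pw_nonneg hp ξ).lt_of_ne h.symm

/-- **HIT.** -/
theorem hit (I : Inp ex ey p b Gd0 Gd1 Pr γ ε L0) {Z : Λ → Finset Λ} {G : Lp T Λ → Prop}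
    (hZ : ∀ r v ξ, v.2 ∉ Z r → Pr (0, r) (Sg ex ey ξ v))
    (hG : ∀ g, G g → qq ex ey p {g} ≠ 0 → CL ex ey b Gd0 ws near L0 Km g) :
    Hit ex ey (spd ws near) Z p G (L0 * (γ + ε)) := by
  intro r ξ n h0 h1 h2 h3
  have k := (hG _ h1 (qq_ne I.hp h0 (Gas.lp_mem_L ξ _))).cls
  refine close I (fun i _ => k.slow r (self_mem_lo _ _) i) h2
    (k.gd _ (Al_sub_lo _ _ _) ξ (0, r) fun _ _ _ => rfl) (by rw [arc_succ]; exact hZ r _ ξ h3) _
    (fun η => by unfold i1; split_ifs <;> norm_num) fun η hη => ?_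
  unfold i1; split_ifs with h
  · exact (hG _ h (qq_ne I.hp (supp_pin h0 hη) (Gas.lp_mem_L η _))).cls.wt
  · exact mul_nonneg (zero_le_one.trans I.L1) (pr_nonneg (fun v => (I.hb.mem v).1) _)

variable (ex ey p) in
/-- mean of a linear statistic. -/
noncomputable def nm (a : Lp T Λ → ℝ) : ℝ := EP p (Ph ex ey a)

variable (ex ey p) in
/-- the off-diagonal covariance. -/
noncomputable def er (a c : Lp T Λ → ℝ) : ℝ :=
  EP p (fun ξ => Ph ex ey a ξ * Ph ex ey c ξ) - nm ex ey p a * nm ex ey p c -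
    nm ex ey p fun g => a g * c g

lemma er_comm (a c : Lp T Λ → ℝ) : er ex ey p a c = er ex ey p c a := by
  simp only [er, mul_comm]

lemma nm_mono (hp : ∀ s, 0 ≤ p s ∧ p s ≤ 1) (h : ∀ g, 0 < wd g → a g ≤ c g) :
    nm ex ey p a ≤ nm ex ey p c :=
  (pr_pb hp).ex_mono fun _ => sum_le_sum fun g hg => h g (wd_pos hg)

lemma nm_nn (hp : ∀ s, 0 ≤ p s ∧ p s ≤ 1) (h : ∀ g, 0 ≤ a g) : 0 ≤ nm ex ey p a :=
  (pr_pb hp).ex_nn fun _ => sum_nonneg fun g _ => h g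

lemma nm_mul (t : ℝ) (a : Lp T Λ → ℝ) : (nm ex ey p fun g => t * a g) = t * nm ex ey p a := by
  rw [nm, nm, EP, EP, ← PH.ex_mul]
  congr 1; funext ξ; simp only [Ph, mul_sum]

lemma Ph_sum (s : Finset ℕ) (a : ℕ → Lp T Λ → ℝ) :
    (Ph ex ey fun g => ∑ k ∈ s, a k g) = fun ξ => ∑ k ∈ s, Ph ex ey (a k) ξ :=
  funext fun _ => sum_comm

lemma nm_sum (s : Finset ℕ) (a : ℕ → Lp T Λ → ℝ) :
    (nm ex ey p fun g => ∑ k ∈ s, a k g) = ∑ k ∈ s, nm ex ey p (a k) := by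
  rw [nm, Ph_sum, EP, PH.ex_sum]; rfl

lemma er_sum (s : Finset ℕ) (a : ℕ → Lp T Λ → ℝ) (c : Lp T Λ → ℝ) :
    er ex ey p (fun g => ∑ k ∈ s, a k g) c = ∑ k ∈ s, er ex ey p (a k) c := by
  simp only [er, Ph_sum, nm_sum, sum_mul, sum_sub_distrib, EP, PH.ex_sum]

lemma er_eq (a c : Lp T Λ → ℝ) : er ex ey p a c =
    EP p (fun ξ => Ph ex ey a ξ * (Ph ex ey c ξ - EP p (Ph ex ey c))) -
      EP p (Ph ex ey fun g => a g * c g) := by
  simp only [mul_sub, EP, PH.ex_sub, mul_comm (Ph ex ey a _) (PH.ex _ _), PH.ex_mul, er, nm]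
  ring

lemma Cel.shr (C : Cel ex ey ws near nb m0 B) {oks : Λ → (ℕ → Fin T × Λ) → ℕ → Prop}
    (hr : ∀ r, Rule (oks r)) (hok : ∀ r a i, oks r a i → spd ws near a i) (hk : 2 ^ k ≤ Km) :
    Shr ex ey (fun s => (ws s, ex s)) oks (2 ^ (k + 1)) (2 ^ (k + 1) * m0 : ℕ)
      (2 * Km * B * m0) := by
  have H := shr_of (ex := ex) (ey := ey) (cl := fun s => (ws s, ex s)) hr C.hws hok
    (fun c => (nb c.2).image (Prod.mk c.1)) (fun c => card_image_le.trans (C.c1 _))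
    (fun s x h => mem_image_of_mem _ (C.mem s x h)) C.hB
    (fun v => (univ.filter fun y => v.2 ∈ nb y).image (Prod.mk v.1))
    (fun v => card_image_le.trans (C.c2 _))
    (fun s x h => mem_image_of_mem _ (mem_filter.2 ⟨mem_univ _, C.mem s x h⟩)) (2 ^ (k + 1))
  refine ⟨H.expl, H.zero, H.pos, H.m0, H.mult, fun r hr ω => (H.card r hr ω).trans ?_⟩
  rw [pow_succ']; gcongr

lemma log_lt (h : Nat.log 2 (wd g) = k) : wd g < 2 ^ (k + 1) :=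
  h ▸ Nat.lt_pow_succ_log_self one_lt_two _

lemma le_log (h : Nat.log 2 (wd g) = k) (h0 : 0 < wd g) : 2 ^ k ≤ wd g :=
  h ▸ Nat.pow_log_le_self 2 h0.ne'

lemma nm_div (hp : ∀ s, 0 ≤ p s ∧ p s ≤ 1) (h : ∀ g, a g ≠ 0 → Nat.log 2 (wd g) = k) :
    2 ^ k * (nm ex ey p fun g => a g ^ 2 / wd g) ≤ nm ex ey p fun g => a g ^ 2 := by
  rw [← nm_mul]
  refine nm_mono hp fun g h0 => ?_
  by_cases z : a g = 0
  · simp [z]
  have h1 : (2 : ℝ) ^ k ≤ wd g := by exact_mod_cast le_log (h g z) h0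
  have h2 : (0 : ℝ) < wd g := by exact_mod_cast h0
  rw [← mul_div_assoc, div_le_iff₀ h2, mul_comm]
  exact mul_le_mul_of_nonneg_left h1 (sq_nonneg _)

lemma V0_nn (m0 B Km : ℕ) : 0 ≤ V0 m0 B Km := by unfold V0; positivity

/-- variance bound for one class. -/
theorem var_cls (hp : ∀ s, 0 ≤ p s ∧ p s ≤ 1) (C : Cel ex ey ws near nb m0 B) (hk : 2 ^ k ≤ Km)
    (h : ∀ g, c g ≠ 0 → Slw ex ey (spd ws near) g ∧ Nat.log 2 (wd g) = k) :
    PH.var (pb p) (Ph ex ey c) ≤ V0 m0 B Km * nm ex ey p fun g => c g ^ 2 := by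
  have k1 := tk0 hp (fun _ => rule_spd ws near)
    (C.shr (fun _ => rule_spd ws near) (fun _ _ _ h => h) hk) (lf_lp c) fun r ξ z =>
      ⟨by rw [← wd_lp]; exact (log_lt (h _ z).2).le, (h _ z).1 ξ r rfl⟩
  simp only [← wd_lp] at k1
  rw [← Ph_eq, ← Ph_eq fun g => c g ^ 2 / wd g] at k1
  refine k1.trans (le_trans (le_of_eq ?_)
    (mul_le_mul_of_nonneg_left (nm_div hp fun g z => (h g z).2) (V0_nn _ _ _)))
  rw [V0, nm]; push_cast; ring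

open Classical in
/-- the part of `a` in the winding class `k`. -/
noncomputable def cl (k : ℕ) (a : Lp T Λ → ℝ) (g : Lp T Λ) : ℝ :=
  if Nat.log 2 (wd g) = k then a g else 0

lemma cl_ne (h : cl k a g ≠ 0) : a g ≠ 0 ∧ Nat.log 2 (wd g) = k := by
  unfold cl at h; split_ifs at h with e; exacts [⟨h, e⟩, absurd rfl h]

lemma sum_cl (h : ∀ g, a g ≠ 0 → wd g ≤ Km) :
    a = fun g => ∑ k ∈ range (Nat.log 2 Km + 1), cl k a g := by
  funext g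
  simp only [cl, sum_ite_eq, mem_range]
  split_ifs with e
  · rfl
  · by_contra z
    exact e (Nat.lt_succ_of_le (Nat.log_mono_right (h g z)))

lemma pow_le_Km (h0 : Km ≠ 0) (hk : k ∈ range (Nat.log 2 Km + 1)) : 2 ^ k ≤ Km :=
  (Nat.pow_le_pow_right two_pos (Nat.lt_succ_iff.1 (mem_range.1 hk))).trans
    (Nat.pow_log_le_self 2 h0)

lemma nm_cl (h : ∀ g, a g ≠ 0 → wd g ≤ Km) (D : Lp T Λ → ℝ) :
    ∑ k ∈ range (Nat.log 2 Km + 1), (nm ex ey p fun g => cl k a g ^ 2 * D g) =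
      nm ex ey p fun g => a g ^ 2 * D g := by
  rw [← nm_sum, sum_cl (a := fun g => a g ^ 2 * D g) (Km := Km) fun g z => h g fun k => z (by simp [k])]
  congr 1; funext g
  refine sum_congr rfl fun k _ => ?_
  unfold cl; split_ifs <;> simp

/-- **UV**: the universal variance bound. -/
theorem uv (hp : ∀ s, 0 ≤ p s ∧ p s ≤ 1) (C : Cel ex ey ws near nb m0 B) (h0 : Km ≠ 0)
    (h : ∀ g, c g ≠ 0 → Slw ex ey (spd ws near) g ∧ wd g ≤ Km) :
    Op.var (Pw p) (Ph ex ey c) ≤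
      (Nat.log 2 Km + 1) * V0 m0 B Km * Op.ex (Pw p) (Ph ex ey fun g => c g ^ 2) := by
  have e := nm_cl (ex := ex) (ey := ey) (p := p) (fun g z => (h g z).2) fun _ => 1
  simp only [mul_one] at e
  change PH.var (pb p) (Ph ex ey c) ≤ _ * nm ex ey p _
  rw [← e, mul_assoc, mul_sum]
  refine le_trans ?_ (mul_le_mul_of_nonneg_left (sum_le_sum fun k hk => var_cls hp C
    (pow_le_Km h0 hk) fun g z => ⟨(h g (cl_ne z).1).1, (cl_ne z).2⟩) (by positivity))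
  conv_lhs => rw [sum_cl fun g z => (h g z).2, Ph_sum]
  simp only [PH.var, PH.nsq]
  rw [PH.ex_sum, ← PH.ex_sum (range _) fun k ξ => (Ph ex ey (cl k c) ξ - _) ^ 2, ← PH.ex_mul]
  refine (pr_pb hp).ex_mono fun ξ => ?_
  rw [← sum_sub_distrib]
  simpa using sq_sum_le_card_mul_sum_sq (s := range (Nat.log 2 Km + 1))
    (f := fun k => Ph ex ey (cl k c) ξ - PH.ex (pb p) (Ph ex ey (cl k c)))

/-- crude bound. -/
lemma er_crude (hp : ∀ s, 0 ≤ p s ∧ p s ≤ 1) (a c : Lp T Λ → ℝ) : er ex ey p a c ^ 2 ≤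
    2 * (PH.var (pb p) (Ph ex ey a) * PH.var (pb p) (Ph ex ey c)) +
      2 * ((nm ex ey p fun g => a g ^ 2) * nm ex ey p fun g => c g ^ 2) := by
  have hP := pr_pb hp
  have h1 := hP.cs (fun ξ => Ph ex ey a ξ - EP p (Ph ex ey a)) fun ξ => Ph ex ey c ξ - EP p (Ph ex ey c)
  have h2 : (nm ex ey p fun g => a g * c g) ^ 2 ≤
      (nm ex ey p fun g => a g ^ 2) * nm ex ey p fun g => c g ^ 2 := by
    refine sum_sq_le_sum_mul_sum_of_sq_le_mul _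
      (fun ξ _ => mul_nonneg (hP.w_nn ξ) (sum_nonneg fun _ _ => sq_nonneg _))
      (fun ξ _ => mul_nonneg (hP.w_nn ξ) (sum_nonneg fun _ _ => sq_nonneg _)) fun ξ _ => ?_
    rw [mul_pow, mul_mul_mul_comm, ← sq]
    exact mul_le_mul_of_nonneg_left (sum_mul_sq_le_sq_mul_sq _ _ _) (sq_nonneg _)
  have e : PH.ex (pb p) (fun ξ => (Ph ex ey a ξ - EP p (Ph ex ey a)) *
      (Ph ex ey c ξ - EP p (Ph ex ey c))) = er ex ey p a c + nm ex ey p fun g => a g * c g := by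
    simp only [sub_mul, mul_sub, EP, PH.ex_sub, mul_comm (Ph ex ey a _) (PH.ex _ _), PH.ex_mul,
      hP.ex_const, er, nm]
    ring
  rw [e] at h1
  change _ ≤ PH.var (pb p) (Ph ex ey a) * PH.var (pb p) (Ph ex ey c) at h1
  nlinarith [sq_nonneg (er ex ey p a c + 2 * nm ex ey p fun g => a g * c g)]

/-- Gram bound for two classes, the loops of `a` being explored. -/
theorem gram_cls (I : Inp ex ey p b Gd0 Gd1 Pr γ ε L0)
    (I2 : Inp ex ey p b Gd0 Gd1 Pr2 γ2 ε L0) (hγ : γ2 ≤ γ) (C : Cel ex ey ws near nb m0 B)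
    (Z : Zon ex ey ws near Pr Pr2 W Zt F nZ n3 τ (2 ^ k0)) (hk : 2 ^ k ≤ Km) (hj : 2 ^ j ≤ Km)
    (ha : ∀ g, a g ≠ 0 → CL ex ey b Gd0 ws near L0 Km g ∧ Nat.log 2 (wd g) = k)
    (hc : ∀ g, c g ≠ 0 → CL ex ey b Gd0 ws near L0 Km g ∧ Nat.log 2 (wd g) = j) (hk0 : k0 ≤ k)
    {q' : ℝ} (hq : 1 ≤ q' ∨ (L0 * (γ2 + ε) ≤ q' ∧ k0 ≤ j)) :
    er ex ey p a c ^ 2 ≤ 3 * (nm ex ey p fun g => a g ^ 2 / wd g) *
      ((2 ^ k * (64 * (L0 * (γ + ε)) * V0 m0 B Km ^ 2) + 2 ^ j * (260 * (L0 * (γ + ε)) +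
        2 * q' * (nZ * τ * n3))) * nm ex ey p fun g => c g ^ 2) := by
  have lg : ∀ {i : ℕ} {ξ v}, k0 ≤ i → Nat.log 2 (wd (lp ex ey ξ v)) = i →
      2 ^ k0 ≤ A.wind ex ey ξ v := fun h1 h2 => by
    rw [← wd_lp]
    exact (Nat.pow_le_pow_right two_pos h1).trans (le_log h2 (wd_pos (Gas.lp_mem_L _ _)))
  have G := gh (K := 2 ^ (k + 1)) (K' := 2 ^ (j + 1)) (a := fun ξ v => a (lp ex ey ξ v)) I I2 hγ Z
    (lf_lp c)
    (fun ξ v z => ⟨(ha _ z).1.cls, lg hk0 (ha _ z).2⟩)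
    (fun ξ v z => ⟨(hc _ z).1.cls, by rw [← wd_lp]; exact (log_lt (hc _ z).2).le⟩)
    (hq.imp_right fun h => ⟨h.1, fun ξ v z => lg h.2 (hc _ z).2⟩)
  have k1 := gram I.hp rule_okG (C.shr rule_okG (fun _ _ _ h => h.1) hk) (lf_lp a) (lf_lp c)
    (fun r ξ z => ⟨by rw [← wd_lp]; exact (log_lt (ha _ z).2).le, (ha _ z).1.cls.ok⟩) G
  simp only [← wd_lp] at k1
  rw [← Ph_eq, ← Ph_eq, ← Ph_eq fun g => a g ^ 2 / wd g, ← Ph_eq fun g => a g * c g,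
    ← Ph_eq fun g => c g ^ 2, ← er_eq] at k1
  refine k1.trans (mul_le_mul_of_nonneg_left ?_
    (mul_nonneg (by norm_num) (nm_nn I.hp fun g => by positivity)))
  have q0 := G.q0
  have v := mul_le_mul_of_nonneg_left (var_cls I.hp C hj fun g z => ⟨(hc g z).1.slow, (hc g z).2⟩)
    (show 0 ≤ 2 ^ k * (64 * (L0 * (γ + ε)) * V0 m0 B Km) by have := V0_nn m0 B Km; positivity)
  refine le_trans (le_of_eq ?_) ((add_le_add v (le_refl (2 ^ j * (260 * (L0 * (γ + ε)) +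
    2 * q' * (nZ * τ * n3)) * nm ex ey p fun g => c g ^ 2))).trans_eq (by ring))
  rw [V0, nm]; push_cast; ring

/-- one pair of classes. -/
theorem pair (I : Inp ex ey p b Gd0 Gd1 Pr γ ε L0)
    (I2 : Inp ex ey p b Gd0 Gd1 Pr2 γ2 ε L0) (hγ : γ2 ≤ γ) (C : Cel ex ey ws near nb m0 B)
    (Z : Zon ex ey ws near Pr Pr2 W Zt F nZ n3 τ (2 ^ k0)) (hD : ∀ g, 0 ≤ D g ∧ D g ≤ 1) (δ0 : 0 ≤ δ)
    (hδ : k0 ≠ 0 → ∀ g, D g * 2 ^ k0 ≤ δ * wd g) (hk : 2 ^ k ≤ Km) (hj : 2 ^ j ≤ Km)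
    (ha : ∀ g, a g ≠ 0 → CL ex ey b Gd0 ws near L0 Km g ∧ Nat.log 2 (wd g) = k)
    (hc : ∀ g, c g ≠ 0 → CL ex ey b Gd0 ws near L0 Km g ∧ Nat.log 2 (wd g) = j) :
    er ex ey p (fun g => a g * D g) c ^ 2 ≤
      (L0 * (γ + ε) * (192 * V0 m0 B Km ^ 2 + 780) + 6 * (L0 * (γ2 + ε)) * (nZ * τ * n3) +
        δ * (2 * V0 m0 B Km ^ 2 + 2 + 3 * (nZ * τ * n3))) *
      ((nm ex ey p fun g => a g ^ 2 * D g) * nm ex ey p fun g => c g ^ 2) := by
  have q0 : 0 < L0 * (γ + ε) := mul_pos (zero_lt_one.trans_le I.L1) (by linarith [I.γ0, I.ε0])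
  have q20 : 0 < L0 * (γ2 + ε) := mul_pos (zero_lt_one.trans_le I.L1) (by linarith [I2.γ0, I.ε0])
  set q := L0 * (γ + ε) with hq
  set q2 := L0 * (γ2 + ε) with hq2
  have V := V0_nn m0 B Km
  set N : ℝ := nZ * τ * n3 with hN
  have N0 : 0 ≤ N := by positivity
  have ha' : ∀ g, a g * D g ≠ 0 → CL ex ey b Gd0 ws near L0 Km g ∧ Nat.log 2 (wd g) = k :=
    fun g z => ha g (left_ne_zero_of_mul z)
  have A0 : 0 ≤ nm ex ey p fun g => a g ^ 2 * D g :=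
    nm_nn I.hp fun g => mul_nonneg (sq_nonneg _) (hD g).1
  have C0 : 0 ≤ nm ex ey p fun g => c g ^ 2 := nm_nn I.hp fun g => sq_nonneg _
  have A1 : (nm ex ey p fun g => (a g * D g) ^ 2) ≤ nm ex ey p fun g => a g ^ 2 * D g :=
    nm_mono I.hp fun g _ => by
      rw [mul_pow, sq (D g), ← mul_assoc]
      exact mul_le_of_le_one_right (mul_nonneg (sq_nonneg _) (hD g).1) (hD g).2
  have X0 : ∀ a : Lp T Λ → ℝ, 0 ≤ nm ex ey p fun g => a g ^ 2 / wd g := fun a =>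
    nm_nn I.hp fun g => by positivity
  generalize hA : (nm ex ey p fun g => a g ^ 2 * D g) = x at A0 A1 ⊢
  generalize hB : (nm ex ey p fun g => c g ^ 2) = y at C0 ⊢
  have xy := mul_nonneg A0 C0
  by_cases h1 : k < k0
  · have A2 : (nm ex ey p fun g => (a g * D g) ^ 2) ≤ δ * x := by
      rw [← hA, ← nm_mul]
      refine nm_mono I.hp fun g _ => ?_
      by_cases z : a g = 0
      · simp [z]
      have h2 : (wd g : ℝ) ≤ 2 ^ k0 := by
        exact_mod_cast (log_lt (ha g z).2).le.trans (Nat.pow_le_pow_right two_pos h1)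
      have h3 : D g ≤ δ := le_of_mul_le_mul_right ((hδ (by omega) g).trans
        (mul_le_mul_of_nonneg_left h2 δ0)) (by positivity)
      rw [mul_pow, sq (D g), ← mul_assoc, mul_comm δ]
      exact mul_le_mul_of_nonneg_left h3 (mul_nonneg (sq_nonneg _) (hD g).1)
    have v1 := (var_cls I.hp C hk fun g z => ⟨(ha' g z).1.slow, (ha' g z).2⟩).trans
      (mul_le_mul_of_nonneg_left A2 V)
    have v2 := var_cls I.hp C hj fun g z => ⟨(hc g z).1.slow, (hc g z).2⟩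
    have v3 := mul_le_mul v1 v2 ((pr_pb I.hp).nsq_nn _) (by positivity)
    have v4 := er_crude (ex := ex) (ey := ey) I.hp (fun g => a g * D g) c
    rw [hB] at v3 v4
    have v5 := mul_le_mul_of_nonneg_right A2 C0
    have : 0 ≤ (q * (192 * V0 m0 B Km ^ 2 + 780) + 6 * q2 * N + δ * (3 * N)) * (x * y) := by positivity
    nlinarith
  rw [not_lt] at h1
  have X1 := (nm_div I.hp fun g z => (ha' g z).2).trans A1
  by_cases h2 : j < k0
  · have k1 := gram_cls I I2 hγ C Z hk hj ha' hc h1 (q' := 1) (Or.inl le_rfl)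
    have X2 : 2 * 2 ^ j * (nm ex ey p fun g => (a g * D g) ^ 2 / wd g) ≤ δ * x := by
      rw [← hA, ← nm_mul, ← nm_mul]
      refine nm_mono I.hp fun g h0 => ?_
      have h3 : (0 : ℝ) < wd g := by exact_mod_cast h0
      have h4 : (2 : ℝ) * 2 ^ j ≤ 2 ^ k0 := by
        rw [← pow_succ']; exact pow_le_pow_right₀ one_le_two h2
      have h5 := (mul_le_mul_of_nonneg_left h4 (hD g).1).trans (hδ (by omega) g)
      rw [← mul_div_assoc, div_le_iff₀ h3]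
      have := mul_le_mul_of_nonneg_left h5 (mul_nonneg (sq_nonneg (a g)) (hD g).1)
      nlinarith
    have X3 : 2 ^ j * (nm ex ey p fun g => (a g * D g) ^ 2 / wd g) ≤ x :=
      (mul_le_mul_of_nonneg_right (pow_le_pow_right₀ one_le_two (by omega)) (X0 _)).trans X1
    rw [hB, ← hq, ← hN] at k1
    have t1 := mul_le_mul_of_nonneg_left X1 (show 0 ≤ 192 * q * V0 m0 B Km ^ 2 * y by positivity)
    have t2 := mul_le_mul_of_nonneg_left X3 (show 0 ≤ 780 * q * y by positivity)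
    have t3 := mul_le_mul_of_nonneg_left X2 (show 0 ≤ 3 * N * y by positivity)
    have : 0 ≤ (6 * q2 * N + δ * (2 * V0 m0 B Km ^ 2 + 2)) * (x * y) := by positivity
    nlinarith
  rw [not_lt] at h2
  have key : ∀ {X u v : ℝ} {k j : ℕ}, j ≤ k → 0 ≤ X → 0 ≤ v → 2 ^ k * X ≤ u → u * v ≤ x * y →
      3 * X * ((2 ^ k * (64 * q * V0 m0 B Km ^ 2) + 2 ^ j * (260 * q + 2 * q2 * N)) * v) ≤
      (q * (192 * V0 m0 B Km ^ 2 + 780) + 6 * q2 * N + δ * (2 * V0 m0 B Km ^ 2 + 2 + 3 * N)) *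
        (x * y) := by
    intro X u v k j h hX hv h1 h2
    have h3 : 2 ^ j * X ≤ u :=
      (mul_le_mul_of_nonneg_right (pow_le_pow_right₀ one_le_two h) hX).trans h1
    have t1 := mul_le_mul_of_nonneg_left h1 (show 0 ≤ 192 * q * V0 m0 B Km ^ 2 * v by positivity)
    have t2 := mul_le_mul_of_nonneg_left h3 (show 0 ≤ (780 * q + 6 * q2 * N) * v by positivity)
    have t3 := mul_le_mul_of_nonneg_left h2
      (show 0 ≤ q * (192 * V0 m0 B Km ^ 2 + 780) + 6 * q2 * N by positivity)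
    have : 0 ≤ δ * (2 * V0 m0 B Km ^ 2 + 2 + 3 * N) * (x * y) := by positivity
    nlinarith
  rcases le_total j k with h3 | h3
  · refine (gram_cls I I2 hγ C Z hk hj ha' hc h1 (Or.inr ⟨le_rfl, h2⟩)).trans ?_
    rw [hB]; exact key h3 (X0 _) C0 X1 le_rfl
  · rw [er_comm]
    refine (gram_cls I I2 hγ C Z hj hk hc ha' h2 (Or.inr ⟨le_rfl, h1⟩)).trans
      (key h3 (X0 _) (nm_nn I.hp fun g => sq_nonneg _) (nm_div I.hp fun g z => (hc g z).2) ?_)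
    rw [hB, mul_comm]; exact mul_le_mul_of_nonneg_right A1 C0

lemma crs_supp (hp : ∀ s, 0 ≤ p s ∧ p s ≤ 1) {S : Lp T Λ → Prop} {κ : ℝ}
    (h : Crs ex ey p (fun g => S g ∧ qq ex ey p {g} ≠ 0) D κ) : Crs ex ey p S D κ := by
  classical
  intro a c ha hc
  have sup : ∀ a : Lp T Λ → ℝ, (∀ g, a g ≠ 0 → S g) → ∃ a' : Lp T Λ → ℝ,
      (∀ g, a' g ≠ 0 → S g ∧ qq ex ey p {g} ≠ 0) ∧ ∀ g, qq ex ey p {g} ≠ 0 → a' g = a g :=
    fun a ha => ⟨fun g => if qq ex ey p {g} = 0 then 0 else a g, fun g z => by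
      beta_reduce at z
      split_ifs at z with e; exacts [absurd rfl z, ⟨ha g z, e⟩], fun g y => if_neg y⟩
  obtain ⟨a', ha1, ha2⟩ := sup a ha
  obtain ⟨c', hc1, hc2⟩ := sup c hc
  have k := h a' c' ha1 hc1
  have e1 : ∀ f g : (Fin T → Bool) → ℝ, (∀ ξ, Pw p ξ ≠ 0 → f ξ = g ξ) →
      Op.ex (Pw p) f = Op.ex (Pw p) g := fun f g h => sum_congr rfl fun ξ _ => by
    by_cases z : Pw p ξ = 0
    · simp [z]
    · rw [h ξ z]
  have e2 : ∀ (f f' : Lp T Λ → ℝ) ξ, Pw p ξ ≠ 0 → (∀ g, qq ex ey p {g} ≠ 0 → f g = f' g) →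
      Ph ex ey f ξ = Ph ex ey f' ξ := fun f f' ξ z h =>
    sum_congr rfl fun g hg => h g (qq_ne hp z hg)
  have e3 : ∀ f f' : Lp T Λ → ℝ, (∀ g, qq ex ey p {g} ≠ 0 → f g = f' g) →
      Op.ex (Pw p) (Ph ex ey f) = Op.ex (Pw p) (Ph ex ey f') := fun f f' h =>
    e1 _ _ fun ξ z => e2 f f' ξ z h
  rwa [e1 (fun ξ => Ph ex ey (fun g => a' g * D g) ξ * Ph ex ey c' ξ)
      (fun ξ => Ph ex ey (fun g => a g * D g) ξ * Ph ex ey c ξ) fun ξ z => by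
      rw [e2 (fun g => a' g * D g) (fun g => a g * D g) ξ z fun g y => by rw [ha2 g y],
        e2 c' c ξ z hc2],
    e3 (fun g => a' g * D g) (fun g => a g * D g) fun g y => by rw [ha2 g y], e3 c' c hc2,
    e3 (fun g => a' g * D g * c' g) (fun g => a g * D g * c g) fun g y => by rw [ha2 g y, hc2 g y],
    e3 (fun g => a' g ^ 2 * D g) (fun g => a g ^ 2 * D g) fun g y => by rw [ha2 g y],
    e3 (fun g => c' g ^ 2) (fun g => c g ^ 2) fun g y => by rw [hc2 g y]] at k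

/-- **the cross Gram bound.** -/
theorem crs (I : Inp ex ey p b Gd0 Gd1 Pr γ ε L0)
    (I2 : Inp ex ey p b Gd0 Gd1 Pr2 γ2 ε L0) (hγ : γ2 ≤ γ) (C : Cel ex ey ws near nb m0 B)
    (Z : Zon ex ey ws near Pr Pr2 W Zt F nZ n3 τ (2 ^ k0)) (hD : ∀ g, 0 ≤ D g ∧ D g ≤ 1) (δ0 : 0 ≤ δ)
    (hδ : k0 ≠ 0 → ∀ g, D g * 2 ^ k0 ≤ δ * wd g) (h0 : Km ≠ 0) {S : Lp T Λ → Prop}
    (hS : ∀ g, S g → qq ex ey p {g} ≠ 0 → CL ex ey b Gd0 ws near L0 Km g) :
    Crs ex ey p S D (κc m0 B Km nZ n3 τ (L0 * (γ + ε)) (L0 * (γ2 + ε)) δ) := by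
  refine crs_supp I.hp fun a c ha hc => ?_
  have ha' : ∀ g, a g ≠ 0 → CL ex ey b Gd0 ws near L0 Km g := fun g z => hS g (ha g z).1 (ha g z).2
  have hc' : ∀ g, c g ≠ 0 → CL ex ey b Gd0 ws near L0 Km g := fun g z => hS g (hc g z).1 (hc g z).2
  change er ex ey p (fun g => a g * D g) c ^ 2 ≤ _ * nm ex ey p _ * nm ex ey p _
  have e := nm_cl (ex := ex) (ey := ey) (p := p) (fun g z => (hc' g z).wind) fun _ => 1
  simp only [mul_one] at e
  have e1 : (fun g => a g * D g) = fun g => ∑ k ∈ range (Nat.log 2 Km + 1), cl k a g * D g := by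
    funext g; rw [← sum_mul, ← congrFun (sum_cl fun g z => (ha' g z).wind) g]
  rw [← e, ← nm_cl (fun g z => (ha' g z).wind) D, e1, er_sum, mul_assoc, sum_mul_sum, κc]
  conv_lhs => rw [sum_cl fun g z => (hc' g z).wind]
  simp only [er_comm _ fun g => ∑ k ∈ _, cl k c g, er_sum]
  rw [← sum_product', ← sum_product', mul_assoc, mul_sum]
  refine sq_sum_le_card_mul_sum_sq.trans (mul_le_mul (le_of_eq ?_) (sum_le_sum fun z hz => ?_)
    (sum_nonneg fun _ _ => sq_nonneg _) (by positivity))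
  · rw [card_product, card_range]; push_cast; ring
  · rw [er_comm]
    exact pair I I2 hγ C Z hD δ0 hδ (pow_le_Km h0 (mem_product.1 hz).1) (pow_le_Km h0 (mem_product.1 hz).2)
      (fun g y => ⟨ha' g (cl_ne y).1, (cl_ne y).2⟩) fun g y => ⟨hc' g (cl_ne y).1, (cl_ne y).2⟩

end Crest.Agent.N337.Cr
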