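import Crest.Agent.N337.L4.Gram

/-!
# Row 337, L4 (helper96): the Gram lemma with conditioned touching terms

Variant of `Gm.gram`: the own term `D a` is arbitrary and the touching term `O a` enters only
through its conditional expectation given the explored cells.
-/

set_option autoImplicit false
set_option linter.unusedSectionVars false

namespace Crest.Agent.N337.PH

open Finset L4

variable {ι : Type} [Fintype ι] [DecidableEq ι] {E : ι → Type} [∀ i, Fintype (E i)]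
  {κ : Type} [Fintype κ] [DecidableEq κ] {α : Type}

variable {p : ∀ i, E i → ℝ} {gr : ι → κ} {s : Finset α} {ρ : α → ℝ}
  {Y : α → ℕ → (∀ i, E i) → Finset ι} {T : ℕ} {e φ ψ : α → (∀ i, E i) → ℝ} {q m : ℝ} {N : ℕ}
  {X : ℕ → (∀ i, E i) → Finset ι} {f g : (∀ i, E i) → ℝ}

/-- the early part of a test function supported on `e` is small. -/
theorem Expl.zeno_dual (hp : Pr p) (h : Expl X) (hq : 0 < q) {u : (∀ i, E i) → ℝ}
    (h0 : ∀ ω, 0 ≤ u ω) (h1 : ∀ ω, u ω ≤ 1) {c : ℕ → (∀ i, E i) → ℝ}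
    (hc : ∀ t, t < T → Meas (X t) (c t)) (hcc : ∀ t ω, c t ω * c t ω = c t ω)
    (hs : ∀ t, t < T → ∀ ω, c t ω ≠ 0 → P p (X t) u ω ≤ q ∧ P p (X (t + 1)) u ω ≤ q)
    (hf : ∀ ω, f ω * u ω = f ω) :
    nsq p (tr c (fun t => P p (X t) f) T) ≤ 64 * q * nsq p f := by
  set F := tr c (fun t => P p (X t) f) T with hF
  have m : Meas (X T) F := h.meas_tr hp hc f
  have z := L4.zeno hp.w_nn h.filt hq (h.mart hp T u) (fun t _ ω => hp.P_nn h0 ω)
    ((h.mart hp T f).tr h.filt fun t ht => ms_iff.2 (hc t ht)) (fun ω => by simp [tr])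
    fun t ht ω k => hs t ht ω fun z => k (by simp only [tr, sum_range_succ, z, zero_mul, add_zero])
  have k := (h.stop T).ex_mul_P hp (m.mul m) u
  simp only [← sq, mul_comm (_ ^ 2)] at k
  have z' : ex p (fun ω => u ω * F ω ^ 2) ≤ 64 * q * nsq p F := by rw [← k]; exact z
  have e1 : nsq p F = ex p fun ω => (u ω * F ω) * f ω := by
    have a := h.ex_tr_tr hp hc hc f f
    have b := h.ex_tr_mul hp hc f f
    simp only [hcc] at a
    have : nsq p F = ex p fun ω => F ω * F ω := by simp only [nsq, sq]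
    rw [this, a, ← b]
    congr 1; ext ω
    linear_combination (-F ω) * hf ω
  have c1 := hp.cs (fun ω => u ω * F ω) f
  have c2 : nsq p (fun ω => u ω * F ω) ≤ ex p fun ω => u ω * F ω ^ 2 := hp.ex_mono fun ω => by
    rw [mul_pow]
    refine mul_le_mul_of_nonneg_right ?_ (sq_nonneg _)
    nlinarith [h0 ω, h1 ω]
  rw [← e1] at c1
  have n0 := hp.nsq_nn f
  refine le_of_sq_le_mul (by positivity) (c1.trans ?_)
  nlinarith [mul_le_mul_of_nonneg_right (c2.trans z') n0]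

/-- hypotheses of the Gram lemma. -/
structure Gm2 (p : ∀ i, E i → ℝ) (s : Finset α) (Y : α → ℕ → (∀ i, E i) → Finset ι) (T : ℕ)
    (e ψ D O : α → (∀ i, E i) → ℝ) (Ψ : (∀ i, E i) → ℝ) (q : ℝ) : Prop where
  q0 : 0 < q
  e0 : ∀ a ∈ s, ∀ ω, 0 ≤ e a ω
  e1 : ∀ a ∈ s, ∀ ω, e a ω ≤ 1
  eq : ∀ a ∈ s, ex p (e a) ≤ q
  meas : ∀ a ∈ s, Meas (Y a T) (ψ a)
  ψe : ∀ a ∈ s, ∀ ω, ψ a ω * e a ω = ψ a ω
  split : ∃ (θ : α → ℕ → (∀ i, E i) → Prop) (Z : α → Finset ι) (V : α → (∀ i, E i) → ℝ),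
    (∀ a ∈ s, ∀ t, t < T → ∀ ω ω', (∀ i ∈ Y a t ω, ω' i = ω i) → (θ a t ω' ↔ θ a t ω)) ∧
    (∀ a ∈ s, ∀ t, t < T → ∀ ω, θ a t ω →
      P p (Y a t) (e a) ω ≤ q ∧ P p (Y a (t + 1)) (e a) ω ≤ q) ∧
    (∀ a ∈ s, ∀ t, t < T → ∀ ω, ¬ θ a t ω → Y a (t + 1) ω \ Y a t ω ⊆ Z a) ∧
    (∀ a ∈ s, Meas (fun _ => (Z a)ᶜ) (V a)) ∧
    ∀ a ∈ s, ∀ t, t < T → ∀ ω, ¬ θ a t ω → Ψ ω = V a ω + D a ω + O a ω

/-- **Gram lemma.** -/
theorem Gm2.gram {D O : α → (∀ i, E i) → ℝ} {Ψ : (∀ i, E i) → ℝ} (hp : Pr p)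
    (H : Sh gr s ρ Y T m N) (K : Gm2 p s Y T e ψ D O Ψ q) :
    ((∑ a ∈ s, ex p fun ω => ψ a ω * (Ψ ω - ex p Ψ)) - ∑ a ∈ s, ex p fun ω => ψ a ω * D a ω) ^ 2 ≤
      3 * (∑ a ∈ s, nsq p (ψ a) / ρ a) * (3072 * q * m * (Nat.log 2 N + 1) * var p Ψ +
        130 * q * ∑ a ∈ s, ρ a * nsq p (D a) +
          ∑ a ∈ s, ρ a * nsq p (P p (Y a T) (O a))) := by
  classical
  obtain ⟨θ, Z, V, hθ, hq, hZ, hV, hd⟩ := K.split
  have q0 := K.q0
  set c : α → ℕ → (∀ i, E i) → ℝ := fun a t ω => if θ a t ω then 1 else 0 with hc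
  have mc : ∀ a ∈ s, ∀ t, t < T → Meas (Y a t) (c a t) := fun a ha t ht ω ω' k => by
    simp only [c, hθ a ha t ht ω ω' k]
  have mc' : ∀ a ∈ s, ∀ t, t < T → Meas (Y a t) fun ω => 1 - c a t ω := fun a ha t ht =>
    (meas_const 1).sub (mc a ha t ht)
  have P0 : ∀ a ∈ s, ∀ f ω, P p (Y a 0) f ω = ex p f := fun a ha f ω => P_empty f ω (H.zero a ha ω)
  set er : α → ((∀ i, E i) → ℝ) → (∀ i, E i) → ℝ := fun a f =>
    tr (c a) (fun t => P p (Y a t) f) T with her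
  set la : α → ((∀ i, E i) → ℝ) → (∀ i, E i) → ℝ := fun a f =>
    tr (fun t ω => 1 - c a t ω) (fun t => P p (Y a t) f) T with hla
  have sp : ∀ a ∈ s, ∀ f ω, er a f ω + la a f ω = P p (Y a T) f ω - ex p f := fun a ha f ω => by
    rw [← P0 a ha f ω]; exact tr_add_tr _ _ _ _
  have zn : ∀ a ∈ s, ∀ f, ex p (fun ω => e a ω * er a f ω ^ 2) ≤
      64 * q * nsq p fun ω => P p (Y a T) f ω - ex p f := fun a ha f => by
    have z := (H.expl a ha).zeno hp q0 (K.e0 a ha) (mc a ha)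
      (fun t ω => by simp only [c]; split_ifs <;> simp)
      (fun t ht ω z => hq a ha t ht ω (by by_contra k; simp [c, k] at z)) f
    simpa only [P0 a ha] using z
  have esq : ∀ a ∈ s, ∀ u : (∀ i, E i) → ℝ, nsq p (fun ω => e a ω * u ω) ≤
      ex p fun ω => e a ω * u ω ^ 2 := fun a ha u => hp.ex_mono fun ω => by
    rw [mul_pow]
    refine mul_le_mul_of_nonneg_right ?_ (sq_nonneg _)
    nlinarith [K.e0 a ha ω, K.e1 a ha ω]
  have Pψ : ∀ a ∈ s, nsq p (fun ω => P p (Y a T) (ψ a) ω - ex p (ψ a)) ≤ nsq p (ψ a) :=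
    fun a ha => by simpa only [(K.meas a ha).P_eq hp, var] using hp.var_le (ψ a)
  have dec : ((∑ a ∈ s, ex p fun ω => ψ a ω * (Ψ ω - ex p Ψ)) -
      ∑ a ∈ s, ex p fun ω => ψ a ω * D a ω) =
      ∑ a ∈ s, ex p (fun ω => ψ a ω * (e a ω * er a Ψ ω)) -
      ∑ a ∈ s, ex p (fun ω => (ex p (ψ a) + er a (ψ a) ω) * D a ω) +
      ∑ a ∈ s, ex p (fun ω => la a (ψ a) ω * P p (Y a T) (O a) ω) := by
    rw [← sum_sub_distrib, ← sum_sub_distrib, ← sum_add_distrib]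
    refine sum_congr rfl fun a ha => ?_
    have a1 : ex p (fun ω => ψ a ω * (Ψ ω - ex p Ψ)) =
        ex p (fun ω => ψ a ω * (e a ω * er a Ψ ω)) + ex p fun ω => ψ a ω * la a Ψ ω := by
      rw [← ex_add, ← ((H.expl a ha).stop T).ex_mul_P hp (K.meas a ha)]
      congr 1; ext ω
      rw [P_sub, hp.P_const, ← sp a ha, ← mul_assoc, K.ψe a ha]; ring
    have a2 : ex p (fun ω => ψ a ω * la a Ψ ω) = ex p fun ω => la a (ψ a) ω * Ψ ω :=
      (H.expl a ha).tr_swap hp (mc' a ha) _ _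
    have a3 : ex p (fun ω => la a (ψ a) ω * V a ω) = 0 := (H.expl a ha).ex_tr_off hp (mc' a ha)
      (fun t ht ω z => hZ a ha t ht ω fun k => z (by simp [c, k])) (hV a ha) _
    have a4 : (fun ω => la a (ψ a) ω * Ψ ω) = fun ω => la a (ψ a) ω * V a ω +
        (ψ a ω * D a ω - (ex p (ψ a) + er a (ψ a) ω) * D a ω) + la a (ψ a) ω * O a ω := by
      ext ω
      have b1 := sp a ha (ψ a) ω
      rw [(K.meas a ha).P_eq hp] at b1
      have b3 : la a (ψ a) ω * Ψ ω = la a (ψ a) ω * (V a ω + D a ω + O a ω) := by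
        by_cases k : ∀ t, t < T → θ a t ω
        · have : la a (ψ a) ω = 0 := sum_eq_zero fun t ht => by simp [c, k t (mem_range.1 ht)]
          simp [this]
        · push Not at k
          obtain ⟨t, ht, k⟩ := k
          rw [hd a ha t ht ω k]
      rw [b3]
      linear_combination D a ω * b1
    have a5 := ((H.expl a ha).stop T).ex_mul_P hp
      ((H.expl a ha).meas_tr hp (mc' a ha) (ψ a)) (O a)
    rw [a1, a2, a4, ex_add, ex_add, ex_sub, a3]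
    simp only [la, a5]; ring
  set Φ := ∑ a ∈ s, nsq p (ψ a) / ρ a with hΦ
  have Φ0 : 0 ≤ Φ := sum_nonneg fun a ha => div_nonneg (hp.nsq_nn _) (H.pos a ha).le
  have s0 : ∀ u : α → (∀ i, E i) → ℝ, 0 ≤ ∑ a ∈ s, ρ a * nsq p (u a) := fun u =>
    sum_nonneg fun a ha => mul_nonneg (H.pos a ha).le (hp.nsq_nn _)
  have c1 : (∑ a ∈ s, ex p fun ω => ψ a ω * (e a ω * er a Ψ ω)) ^ 2 ≤
      Φ * (64 * q * (48 * m * (Nat.log 2 N + 1) * var p Ψ)) := by
    refine (hp.cs_sum s H.pos ψ _).trans (mul_le_mul_of_nonneg_left ?_ Φ0)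
    refine le_trans ?_ (mul_le_mul_of_nonneg_left (H.shearer hp Ψ) (by positivity))
    rw [mul_sum]
    refine sum_le_sum fun a ha => ?_
    rw [mul_left_comm]
    exact mul_le_mul_of_nonneg_left ((esq a ha _).trans (zn a ha Ψ)) (H.pos a ha).le
  have c2 : (∑ a ∈ s, ex p fun ω => (ex p (ψ a) + er a (ψ a) ω) * D a ω) ^ 2 ≤
      130 * q * Φ * ∑ a ∈ s, ρ a * nsq p (D a) := by
    refine (hp.cs_sum s H.pos _ D).trans (mul_le_mul_of_nonneg_right ?_ (s0 D))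
    rw [hΦ, mul_sum]
    refine sum_le_sum fun a ha => ?_
    rw [← mul_div_assoc]
    refine div_le_div_of_nonneg_right ?_ (H.pos a ha).le
    refine (hp.ex_mono (g := fun ω => 2 * ex p (ψ a) ^ 2 + 2 * er a (ψ a) ω ^ 2)
      fun ω => ?_).trans ?_
    · nlinarith [sq_nonneg (ex p (ψ a) - er a (ψ a) ω)]
    · rw [ex_add, ex_mul, ex_mul, hp.ex_const]
      have b1 := (H.expl a ha).zeno_dual hp q0 (K.e0 a ha) (K.e1 a ha) (mc a ha)
        (fun t ω => by simp only [c]; split_ifs <;> simp)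
        (fun t ht ω z => hq a ha t ht ω (by by_contra k; simp [c, k] at z)) (K.ψe a ha)
      have b2 := hp.cs (ψ a) (e a)
      simp only [K.ψe a ha] at b2
      have b3 : nsq p (e a) ≤ q := le_trans (hp.ex_mono fun ω => by
        nlinarith [K.e0 a ha ω, K.e1 a ha ω]) (K.eq a ha)
      have b4 := mul_le_mul_of_nonneg_left b3 (hp.nsq_nn (ψ a))
      change 2 * _ + 2 * nsq p (er a (ψ a)) ≤ _
      change nsq p (er a (ψ a)) ≤ _ at b1
      nlinarith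
  have c3 : (∑ a ∈ s, ex p fun ω => la a (ψ a) ω * P p (Y a T) (O a) ω) ^ 2 ≤
      Φ * ∑ a ∈ s, ρ a * nsq p (P p (Y a T) (O a)) := by
    refine (hp.cs_sum s H.pos _ fun a => P p (Y a T) (O a)).trans
      (mul_le_mul_of_nonneg_right ?_ (s0 fun a => P p (Y a T) (O a)))
    refine sum_le_sum fun a ha => div_le_div_of_nonneg_right (le_trans ?_ (Pψ a ha)) (H.pos a ha).le
    have z := tr_sq_le hp.w_nn (H.expl a ha).filt ((H.expl a ha).mart hp T (ψ a))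
      (fun t ht => ms_iff.2 (mc' a ha t ht)) fun t ω => by simp only [c]; split_ifs <;> simp
    simp only [P0 a ha] at z
    exact z
  rw [dec]
  have t3 : ∀ x y z : ℝ, (x - y + z) ^ 2 ≤ 3 * (x ^ 2 + y ^ 2 + z ^ 2) := fun x y z => by
    nlinarith [sq_nonneg (x + y), sq_nonneg (x - z), sq_nonneg (y + z)]
  refine (t3 _ _ _).trans ?_
  nlinarith

end Crest.Agent.N337.PH
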