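import Mathlib

/-!
# Row 337, block L4 (helper96): Lemma Z (Zeno bound without windows)

Finite probability space with weights `p`, filtration given by equivalence relations `r t`.
If `h ≥ 0` and `X` are martingales, `X 0 = 0`, and `X` only moves while `h ≤ q`, then
`E[h_T X_T²] ≤ 64 q E[X_T²]` (`zeno`).
-/

set_option autoImplicit false

namespace Crest.Agent.N337.L4

open Finset

section defs
variable {Ω : Type} [Fintype Ω]

/-- expectation with weights `p`. -/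
def Ex (p f : Ω → ℝ) : ℝ := ∑ ω, p ω * f ω

/-- `g` is constant on the classes of `r`. -/
def Ms (r : Ω → Ω → Prop) (g : Ω → ℝ) : Prop := ∀ ω ω', r ω ω' → g ω = g ω'

/-- a filtration: decreasing equivalence relations. -/
structure Filt (r : ℕ → Ω → Ω → Prop) : Prop where
  eqv : ∀ t, Equivalence (r t)
  mono : ∀ t ω ω', r (t + 1) ω ω' → r t ω ω'

/-- martingale up to time `T`. -/
structure Mart (p : Ω → ℝ) (r : ℕ → Ω → Ω → Prop) (T : ℕ) (M : ℕ → Ω → ℝ) : Prop where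
  ms : ∀ t, t ≤ T → Ms (r t) (M t)
  orth : ∀ t, t < T → ∀ g, Ms (r t) g →
    Ex p (fun ω => g ω * M (t + 1) ω) = Ex p (fun ω => g ω * M t ω)

open Classical in
/-- conditional expectation given the classes of `r`. -/
noncomputable def ce (p : Ω → ℝ) (r : Ω → Ω → Prop) (F : Ω → ℝ) (ω : Ω) : ℝ :=
  (∑ ω', if r ω ω' then p ω' * F ω' else 0) / ∑ ω', if r ω ω' then p ω' else 0
end defs

variable {Ω : Type} [Fintype Ω] {p : Ω → ℝ}

theorem Ex_mono (hp : ∀ ω, 0 ≤ p ω) {f g : Ω → ℝ} (h : ∀ ω, f ω ≤ g ω) : Ex p f ≤ Ex p g :=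
  sum_le_sum fun ω _ => mul_le_mul_of_nonneg_left (h ω) (hp ω)

theorem Ex_nonneg (hp : ∀ ω, 0 ≤ p ω) {f : Ω → ℝ} (h : ∀ ω, 0 ≤ f ω) : 0 ≤ Ex p f :=
  sum_nonneg fun ω _ => mul_nonneg (hp ω) (h ω)

theorem Ex_add (f g : Ω → ℝ) : Ex p (fun ω => f ω + g ω) = Ex p f + Ex p g := by
  simp only [Ex, mul_add, sum_add_distrib]

theorem Ex_sub (f g : Ω → ℝ) : Ex p (fun ω => f ω - g ω) = Ex p f - Ex p g := by
  simp only [Ex, mul_sub, sum_sub_distrib]

theorem Ex_smul (c : ℝ) (f : Ω → ℝ) : Ex p (fun ω => c * f ω) = c * Ex p f := by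
  simp only [Ex, mul_sum]
  exact sum_congr rfl fun ω _ => by ring

theorem ce_ms {r : Ω → Ω → Prop} (hr : Equivalence r) (F : Ω → ℝ) : Ms r (ce p r F) := by
  intro ω ω' h
  have : r ω = r ω' := funext fun η =>
    propext ⟨fun a => hr.trans (hr.symm h) a, fun a => hr.trans h a⟩
  unfold ce
  rw [this]

theorem ce_nonneg (hp : ∀ ω, 0 ≤ p ω) (r : Ω → Ω → Prop) {F : Ω → ℝ} (hF : ∀ ω, 0 ≤ F ω) (ω : Ω) :
    0 ≤ ce p r F ω := by
  refine div_nonneg (sum_nonneg fun η _ => ?_) (sum_nonneg fun η _ => ?_)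
  · split_ifs
    · exact mul_nonneg (hp η) (hF η)
    · exact le_rfl
  · split_ifs
    · exact hp η
    · exact le_rfl

theorem ce_orth (hp : ∀ ω, 0 ≤ p ω) {r : Ω → Ω → Prop} (hr : Equivalence r) (F : Ω → ℝ)
    {g : Ω → ℝ} (hg : Ms r g) :
    Ex p (fun ω => g ω * ce p r F ω) = Ex p (fun ω => g ω * F ω) := by
  classical
  set w : Ω → ℝ := fun ω => ∑ ω', if r ω ω' then p ω' else 0 with hw
  have hw0 : ∀ ω, p ω ≤ w ω := fun ω => by
    have := single_le_sum (s := univ) (f := fun ω' => if r ω ω' then p ω' else 0)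
      (fun η _ => by split_ifs; exacts [hp η, le_rfl]) (mem_univ ω)
    simpa [hr.refl ω] using this
  have hww : ∀ ω η, r ω η → w ω = w η := fun ω η h => by
    have : ∀ ζ, r ω ζ ↔ r η ζ := fun ζ => ⟨fun a => hr.trans (hr.symm h) a, fun a => hr.trans h a⟩
    simp only [hw, this]
  have h1 : Ex p (fun ω => g ω * ce p r F ω) =
      ∑ ω, ∑ η, if r η ω then p ω * (g η * (p η * F η) / w η) else 0 := by
    refine sum_congr rfl fun ω _ => ?_
    have : ce p r F ω = (∑ ω', if r ω ω' then p ω' * F ω' else 0) / w ω := by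
      simp only [ce, hw]
    simp only [this, sum_div, mul_sum]
    refine sum_congr rfl fun η _ => ?_
    by_cases h : r ω η
    · rw [if_pos h, if_pos (hr.symm h), hg ω η h, hww ω η h]; ring
    · rw [if_neg h, if_neg fun a => h (hr.symm a)]; simp
  rw [h1, sum_comm]
  refine sum_congr rfl fun η _ => ?_
  have h2 : (∑ ω, if r η ω then p ω * (g η * (p η * F η) / w η) else 0) =
      w η * (g η * (p η * F η) / w η) := by
    simp only [hw, sum_mul]
    exact sum_congr rfl fun ω _ => by split_ifs <;> simp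
  rw [h2]
  by_cases h0 : w η = 0
  · have : p η = 0 := le_antisymm (h0 ▸ hw0 η) (hp η)
    simp [this]
  · field_simp

/-- the martingale closed by a terminal variable. -/
theorem exists_mart (hp : ∀ ω, 0 ≤ p ω) {r : ℕ → Ω → Ω → Prop} (hr : Filt r) (T : ℕ)
    {F : Ω → ℝ} (hF : Ms (r T) F) : ∃ A, Mart p r T A ∧ A T = F := by
  refine ⟨fun t => if t = T then F else ce p (r t) F, ⟨fun t _ => ?_, fun t ht g hg => ?_⟩, by simp⟩
  · by_cases h : t = T
    · simpa [h] using hF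
    · simpa [h] using ce_ms (hr.eqv t) F
  · have hg' : Ms (r (t + 1)) g := fun ω ω' h => hg ω ω' (hr.mono t ω ω' h)
    simp only [if_neg ht.ne]
    rw [ce_orth hp (hr.eqv t) F hg]
    by_cases h : t + 1 = T
    · simp [h]
    · simp only [if_neg h]
      exact ce_orth hp (hr.eqv _) F hg'

/-- conditional expectations along a filtration form a martingale. -/
theorem mart_ce (hp : ∀ ω, 0 ≤ p ω) {r : ℕ → Ω → Ω → Prop} (hr : Filt r) (T : ℕ) (F : Ω → ℝ) :
    Mart p r T fun t => ce p (r t) F := by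
  refine ⟨fun t _ => ce_ms (hr.eqv t) F, fun t _ g hg => ?_⟩
  have hg' : Ms (r (t + 1)) g := fun ω ω' h => hg ω ω' (hr.mono t ω ω' h)
  rw [ce_orth hp (hr.eqv t) F hg, ce_orth hp (hr.eqv _) F hg']

/-- the covariation of two martingales telescopes. -/
theorem Mart.cov {r : ℕ → Ω → Ω → Prop} {T : ℕ} {A X : ℕ → Ω → ℝ} (hA : Mart p r T A)
    (hX : Mart p r T X) :
    Ex p (fun ω => A T ω * X T ω) = Ex p (fun ω => A 0 ω * X 0 ω) +
      ∑ t ∈ range T, Ex p (fun ω => (A (t + 1) ω - A t ω) * (X (t + 1) ω - X t ω)) := by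
  have key : ∀ t, t ≤ T → Ex p (fun ω => A t ω * X t ω) = Ex p (fun ω => A 0 ω * X 0 ω) +
      ∑ s ∈ range t, Ex p (fun ω => (A (s + 1) ω - A s ω) * (X (s + 1) ω - X s ω)) := by
    intro t
    induction t with
    | zero => simp
    | succ t ih =>
      intro ht
      rw [sum_range_succ, ← add_assoc, ← ih (by omega)]
      have e1 := hA.orth t ht (X t) (hX.ms t (by omega))
      have e2 := hX.orth t ht (A t) (hA.ms t (by omega))
      have e3 : Ex p (fun ω => (A (t + 1) ω - A t ω) * (X (t + 1) ω - X t ω)) =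
          Ex p (fun ω => A (t + 1) ω * X (t + 1) ω) - Ex p (fun ω => X t ω * A (t + 1) ω) -
            Ex p (fun ω => A t ω * X (t + 1) ω) + Ex p (fun ω => X t ω * A t ω) := by
        rw [← Ex_sub, ← Ex_sub, ← Ex_add]
        congr 1; funext ω; ring
      rw [e3, e1, e2]; ring
  exact key T le_rfl

/-- the concave denominator of the Bellman function. -/
noncomputable def chi (q u : ℝ) : ℝ := u + q + q * u / (u + q)

theorem le_chi {q u : ℝ} (hq : 0 < q) (hu : 0 ≤ u) : u + q ≤ chi q u := by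
  have : 0 ≤ q * u / (u + q) := by positivity
  unfold chi; linarith

/-- the tangent inequality of the Bellman function `x² / chi h`. -/
theorem bell {q h k : ℝ} (hq : 0 < q) (hh : 0 ≤ h) (hk : 0 ≤ k) (x y : ℝ) :
    2 * (x / chi q h) * y - (x / chi q h) ^ 2 * (chi q h + (1 + q ^ 2 / (h + q) ^ 2) * (k - h)) +
      (if h ≤ q ∧ k ≤ q then (y - x) ^ 2 / (64 * q) else 0) ≤ y ^ 2 / chi q k := by
  have hc : 0 < chi q k := lt_of_lt_of_le (by positivity) (le_chi hq hk)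
  have hch : 0 < chi q h := lt_of_lt_of_le (by positivity) (le_chi hq hh)
  set s := x / chi q h with hs
  have hx : x = s * chi q h := by rw [hs]; field_simp
  have hgap : chi q h + (1 + q ^ 2 / (h + q) ^ 2) * (k - h) =
      chi q k + q ^ 2 * (k - h) ^ 2 / ((h + q) ^ 2 * (k + q)) := by
    unfold chi; field_simp; ring
  set gap := q ^ 2 * (k - h) ^ 2 / ((h + q) ^ 2 * (k + q)) with hg
  have hg0 : 0 ≤ gap := by positivity
  have hid : y ^ 2 / chi q k = 2 * s * y - s ^ 2 * (chi q k + gap) +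
      ((y - s * chi q k) ^ 2 / chi q k + s ^ 2 * gap) := by
    field_simp; ring
  rw [hgap, hid]
  refine add_le_add_right ?_ _
  split_ifs with hcase
  · obtain ⟨h1, h2⟩ := hcase
    have hg1 : (k - h) ^ 2 ≤ 8 * q * gap := by
      rw [hg, mul_div_assoc', le_div_iff₀ (by positivity)]
      have a1 : (h + q) ^ 2 ≤ (2 * q) ^ 2 := by gcongr; linarith
      have a2 : (h + q) ^ 2 * (k + q) ≤ (2 * q) ^ 2 * (2 * q) := by gcongr; linarith
      nlinarith [sq_nonneg (k - h)]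
    have hd : (chi q k - chi q h) ^ 2 ≤ 4 * (k - h) ^ 2 := by
      have e : chi q k - chi q h = (1 + q ^ 2 / ((h + q) * (k + q))) * (k - h) := by
        unfold chi; field_simp; ring
      have b0 : 0 ≤ q ^ 2 / ((h + q) * (k + q)) := by positivity
      have b1 : q ^ 2 / ((h + q) * (k + q)) ≤ 1 := by
        rw [div_le_one (by positivity)]; nlinarith [mul_nonneg hh hk]
      rw [e, mul_pow]
      gcongr
      nlinarith
    have hck : chi q k ≤ 3 * q := by
      have : q * k / (k + q) ≤ q := by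
        rw [div_le_iff₀ (by positivity)]; nlinarith
      unfold chi; linarith
    set u := (y - s * chi q k) ^ 2 / chi q k with hu
    have hu0 : 0 ≤ u := by positivity
    have hu1 : (y - s * chi q k) ^ 2 ≤ 3 * q * u := by
      have : (y - s * chi q k) ^ 2 = chi q k * u := by rw [hu]; field_simp
      rw [this]; gcongr
    rw [div_le_iff₀ (by positivity)]
    have e2 : y - x = (y - s * chi q k) + s * (chi q k - chi q h) := by rw [hx]; ring
    have e3 : (y - x) ^ 2 ≤ 2 * (y - s * chi q k) ^ 2 + 2 * (s ^ 2 * (chi q k - chi q h) ^ 2) := by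
      rw [e2]; nlinarith [sq_nonneg ((y - s * chi q k) - s * (chi q k - chi q h))]
    have e4 : s ^ 2 * (chi q k - chi q h) ^ 2 ≤ s ^ 2 * (4 * (8 * q * gap)) := by
      gcongr; linarith
    nlinarith [mul_nonneg hq.le hu0]
  · positivity

/-- **Lemma Z.** -/
theorem zeno (hp : ∀ ω, 0 ≤ p ω) {r : ℕ → Ω → Ω → Prop} (hr : Filt r) {T : ℕ} {q : ℝ}
    (hq : 0 < q) {h X : ℕ → Ω → ℝ} (hh : Mart p r T h) (h0 : ∀ t, t ≤ T → ∀ ω, 0 ≤ h t ω)
    (hX : Mart p r T X) (hX0 : ∀ ω, X 0 ω = 0)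
    (hs : ∀ t, t < T → ∀ ω, X (t + 1) ω ≠ X t ω → h t ω ≤ q ∧ h (t + 1) ω ≤ q) :
    Ex p (fun ω => h T ω * X T ω ^ 2) ≤ 64 * q * Ex p (fun ω => X T ω ^ 2) := by
  obtain ⟨A, hA, hAT⟩ := exists_mart hp hr T (F := fun ω => h T ω * X T ω) fun ω ω' e => by
    simp only [hh.ms T le_rfl ω ω' e, hX.ms T le_rfl ω ω' e]
  set B : ℕ → ℝ := fun t => Ex p fun ω => A t ω ^ 2 / chi q (h t ω) with hB
  set I : ℕ → ℝ := fun t => Ex p fun ω =>
    if h t ω ≤ q ∧ h (t + 1) ω ≤ q then (A (t + 1) ω - A t ω) ^ 2 / (64 * q) else 0 with hI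
  have step : ∀ t, t < T → B t + I t ≤ B (t + 1) := by
    intro t ht
    have hm := Ex_mono hp fun ω => bell hq (h0 t ht.le ω) (h0 (t + 1) ht ω) (A t ω) (A (t + 1) ω)
    refine le_trans (le_of_eq ?_) hm
    rw [Ex_add]
    congr 1
    have m1 : Ms (r t) fun ω => 2 * (A t ω / chi q (h t ω)) := fun ω ω' e => by
      simp only [hh.ms t ht.le ω ω' e, hA.ms t ht.le ω ω' e]
    have m2 : Ms (r t) fun ω => (A t ω / chi q (h t ω)) ^ 2 * (1 + q ^ 2 / (h t ω + q) ^ 2) :=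
      fun ω ω' e => by simp only [hh.ms t ht.le ω ω' e, hA.ms t ht.le ω ω' e]
    have e1 := hA.orth t ht _ m1
    have e2 := hh.orth t ht _ m2
    have e3 : (Ex p fun ω => 2 * (A t ω / chi q (h t ω)) * A (t + 1) ω -
        (A t ω / chi q (h t ω)) ^ 2 *
          (chi q (h t ω) + (1 + q ^ 2 / (h t ω + q) ^ 2) * (h (t + 1) ω - h t ω))) =
        (Ex p fun ω => 2 * (A t ω / chi q (h t ω)) * A (t + 1) ω) -
        (Ex p fun ω => (A t ω / chi q (h t ω)) ^ 2 * (1 + q ^ 2 / (h t ω + q) ^ 2) * h (t + 1) ω) +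
        (Ex p fun ω => (A t ω / chi q (h t ω)) ^ 2 * (1 + q ^ 2 / (h t ω + q) ^ 2) * h t ω) -
        (Ex p fun ω => (A t ω / chi q (h t ω)) ^ 2 * chi q (h t ω)) := by
      rw [← Ex_sub, ← Ex_add, ← Ex_sub]
      congr 1; funext ω; ring
    rw [e3, e1, e2, sub_add_cancel, ← Ex_sub]
    simp only [hB]
    congr 1; funext ω
    have hc : 0 < chi q (h t ω) :=
      lt_of_lt_of_le (by have := h0 t ht.le ω; positivity) (le_chi hq (h0 t ht.le ω))
    field_simp; ring
  have tel : ∀ t, t ≤ T → B 0 + ∑ s ∈ range t, I s ≤ B t := by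
    intro t
    induction t with
    | zero => simp
    | succ t ih =>
      intro ht
      rw [sum_range_succ]
      linarith [ih (by omega), step t ht]
  have hc0 : ∀ t, t ≤ T → ∀ ω, 0 < chi q (h t ω) := fun t ht ω =>
    lt_of_lt_of_le (by have := h0 t ht ω; positivity) (le_chi hq (h0 t ht ω))
  have hB0 : 0 ≤ B 0 := Ex_nonneg hp fun ω => by have := hc0 0 (Nat.zero_le T) ω; positivity
  set W := Ex p (fun ω => h T ω * X T ω ^ 2) with hW
  have hBT : B T ≤ W := by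
    refine Ex_mono hp fun ω => ?_
    rw [hAT, div_le_iff₀ (hc0 T le_rfl ω)]
    have a1 := le_chi hq (h0 T le_rfl ω)
    have a2 : 0 ≤ h T ω * X T ω ^ 2 := mul_nonneg (h0 T le_rfl ω) (sq_nonneg _)
    calc (h T ω * X T ω) ^ 2 = h T ω * X T ω ^ 2 * h T ω := by ring
      _ ≤ _ := by gcongr; linarith
  have c1 := hA.cov hX
  have c2 := hX.cov hX
  simp only [hX0, mul_zero] at c1 c2
  have z : Ex p (fun _ => (0 : ℝ)) = 0 := by simp [Ex]
  rw [z, zero_add] at c1 c2
  have w1 : W = Ex p (fun ω => A T ω * X T ω) := by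
    rw [hW, hAT]; congr 1; funext ω; ring
  have w2 : Ex p (fun ω => X T ω ^ 2) = Ex p (fun ω => X T ω * X T ω) := by
    congr 1; funext ω; ring
  have am : ∀ t ∈ range T, Ex p (fun ω => (A (t + 1) ω - A t ω) * (X (t + 1) ω - X t ω)) ≤
      I t / 2 + 32 * q * Ex p (fun ω => (X (t + 1) ω - X t ω) * (X (t + 1) ω - X t ω)) := by
    intro t ht
    rw [div_eq_inv_mul, hI]
    simp only
    rw [← Ex_smul, ← Ex_smul, ← Ex_add]
    refine Ex_mono hp fun ω => ?_
    by_cases e : X (t + 1) ω = X t ω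
    · rw [e, sub_self, mul_zero, mul_zero, mul_zero, add_zero]
      split_ifs <;> positivity
    · rw [if_pos (hs t (mem_range.1 ht) ω e)]
      set a := A (t + 1) ω - A t ω
      set b := X (t + 1) ω - X t ω
      have : 2⁻¹ * (a ^ 2 / (64 * q)) + 32 * q * (b * b) - a * b =
          (a - 64 * q * b) ^ 2 / (128 * q) := by field_simp; ring
      have h2 : 0 ≤ (a - 64 * q * b) ^ 2 / (128 * q) := by positivity
      linarith
  have hsum := sum_le_sum am
  rw [sum_add_distrib, ← sum_div, ← mul_sum, ← c1, ← c2, ← w1, ← w2] at hsum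
  linarith [tel T le_rfl]

/-- martingale transform. -/
def tr {Ω : Type} (θ M : ℕ → Ω → ℝ) (t : ℕ) (ω : Ω) : ℝ :=
  ∑ s ∈ range t, θ s ω * (M (s + 1) ω - M s ω)

theorem Filt.anti {Ω : Type} {r : ℕ → Ω → Ω → Prop} (hr : Filt r) {s t : ℕ} (h : s ≤ t) (ω ω' : Ω)
    (e : r t ω ω') : r s ω ω' := by
  induction h with
  | refl => exact e
  | step _ ih => exact ih (hr.mono _ ω ω' e)

theorem Mart.tr {r : ℕ → Ω → Ω → Prop} (hr : Filt r) {T : ℕ} {θ M : ℕ → Ω → ℝ}
    (hM : Mart p r T M) (hθ : ∀ t, t < T → Ms (r t) (θ t)) : Mart p r T (tr θ M) := by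
  refine ⟨fun t ht ω ω' e => sum_congr rfl fun s hs => ?_, fun t ht g hg => ?_⟩
  · have hs' := mem_range.1 hs
    rw [hθ s (by omega) ω ω' (hr.anti hs'.le _ _ e), hM.ms s (by omega) ω ω' (hr.anti hs'.le _ _ e),
      hM.ms (s + 1) (by omega) ω ω' (hr.anti hs' _ _ e)]
  · have e1 := hM.orth t ht (fun ω => g ω * θ t ω) fun ω ω' e => by
      simp only [hg ω ω' e, hθ t ht ω ω' e]
    have e2 : Ex p (fun ω => g ω * L4.tr θ M (t + 1) ω) = Ex p (fun ω => g ω * L4.tr θ M t ω) +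
        (Ex p (fun ω => g ω * θ t ω * M (t + 1) ω) - Ex p (fun ω => g ω * θ t ω * M t ω)) := by
      rw [← Ex_sub, ← Ex_add]
      congr 1; funext ω
      simp only [L4.tr, sum_range_succ]; ring
    rw [e2, e1, sub_self, add_zero]

theorem Mart.sub0 {r : ℕ → Ω → Ω → Prop} (hr : Filt r) {T : ℕ} {M : ℕ → Ω → ℝ}
    (hM : Mart p r T M) : Mart p r T fun t ω => M t ω - M 0 ω := by
  have h := hM.tr hr (θ := fun _ _ => 1) fun _ _ _ _ _ => rfl
  have e : L4.tr (fun _ _ => (1 : ℝ)) M = fun t ω => M t ω - M 0 ω := by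
    funext t ω
    simp only [L4.tr, one_mul]
    exact sum_range_sub (fun s => M s ω) t
  rwa [e] at h

/-- a transform with `|θ| ≤ 1` contracts the quadratic variation. -/
theorem tr_sq_le (hp : ∀ ω, 0 ≤ p ω) {r : ℕ → Ω → Ω → Prop} (hr : Filt r) {T : ℕ}
    {θ M : ℕ → Ω → ℝ} (hM : Mart p r T M) (hθ : ∀ t, t < T → Ms (r t) (θ t))
    (h1 : ∀ t ω, |θ t ω| ≤ 1) :
    Ex p (fun ω => tr θ M T ω ^ 2) ≤ Ex p (fun ω => (M T ω - M 0 ω) ^ 2) := by
  have c1 := (hM.tr hr hθ).cov (hM.tr hr hθ)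
  have c2 := (hM.sub0 hr).cov (hM.sub0 hr)
  have z : Ex p (fun _ => (0 : ℝ)) = 0 := by simp [Ex]
  have t0 : ∀ ω, tr θ M 0 ω = 0 := fun ω => by simp [tr]
  simp only [t0, sub_self, mul_zero, z, zero_add] at c1 c2
  simp only [pow_two]
  rw [c1, c2]
  refine sum_le_sum fun t _ => Ex_mono hp fun ω => ?_
  have e : tr θ M (t + 1) ω - tr θ M t ω = θ t ω * (M (t + 1) ω - M t ω) := by
    simp only [tr, sum_range_succ]; ring
  have a : θ t ω ^ 2 ≤ 1 := by rw [← sq_abs]; nlinarith [h1 t ω, abs_nonneg (θ t ω)]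
  rw [e]
  nlinarith [mul_le_mul_of_nonneg_right a (sq_nonneg (M (t + 1) ω - M t ω))]

/-- **Lemma Z** for a martingale transform switched on only while `h ≤ q`. -/
theorem zeno_tr (hp : ∀ ω, 0 ≤ p ω) {r : ℕ → Ω → Ω → Prop} (hr : Filt r) {T : ℕ} {q : ℝ}
    (hq : 0 < q) {h θ M : ℕ → Ω → ℝ} (hh : Mart p r T h) (h0 : ∀ t, t ≤ T → ∀ ω, 0 ≤ h t ω)
    (hM : Mart p r T M) (hθ : ∀ t, t < T → Ms (r t) (θ t)) (h1 : ∀ t ω, |θ t ω| ≤ 1)
    (hs : ∀ t, t < T → ∀ ω, θ t ω ≠ 0 → h t ω ≤ q ∧ h (t + 1) ω ≤ q) :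
    Ex p (fun ω => h T ω * tr θ M T ω ^ 2) ≤ 64 * q * Ex p (fun ω => (M T ω - M 0 ω) ^ 2) := by
  refine (zeno hp hr hq hh h0 (hM.tr hr hθ) (fun ω => by simp [tr]) fun t ht ω e => ?_).trans ?_
  · refine hs t ht ω fun z => e ?_
    simp only [tr, sum_range_succ, z, zero_mul, add_zero]
  · exact mul_le_mul_of_nonneg_left (tr_sq_le hp hr hM hθ h1) (by positivity)

end Crest.Agent.N337.L4
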