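import Crest.Agent.N337.L4.Shearer
import Crest.Agent.N337.L4.Zeno

/-!
# Row 337, L4: groups of cells, explorers as filtrations, Schramm-Steif bound for chosen steps

`gr : ι → κ` sends a (fine) cell to its group, `G` is the set of active groups.  The cells of the
other groups are free.  `Expl.ss_tr`: the increments of `E[g | F_t]` in a predictable set of steps
cost the influences of the groups revealed in those steps.
-/

set_option autoImplicit false
set_option linter.unusedSectionVars false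

namespace Crest.Agent.N337.PH

open Finset L4

variable {ι : Type} [Fintype ι] [DecidableEq ι] {E : ι → Type} [∀ i, Fintype (E i)]
  {κ : Type} [Fintype κ] [DecidableEq κ]

/-- the cells of the groups in `U`. -/
def pre (gr : ι → κ) (U : Finset κ) : Finset ι := univ.filter fun i => gr i ∈ U

@[simp] lemma mem_pre {gr : ι → κ} {U : Finset κ} {i : ι} : i ∈ pre gr U ↔ gr i ∈ U := by
  simp [pre]

/-- the active groups met by `A`. -/
def mt (gr : ι → κ) (G : Finset κ) (A : Finset ι) : Finset κ := A.image gr ∩ G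

lemma mem_mt {gr : ι → κ} {G : Finset κ} {A : Finset ι} {γ : κ} :
    γ ∈ mt gr G A ↔ (∃ i ∈ A, gr i = γ) ∧ γ ∈ G := by simp [mt]

/-- `A` contains every active group that it meets. -/
def Cl (gr : ι → κ) (G : Finset κ) (A : Finset ι) : Prop :=
  ∀ i ∈ A, gr i ∈ G → ∀ j, gr j = gr i → j ∈ A

/-- influence of a group. -/
def DG (p : ∀ i, E i → ℝ) (gr : ι → κ) (γ : κ) (f : (∀ i, E i) → ℝ) (ω : ∀ i, E i) : ℝ :=
  f ω - C p (pre gr {γ})ᶜ f ω

variable {p : ∀ i, E i → ℝ} {f g : (∀ i, E i) → ℝ} {X : ℕ → (∀ i, E i) → Finset ι}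
  {gr : ι → κ} {G : Finset κ} {R R' : (∀ i, E i) → Finset ι}

lemma Cl.union {A B : Finset ι} (hA : Cl gr G A) (hB : Cl gr G B) : Cl gr G (A ∪ B) := by
  intro i hi hG j e
  rcases mem_union.1 hi with h | h
  · exact mem_union_left _ (hA i h hG j e)
  · exact mem_union_right _ (hB i h hG j e)

lemma cl_pre (U : Finset κ) : Cl gr G (pre gr U) := fun i hi _ j e => by
  rw [mem_pre] at hi ⊢; rwa [e]

lemma subset_pre {S : Finset ι} {U : Finset κ} : S ⊆ pre gr U ↔ S.image gr ⊆ U := by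
  simp [subset_iff]

lemma subset_compl_pre {S : Finset ι} {γ : κ} : S ⊆ (pre gr {γ})ᶜ ↔ γ ∉ S.image gr := by
  simp [subset_iff]

lemma Pr.DG_Mu (hp : Pr p) (γ : κ) (a : Finset ι → ℝ) (f : (∀ i, E i) → ℝ) :
    DG p gr γ (Mu p a f) = Mu p (fun S => if γ ∈ S.image gr then a S else 0) f := by
  ext ω
  rw [DG, hp.C_Mu, Mu_sub]
  congr 1; ext S
  simp only [subset_compl_pre]; by_cases h : γ ∈ S.image gr <;> simp only [h] <;> simp

lemma Pr.sum_nsq_DG (hp : Pr p) (V : Finset κ) (a : Finset ι → ℝ) (f : (∀ i, E i) → ℝ) :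
    ∑ γ ∈ V, nsq p (DG p gr γ (Mu p a f)) =
      ∑ S, (V ∩ S.image gr).card * a S ^ 2 * nsq p (hf p S f) := by
  simp only [hp.DG_Mu, hp.nsq_Mu]
  rw [sum_comm]
  refine sum_congr rfl fun S _ => ?_
  rw [← sum_mul]
  congr 1
  simp only [ite_pow, ne_eq, OfNat.ofNat_ne_zero, not_false_eq_true, zero_pow]
  rw [← sum_filter, filter_mem_eq_inter, sum_const, nsmul_eq_mul]

/-- Efron-Stein with groups. -/
theorem Pr.es_g (hp : Pr p) {A B : Finset ι} (h : A ⊆ B) (f : (∀ i, E i) → ℝ) :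
    nsq p (fun ω => C p B f ω - C p A f ω) ≤ ∑ γ ∈ (B \ A).image gr, nsq p (DG p gr γ f) := by
  rw [hp.eq_Mu f, hp.sum_nsq_DG, hp.C_Mu, hp.C_Mu]
  simp only [Mu_sub]
  rw [hp.nsq_Mu]
  refine sum_le_sum fun S _ => mul_le_mul_of_nonneg_right ?_ (hp.nsq_nn _)
  by_cases hA : S ⊆ A
  · simp [hA, hA.trans h]
  by_cases hB : S ⊆ B
  · obtain ⟨c, hc, ha⟩ := not_subset.1 hA
    have : 1 ≤ ((B \ A).image gr ∩ S.image gr).card := card_pos.2 ⟨gr c,
      mem_inter.2 ⟨mem_image_of_mem _ (mem_sdiff.2 ⟨hB hc, ha⟩), mem_image_of_mem _ hc⟩⟩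
    simpa [hA, hB] using (by exact_mod_cast this : (1 : ℝ) ≤ ((B \ A).image gr ∩ S.image gr).card)
  · simp [hA, hB]

/-- the variance is at most the sum of the influences of the groups. -/
theorem Pr.es_var_g (hp : Pr p) (f : (∀ i, E i) → ℝ) : var p f ≤ ∑ γ, nsq p (DG p gr γ f) := by
  have h := hp.es_g (gr := gr) (empty_subset univ) f
  simp only [hp.C_univ, C_empty] at h
  exact h.trans (sum_le_sum_of_subset_of_nonneg (subset_univ _) fun _ _ _ => hp.nsq_nn _)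

lemma Meas.C_inter (hp : Pr p) {J : Finset ι} (hg : Meas (fun _ => J) g) (B : Finset ι)
    (ω : ∀ i, E i) : C p B g ω = C p (B ∩ J) g ω := by
  rw [← hp.C_C]
  congr 1
  exact funext fun η => (hg.P_eq hp η).symm

lemma Pr.es_wg (hp : Pr p) {A B : Finset ι} (h : A ⊆ B) (hA : Cl gr G A)
    (hf : Meas (fun _ => A) f) (hg : Meas (fun _ => pre gr G) g) :
    ex p (fun ω => f ω ^ 2 * (C p B g ω - C p A g ω) ^ 2) ≤
      ∑ γ ∈ mt gr G (B \ A), ex p fun ω => f ω ^ 2 * DG p gr γ g ω ^ 2 := by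
  have e : ∀ ω, C p B g ω = C p (A ∪ B ∩ pre gr G) g ω := fun ω => by
    rw [hg.C_inter hp B, hg.C_inter hp (A ∪ _)]
    congr 1; ext i
    simp only [mem_inter, mem_union]
    have := @h i
    tauto
  have e2 : ((A ∪ B ∩ pre gr G) \ A).image gr = mt gr G (B \ A) := by
    ext γ
    simp only [mem_mt, mem_image, mem_sdiff, mem_union, mem_inter, mem_pre]
    constructor
    · rintro ⟨i, ⟨h1, h2⟩, rfl⟩
      have := h1.resolve_left h2
      exact ⟨⟨i, ⟨this.1, h2⟩, rfl⟩, this.2⟩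
    · rintro ⟨⟨i, ⟨h1, h2⟩, rfl⟩, h3⟩
      exact ⟨i, ⟨Or.inr ⟨h1, h3⟩, h2⟩, rfl⟩
  have k := hp.es_g (gr := gr) (subset_union_left (s₁ := A) (s₂ := B ∩ pre gr G))
    fun ω => f ω * g ω
  have hB : Meas (fun _ => A ∪ B ∩ pre gr G) f := hf.mono fun _ => subset_union_left
  simp only [e]
  rw [e2] at k
  simp only [C, hf.P_mul, hB.P_mul, nsq, ← mul_sub, mul_pow] at k
  refine k.trans (le_of_eq (sum_congr rfl fun γ hγ => ?_))
  have hc' : Meas (fun _ => (pre gr {γ})ᶜ) f := hf.mono fun _ i hi => by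
    obtain ⟨⟨j, hj, rfl⟩, h2⟩ := mem_mt.1 hγ
    simp only [mem_compl, mem_pre, mem_singleton]
    exact fun e => (mem_sdiff.1 hj).2 (hA i hi (e ▸ h2) j e.symm)
  simp only [DG, C, hc'.P_mul, ← mul_sub, mul_pow]

/-- one predictable step with a predictable weight. -/
lemma Pr.step_g (hp : Pr p) (hR : Stop R) (h : ∀ ω, R ω ⊆ R' ω)
    (h' : ∀ ω ω', (∀ i ∈ R ω, ω' i = ω i) → R' ω' = R' ω) (hc : ∀ ω, Cl gr G (R ω))
    (hf : Meas R f) (hg : Meas (fun _ => pre gr G) g) :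
    ex p (fun ω => f ω ^ 2 * (P p R' g ω - P p R g ω) ^ 2) ≤
      ex p fun ω => f ω ^ 2 * ∑ γ ∈ mt gr G (R' ω \ R ω), DG p gr γ g ω ^ 2 := by
  set I : Finset ι × Finset ι → (∀ i, E i) → ℝ := fun x ω => if x = (R ω, R' ω) then f ω else 0
  have hI : ∀ x, Meas (fun _ => x.1) (I x) := by
    rintro ⟨A, B⟩ ω ω' e
    simp only [I, Prod.mk.injEq]
    by_cases h1 : A = R ω
    · subst h1; rw [hR ω ω' e, h' ω ω' e, hf ω ω' e]
    · rw [if_neg (c := A = R ω ∧ B = R' ω) fun k => h1 k.1, if_neg]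
      rintro ⟨rfl, -⟩
      exact h1 (hR ω' ω fun i hi => (e i hi).symm).symm
  have e1 : (fun ω => f ω ^ 2 * (P p R' g ω - P p R g ω) ^ 2) =
      fun ω => ∑ x, I x ω ^ 2 * (C p x.2 g ω - C p x.1 g ω) ^ 2 := by
    ext ω; simp [I, P_eq_C]
  have e2 : (fun ω => f ω ^ 2 * ∑ γ ∈ mt gr G (R' ω \ R ω), DG p gr γ g ω ^ 2) =
      fun ω => ∑ x, ∑ γ ∈ mt gr G (x.2 \ x.1), I x ω ^ 2 * DG p gr γ g ω ^ 2 := by
    ext ω; simp [I, ← mul_sum]
  rw [e1, e2, ex_sum, ex_sum]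
  refine sum_le_sum fun x _ => ?_
  rw [ex_sum]
  by_cases hx : ∃ ω, x = (R ω, R' ω)
  · obtain ⟨ω, rfl⟩ := hx
    exact hp.es_wg (h ω) (hc ω) (hI _) hg
  · have : ∀ ω, I x ω = 0 := fun ω => if_neg fun k => hx ⟨ω, k⟩
    simp [this, ex]

/-- pointwise tower property. -/
lemma Stop.tower (hp : Pr p) (hR : Stop R) (hR' : Stop R') (h : ∀ ω, R ω ⊆ R' ω)
    (f : (∀ i, E i) → ℝ) (ω : ∀ i, E i) : P p R (P p R' f) ω = P p R f ω := by
  have hs : Stop fun η => R' (pw (R ω) ω η) := fun η η' e => hR' _ _ fun i hi => by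
    by_cases k : i ∈ R ω
    · simp [k]
    · simp [k, e i hi]
  have k := hs.ex_P hp fun η => f (pw (R ω) ω η)
  refine Eq.trans ?_ k
  refine sum_congr rfl fun η _ => ?_
  congr 1
  refine sum_congr rfl fun η' _ => ?_
  congr 2; ext i
  by_cases a : i ∈ R ω
  · have : i ∈ R' (pw (R ω) ω η) := h _ (by rwa [hR.pw_eq])
    simp [a, this]
  · by_cases b : i ∈ R' (pw (R ω) ω η) <;> simp [a, b]

/-- a bound on the conditional expectation given more cells, valid on a measurable event. -/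
lemma Stop.P_le (hp : Pr p) (hR : Stop R) (hR' : Stop R') (h : ∀ ω, R ω ⊆ R' ω) {q : ℝ}
    (ω : ∀ i, E i) (hq : ∀ η, (∀ i ∈ R ω, η i = ω i) → P p R' f η ≤ q) : P p R f ω ≤ q := by
  rw [← hR.tower hp hR' h, ← hp.ex_const q]
  exact hp.ex_mono (f := fun η => P p R' f (pw (R ω) ω η)) fun η => hq _ fun i hi => pw_mem _ _ hi

/-- the filtration of an explorer. -/
def rl (X : ℕ → (∀ i, E i) → Finset ι) (t : ℕ) (ω ω' : ∀ i, E i) : Prop := ∀ i ∈ X t ω, ω' i = ω i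

lemma Expl.filt (h : Expl X) : Filt (rl X) := by
  refine ⟨fun t => ⟨fun _ _ _ => rfl, fun {ω ω'} e i hi => ?_, fun {ω ω' η} e e' i hi => ?_⟩,
    fun t ω ω' e i hi => e i (h.mono t ω hi)⟩
  · exact (e i (h.stop t ω ω' e ▸ hi)).symm
  · rw [e' i (by rwa [h.stop t ω ω' e]), e i hi]

lemma ms_iff {t : ℕ} : Ms (rl X t) f ↔ Meas (X t) f :=
  ⟨fun h ω ω' e => (h ω ω' e).symm, fun h ω ω' e => (h ω ω' e).symm⟩

lemma Expl.mart (hp : Pr p) (h : Expl X) (T : ℕ) (f : (∀ i, E i) → ℝ) :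
    Mart (w p) (rl X) T fun t => P p (X t) f := by
  refine ⟨fun t _ => ms_iff.2 ((h.stop t).meas_P f), fun t _ g hg => ?_⟩
  have a := (h.stop t).ex_mul_P hp (ms_iff.1 hg) f
  have b := (h.stop (t + 1)).ex_mul_P hp ((ms_iff.1 hg).mono (h.mono t)) f
  exact b.trans a.symm

variable {ψ : ℕ → (∀ i, E i) → ℝ} {T : ℕ}

lemma Expl.meas_tr (hp : Pr p) (h : Expl X) (hψ : ∀ t, t < T → Meas (X t) (ψ t))
    (f : (∀ i, E i) → ℝ) : Meas (X T) (tr ψ (fun t => P p (X t) f) T) :=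
  ms_iff.1 (((h.mart hp T f).tr h.filt fun t ht => ms_iff.2 (hψ t ht)).ms T le_rfl)

/-- transforms of two martingales: the covariation. -/
lemma Expl.ex_tr_tr (hp : Pr p) (h : Expl X) {χ : ℕ → (∀ i, E i) → ℝ}
    (hψ : ∀ t, t < T → Meas (X t) (ψ t)) (hχ : ∀ t, t < T → Meas (X t) (χ t))
    (f g : (∀ i, E i) → ℝ) :
    ex p (fun ω => tr ψ (fun t => P p (X t) f) T ω * tr χ (fun t => P p (X t) g) T ω) =
      ∑ t ∈ range T, ex p fun ω => ψ t ω * χ t ω *
        ((P p (X (t + 1)) f ω - P p (X t) f ω) * (P p (X (t + 1)) g ω - P p (X t) g ω)) := by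
  have c := ((h.mart hp T f).tr h.filt fun t ht => ms_iff.2 (hψ t ht)).cov
    ((h.mart hp T g).tr h.filt fun t ht => ms_iff.2 (hχ t ht))
  refine Eq.trans c ?_
  simp only [tr, range_zero, sum_empty, mul_zero, sum_range_succ, add_sub_cancel_left]
  rw [show Ex (w p) (fun _ : ∀ i, E i => (0 : ℝ)) = 0 by simp [Ex], zero_add]
  refine sum_congr rfl fun t _ => ?_
  change ex p _ = _
  congr 1; ext ω; ring

/-- **Schramm-Steif bound for a predictable set of steps.** -/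
theorem Expl.ss_tr (hp : Pr p) (h : Expl X) (hc : ∀ t ω, Cl gr G (X t ω))
    (hψ : ∀ t, t < T → Meas (X t) (ψ t)) (h1 : ∀ t ω, |ψ t ω| ≤ 1) (L : (∀ i, E i) → Finset κ)
    (hL : ∀ t, t < T → ∀ ω, ψ t ω ≠ 0 → mt gr G (X (t + 1) ω \ X t ω) ⊆ L ω)
    (hg : Meas (fun _ => pre gr G) g) :
    nsq p (tr ψ (fun t => P p (X t) g) T) ≤ ex p fun ω => ∑ γ ∈ L ω, DG p gr γ g ω ^ 2 := by
  have c := h.ex_tr_tr hp hψ hψ g g
  simp only [← sq] at c
  rw [nsq, c]
  refine (sum_le_sum fun t ht => hp.step_g (h.stop t) (h.mono t) (h.pred t) (hc t)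
    (hψ t (mem_range.1 ht)) hg).trans ?_
  rw [← ex_sum]
  refine hp.ex_mono fun ω => ?_
  have k : ∀ n, n ≤ T → ∑ t ∈ range n, ψ t ω ^ 2 * ∑ γ ∈ mt gr G (X (t + 1) ω \ X t ω),
      DG p gr γ g ω ^ 2 ≤ ∑ γ ∈ L ω ∩ mt gr G (X n ω), DG p gr γ g ω ^ 2 := by
    intro n
    induction n with
    | zero => intro _; simpa using sum_nonneg fun _ _ => sq_nonneg _
    | succ n ih =>
      intro hn
      have sub : mt gr G (X n ω) ⊆ mt gr G (X (n + 1) ω) :=
        inter_subset_inter_right (image_subset_image (h.mono n ω))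
      rw [sum_range_succ]
      by_cases z : ψ n ω = 0
      · simp only [z, ne_eq, OfNat.ofNat_ne_zero, not_false_eq_true, zero_pow, zero_mul, add_zero]
        exact (ih (by omega)).trans (sum_le_sum_of_subset_of_nonneg
          (inter_subset_inter_left sub) fun _ _ _ => sq_nonneg _)
      have a : ψ n ω ^ 2 ≤ 1 := by rw [← sq_abs]; nlinarith [h1 n ω, abs_nonneg (ψ n ω)]
      have b := mul_le_of_le_one_left (sum_nonneg (s := mt gr G (X (n + 1) ω \ X n ω))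
        fun γ _ => sq_nonneg (DG p gr γ g ω)) a
      refine (add_le_add (ih (by omega)) b).trans ?_
      rw [← sum_union]
      · refine sum_le_sum_of_subset_of_nonneg (union_subset (inter_subset_inter_left sub)
          (subset_inter (hL n hn ω z) ?_)) fun _ _ _ => sq_nonneg _
        exact inter_subset_inter_right (image_subset_image sdiff_subset)
      · refine disjoint_left.2 fun γ h1 h2 => ?_
        obtain ⟨⟨i, hi, rfl⟩, hG⟩ := mem_mt.1 (mem_inter.1 h1).2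
        obtain ⟨⟨j, hj, e⟩, -⟩ := mem_mt.1 h2
        exact (mem_sdiff.1 hj).2 (hc n ω i hi hG j e)
  exact (k T le_rfl).trans
    (sum_le_sum_of_subset_of_nonneg inter_subset_left fun _ _ _ => sq_nonneg _)

lemma tr_add_tr {Ω : Type} (θ M : ℕ → Ω → ℝ) (T : ℕ) (ω : Ω) :
    tr θ M T ω + tr (fun t ω => 1 - θ t ω) M T ω = M T ω - M 0 ω := by
  rw [← sum_range_sub (fun s => M s ω) T, tr, tr, ← sum_add_distrib]
  exact sum_congr rfl fun _ _ => by ring

lemma tr_one {Ω : Type} (M : ℕ → Ω → ℝ) (T : ℕ) (ω : Ω) :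
    tr (fun _ _ => 1) M T ω = M T ω - M 0 ω := by
  simp only [tr, one_mul]; exact sum_range_sub (fun s => M s ω) T

/-- Lemma Z for an explorer: `e ≥ 0` need not be measurable. -/
theorem Expl.zeno (hp : Pr p) (h : Expl X) {q : ℝ} (hq : 0 < q) {e : (∀ i, E i) → ℝ}
    (he : ∀ ω, 0 ≤ e ω) (hψ : ∀ t, t < T → Meas (X t) (ψ t)) (h1 : ∀ t ω, |ψ t ω| ≤ 1)
    (hs : ∀ t, t < T → ∀ ω, ψ t ω ≠ 0 → P p (X t) e ω ≤ q ∧ P p (X (t + 1)) e ω ≤ q)
    (g : (∀ i, E i) → ℝ) :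
    ex p (fun ω => e ω * tr ψ (fun t => P p (X t) g) T ω ^ 2) ≤
      64 * q * nsq p fun ω => P p (X T) g ω - P p (X 0) g ω := by
  have z := zeno_tr hp.w_nn h.filt hq (h.mart hp T e) (fun t _ ω => hp.P_nn he ω) (h.mart hp T g)
    (fun t ht => ms_iff.2 (hψ t ht)) h1 hs
  have m := h.meas_tr hp hψ g
  have k := (h.stop T).ex_mul_P hp (m.mul m) e
  simp only [← sq, mul_comm (_ ^ 2)] at k
  rw [← k]; exact z

/-- weighted Cauchy-Schwarz over a family. -/
lemma Pr.cs_sum (hp : Pr p) {α : Type} (s : Finset α) {ρ : α → ℝ} (hρ : ∀ a ∈ s, 0 < ρ a)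
    (u v : α → (∀ i, E i) → ℝ) : (∑ a ∈ s, ex p fun ω => u a ω * v a ω) ^ 2 ≤
      (∑ a ∈ s, nsq p (u a) / ρ a) * ∑ a ∈ s, ρ a * nsq p (v a) := by
  refine sum_sq_le_sum_mul_sum_of_sq_le_mul _ (fun a ha => div_nonneg (hp.nsq_nn _) (hρ a ha).le)
    (fun a ha => mul_nonneg (hρ a ha).le (hp.nsq_nn _)) fun a ha => (hp.cs _ _).trans (le_of_eq ?_)
  have := (hρ a ha).ne'
  field_simp

end Crest.Agent.N337.PH
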