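import Crest.Agent.N337.L4.Prod

/-!
# Row 337, L4: the Hoeffding (Efron-Stein, Walsh) decomposition

`hf p S f` is the component of `f` on the set `S` of cells, `Mu p a f = ∑ S, a S • hf p S f`.
-/

set_option autoImplicit false
set_option linter.unusedSectionVars false

namespace Crest.Agent.N337.PH

open Finset

variable {ι : Type} [Fintype ι] [DecidableEq ι] {E : ι → Type} [∀ i, Fintype (E i)]

/-- Moebius transform on the Boolean lattice. -/
def mob (a : Finset ι → ℝ) (S : Finset ι) : ℝ := ∑ T ∈ S.powerset, (-1) ^ (S \ T).card * a T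

lemma mob_insert (a : Finset ι → ℝ) {S : Finset ι} {c : ι} (h : c ∉ S) :
    mob a (insert c S) = mob (fun T => a (insert c T)) S - mob a S := by
  rw [mob, sum_powerset_insert h, add_comm, mob, mob, sub_eq_add_neg, ← sum_neg_distrib]
  congr 1
  · refine sum_congr rfl fun T hT => ?_
    rw [insert_sdiff_insert, sdiff_insert_of_notMem h]
  · refine sum_congr rfl fun T hT => ?_
    have hc : c ∉ T := fun hc => h (mem_powerset.1 hT hc)
    rw [insert_sdiff_of_notMem _ hc, card_insert_of_notMem fun hc => h (mem_sdiff.1 hc).1]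
    ring

lemma sum_mob (B : Finset ι) : ∀ a : Finset ι → ℝ, ∑ S ∈ B.powerset, mob a S = a B := by
  induction B using Finset.induction_on with
  | empty => intro a; simp [mob]
  | insert c B h ih =>
    intro a
    rw [sum_powerset_insert h, sum_congr rfl fun S hS =>
      mob_insert a fun hc => h (mem_powerset.1 hS hc), sum_sub_distrib, ih, ih]
    ring

/-- Hoeffding component. -/
def hf (p : ∀ i, E i → ℝ) (S : Finset ι) (f : (∀ i, E i) → ℝ) (ω : ∀ i, E i) : ℝ :=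
  mob (fun T => C p T f ω) S

/-- spectral multiplier. -/
def Mu (p : ∀ i, E i → ℝ) (a : Finset ι → ℝ) (f : (∀ i, E i) → ℝ) (ω : ∀ i, E i) : ℝ :=
  ∑ S, a S * hf p S f ω

variable {p : ∀ i, E i → ℝ} {R : (∀ i, E i) → Finset ι} {f g : (∀ i, E i) → ℝ}

lemma sum_hf (B : Finset ι) (f : (∀ i, E i) → ℝ) (ω : ∀ i, E i) :
    ∑ S ∈ B.powerset, hf p S f ω = C p B f ω := sum_mob B _

lemma Pr.sum_hf_univ (hp : Pr p) (f : (∀ i, E i) → ℝ) (ω : ∀ i, E i) :
    ∑ S, hf p S f ω = f ω := by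
  rw [← hp.C_univ f ω, ← sum_hf, powerset_univ]

lemma hf_empty (f : (∀ i, E i) → ℝ) (ω : ∀ i, E i) : hf p ∅ f ω = ex p f := by
  simp [hf, mob, C_empty]

theorem Pr.C_hf (hp : Pr p) (B S : Finset ι) (f : (∀ i, E i) → ℝ) (ω : ∀ i, E i) :
    C p B (hf p S f) ω = if S ⊆ B then hf p S f ω else 0 := by
  have e : C p B (hf p S f) ω = mob (fun T => C p (B ∩ T) f ω) S := by
    unfold hf mob
    rw [C, P_sum]
    refine sum_congr rfl fun T _ => ?_
    rw [P_smul]; beta_reduce; rw [← hp.C_C]; rfl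
  rw [e]
  split_ifs with h
  · exact sum_congr rfl fun T hT => by
      beta_reduce; rw [inter_eq_right.2 ((mem_powerset.1 hT).trans h)]
  · obtain ⟨c, hc, hb⟩ := not_subset.1 h
    rw [← insert_erase hc, mob_insert _ (notMem_erase c S)]
    simp only [inter_insert_of_notMem hb, sub_self]

lemma Pr.P_hf (hp : Pr p) (S : Finset ι) (f : (∀ i, E i) → ℝ) (ω : ∀ i, E i) :
    P p R (hf p S f) ω = if S ⊆ R ω then hf p S f ω else 0 := hp.C_hf _ _ _ _

lemma Pr.hf_orth (hp : Pr p) {S S' : Finset ι} (h : S ≠ S') (f g : (∀ i, E i) → ℝ) :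
    ex p (fun ω => hf p S f ω * hf p S' g ω) = 0 := by
  have key : ∀ {S S' : Finset ι} (f g : (∀ i, E i) → ℝ), ¬ S' ⊆ S →
      ex p (fun ω => hf p S f ω * hf p S' g ω) = 0 := by
    intro S S' f g h
    have e := (stop_const (E := E) S).symm (p := p) (hf p S f) (hf p S' g)
    simp only [hp.P_hf, h, if_false, subset_refl, if_true, mul_zero, hp.ex_const] at e
    exact e.symm
  by_cases h1 : S' ⊆ S
  · have := key g f fun h2 => h (Subset.antisymm h2 h1)
    simpa only [mul_comm] using this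
  · exact key f g h1

/-- Parseval, bilinear form. -/
theorem Pr.ex_Mu_Mu (hp : Pr p) (a b : Finset ι → ℝ) (f g : (∀ i, E i) → ℝ) :
    ex p (fun ω => Mu p a f ω * Mu p b g ω) =
      ∑ S, a S * b S * ex p fun ω => hf p S f ω * hf p S g ω := by
  simp only [Mu, sum_mul_sum, ex_sum]
  refine sum_congr rfl fun S _ => ?_
  rw [sum_eq_single S (fun S' _ h => ?_) (by simp), ← ex_mul]
  · congr 1; ext; ring
  · have := hp.hf_orth h.symm f g
    rw [show (fun ω => a S * hf p S f ω * (b S' * hf p S' g ω)) =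
      fun ω => a S * b S' * (hf p S f ω * hf p S' g ω) by ext; ring, ex_mul, this, mul_zero]

/-- Parseval. -/
theorem Pr.nsq_Mu (hp : Pr p) (a : Finset ι → ℝ) (f : (∀ i, E i) → ℝ) :
    nsq p (Mu p a f) = ∑ S, a S ^ 2 * nsq p (hf p S f) := by
  simpa only [nsq, sq] using hp.ex_Mu_Mu a a f f

lemma Pr.Mu_one (hp : Pr p) (f : (∀ i, E i) → ℝ) (ω : ∀ i, E i) : Mu p (fun _ => 1) f ω = f ω := by
  simp only [Mu, one_mul, hp.sum_hf_univ]

lemma Pr.P_Mu (hp : Pr p) (a : Finset ι → ℝ) (f : (∀ i, E i) → ℝ) (ω : ∀ i, E i) :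
    P p R (Mu p a f) ω = Mu p (fun S => if S ⊆ R ω then a S else 0) f ω := by
  unfold Mu
  rw [P_sum]
  refine sum_congr rfl fun S _ => ?_
  rw [P_smul, hp.P_hf]; by_cases h : S ⊆ R ω <;> simp [h]

lemma Pr.C_Mu (hp : Pr p) (B : Finset ι) (a : Finset ι → ℝ) (f : (∀ i, E i) → ℝ) :
    C p B (Mu p a f) = Mu p (fun S => if S ⊆ B then a S else 0) f := funext fun ω => hp.P_Mu a f ω

lemma Mu_sub (a b : Finset ι → ℝ) (f : (∀ i, E i) → ℝ) (ω : ∀ i, E i) :
    Mu p a f ω - Mu p b f ω = Mu p (fun S => a S - b S) f ω := by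
  simp only [Mu, sub_mul, sum_sub_distrib]

lemma Mu_sum {κ : Type} (s : Finset κ) (c : κ → ℝ) (a : κ → Finset ι → ℝ) (f : (∀ i, E i) → ℝ)
    (ω : ∀ i, E i) : ∑ k ∈ s, c k * Mu p (a k) f ω = Mu p (fun S => ∑ k ∈ s, c k * a k S) f ω := by
  simp only [Mu, mul_sum, sum_mul, mul_assoc]; exact sum_comm

lemma subset_compl_single {S : Finset ι} {c : ι} : S ⊆ {c}ᶜ ↔ c ∉ S := by
  simp only [subset_iff, mem_compl, mem_singleton]
  exact ⟨fun h hc => h hc rfl, fun h x hx e => h (e ▸ hx)⟩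

lemma Pr.D_Mu (hp : Pr p) (c : ι) (a : Finset ι → ℝ) (f : (∀ i, E i) → ℝ) :
    D p c (Mu p a f) = Mu p (fun S => if c ∈ S then a S else 0) f := by
  ext ω
  rw [D, hp.C_Mu, Mu_sub]
  congr 1; ext S
  simp only [subset_compl_single]; by_cases h : c ∈ S <;> simp [h]

lemma Pr.eq_Mu (hp : Pr p) (f : (∀ i, E i) → ℝ) : f = Mu p (fun _ => 1) f :=
  funext fun ω => (hp.Mu_one f ω).symm

lemma Pr.nsq_eq (hp : Pr p) (f : (∀ i, E i) → ℝ) : nsq p f = ∑ S, nsq p (hf p S f) := by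
  conv_lhs => rw [hp.eq_Mu f, hp.nsq_Mu]
  simp only [one_pow, one_mul]

lemma Pr.sub_ex (hp : Pr p) (f : (∀ i, E i) → ℝ) :
    (fun ω => f ω - ex p f) = Mu p (fun S => if S = ∅ then 0 else 1) f := by
  ext ω
  rw [← C_empty f ω]
  conv_lhs => rw [hp.eq_Mu f, hp.C_Mu, Mu_sub]
  congr 1; ext S
  simp only [subset_empty]; split_ifs <;> simp

lemma Pr.var_eq (hp : Pr p) (f : (∀ i, E i) → ℝ) :
    var p f = ∑ S, (if S = ∅ then 0 else 1) * nsq p (hf p S f) := by
  rw [var, hp.sub_ex, hp.nsq_Mu]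
  exact sum_congr rfl fun S _ => by split_ifs <;> simp

/-- total influence on a set of cells. -/
lemma Pr.sum_nsq_D (hp : Pr p) (V : Finset ι) (a : Finset ι → ℝ) (f : (∀ i, E i) → ℝ) :
    ∑ c ∈ V, nsq p (D p c (Mu p a f)) = ∑ S, (V ∩ S).card * a S ^ 2 * nsq p (hf p S f) := by
  simp only [hp.D_Mu, hp.nsq_Mu]
  rw [sum_comm]
  refine sum_congr rfl fun S _ => ?_
  rw [← sum_mul]
  congr 1
  simp only [ite_pow, ne_eq, OfNat.ofNat_ne_zero, not_false_eq_true, zero_pow]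
  rw [← sum_filter, filter_mem_eq_inter, sum_const, nsmul_eq_mul]

/-- Efron-Stein between two fixed sets of cells. -/
theorem Pr.es (hp : Pr p) {A B : Finset ι} (h : A ⊆ B) (f : (∀ i, E i) → ℝ) :
    nsq p (fun ω => C p B f ω - C p A f ω) ≤ ∑ c ∈ B \ A, nsq p (D p c f) := by
  rw [hp.eq_Mu f, hp.sum_nsq_D, hp.C_Mu, hp.C_Mu]
  simp only [Mu_sub]
  rw [hp.nsq_Mu]
  refine sum_le_sum fun S _ => mul_le_mul_of_nonneg_right ?_ (hp.nsq_nn _)
  by_cases hA : S ⊆ A
  · simp [hA, hA.trans h]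
  by_cases hB : S ⊆ B
  · obtain ⟨c, hc, ha⟩ := not_subset.1 hA
    have : 1 ≤ (B \ A ∩ S).card := card_pos.2 ⟨c, by simp [hc, ha, hB hc]⟩
    simpa [hA, hB] using (by exact_mod_cast this : (1 : ℝ) ≤ (B \ A ∩ S).card)
  · simp [hA, hB]

/-- Efron-Stein. -/
theorem Pr.es_var (hp : Pr p) (f : (∀ i, E i) → ℝ) : var p f ≤ ∑ c, nsq p (D p c f) := by
  simpa only [hp.C_univ, C_empty, sdiff_empty, var] using hp.es (empty_subset univ) f

/-- Bessel: first-order projections on pairwise disjoint sets of cells. -/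
theorem Pr.bessel (hp : Pr p) {κ : Type} (s : Finset κ) (B : κ → Finset ι) (A : Finset ι) (m : ℝ)
    (h : ∀ c, c ∉ A → ((s.filter fun k => c ∈ B k).card : ℝ) ≤ m) (f : (∀ i, E i) → ℝ) :
    ∑ k ∈ s, nsq p (fun ω => C p (A ∪ B k) f ω - C p A f ω) ≤
      m * nsq p fun ω => f ω - C p A f ω := by
  have e : (fun ω => f ω - C p A f ω) = Mu p (fun S => 1 - if S ⊆ A then 1 else 0) f := by
    ext ω; conv_lhs => rw [hp.eq_Mu f, hp.C_Mu, Mu_sub]
  have e' : ∀ k, (fun ω => C p (A ∪ B k) f ω - C p A f ω) = Mu p (fun S =>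
      (if S ⊆ A ∪ B k then 1 else 0) - if S ⊆ A then 1 else 0) f := by
    intro k; ext ω; conv_lhs => rw [hp.eq_Mu f, hp.C_Mu, hp.C_Mu, Mu_sub]
  simp only [e, e', hp.nsq_Mu, mul_sum]
  rw [sum_comm]
  refine sum_le_sum fun S _ => ?_
  rw [← sum_mul, ← mul_assoc]
  refine mul_le_mul_of_nonneg_right ?_ (hp.nsq_nn _)
  by_cases hA : S ⊆ A
  · simp [hA, hA.trans subset_union_left]
  obtain ⟨c, hc, ha⟩ := not_subset.1 hA
  simp only [hA, if_false, sub_zero, one_pow, mul_one, ite_pow, ne_eq, OfNat.ofNat_ne_zero,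
    not_false_eq_true, zero_pow]
  rw [sum_boole]
  refine le_trans ?_ (h c ha)
  exact_mod_cast card_le_card fun k hk => by
    rw [mem_filter] at hk ⊢
    exact ⟨hk.1, (mem_union.1 (hk.2 hc)).resolve_left ha⟩

end Crest.Agent.N337.PH
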