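import Crest.Agent.N337.L4.Arc
import Crest.Agent.N337.S27.LY0

/-!
# Row 337, block L4 (helper96): hitting probabilities from Green functions

`al` is the law of the coins and of the alive loops (a loop is alive with probability `∏ b`).
`ret`: the probability that the arc from `u` hits the support of `t` is at most
`L * sup_{good children} Gf + (mass of the bad children)`.
-/

set_option autoImplicit false
set_option linter.unusedSectionVars false

namespace Crest.Agent.N337.Arc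

open Finset Equiv Matrix Crest.Agent.N337.Rep Crest.Agent.N337.LY0

section perm
variable {S : Type} [Fintype S] [DecidableEq S]

/-- weight of one lap of the arc from `u`. -/
noncomputable def aw (π : Perm S) (b t : S → ℝ) (u : S) : ℝ :=
  ∑ j ∈ range (per π u), t (π^[j] u) * ∏ i ∈ range j, b (π^[i] u)

/-- the points of a Boolean field. -/
def on (D : S → Bool) : Finset S := univ.filter fun v => D v = true

lemma mem_on {D : S → Bool} {v : S} : v ∈ on D ↔ D v = true := by simp [on]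

lemma aw_eq (π : Perm S) (b t : S → ℝ) (hN : (mat π (fun _ => 1) b).det ≠ 0) (u : S) :
    aw π b t u = (1 - pr π b (o π u)) * (t ⬝ᵥ (mat π (fun _ => 1) b)⁻¹ *ᵥ Pi.single u 1) := by
  rw [← arc_eq π t b hN u, Pc, Pk_up]; simp [aw]

lemma aw_ge (π : Perm S) {b t : S → ℝ} (hb : ∀ v, 0 ≤ b v ∧ b v ≤ 1) (ht : ∀ v, 0 ≤ t v) (u : S)
    (j : ℕ) : t (π^[j] u) * ∏ i ∈ range j, b (π^[i] u) ≤ aw π b t u := by
  have h1 : π^[j % per π u] u = π^[j] u := Function.iterate_mod_minimalPeriod_eq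
  refine le_trans ?_ (single_le_sum (f := fun j => t (π^[j] u) * ∏ i ∈ range j, b (π^[i] u))
    (fun j _ => mul_nonneg (ht _) (prod_nonneg fun i _ => (hb _).1))
    (mem_range.2 (Nat.mod_lt j (per_pos π u))))
  rw [h1]
  refine mul_le_mul_of_nonneg_left ?_ (ht _)
  exact prod_le_prod_of_subset_of_le_one (range_mono (Nat.mod_le _ _))
    (fun i _ => (hb _).1) fun i _ _ => (hb _).2

lemma inv_of_fwd {π : Perm S} {D : S → Bool} (h : ∀ v, D v = true → D (π v) = true) (v : S) :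
    D (π v) = D v := by
  have key : ∀ k w, D w = true → D (π^[k] w) = true := by
    intro k w hw
    induction k with
    | zero => exact hw
    | succ k ih => rw [Function.iterate_succ_apply']; exact h _ ih
  cases hv : D v
  · by_contra hc
    obtain ⟨k, hk⟩ : ∃ k, per π v = k + 1 := ⟨_, (Nat.succ_pred_eq_of_pos (per_pos π v)).symm⟩
    have := key k (π v) (by simpa using hc)
    rw [← Function.iterate_succ_apply, Nat.succ_eq_add_one, ← hk, it_per, hv] at this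
    exact Bool.noConfusion this
  · exact h v hv

lemma inv_it {π : Perm S} {D : S → Bool} (h : ∀ v, D (π v) = D v) (k : ℕ) (v : S) :
    D (π^[k] v) = D v := by
  induction k with
  | zero => rfl
  | succ k ih => rw [Function.iterate_succ_apply', h, ih]

lemma green_step (K : Matrix S S ℝ) (b : S → ℝ) (hN : (1 - K * diagonal b).det ≠ 0) (u : S) :
    (1 - K * diagonal b)⁻¹ *ᵥ Pi.single u 1 =
      Pi.single u 1 + (1 - K * diagonal b)⁻¹ *ᵥ (K *ᵥ (b u • Pi.single u 1)) := by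
  have e : K *ᵥ (b u • Pi.single u (1 : ℝ)) =
      Pi.single u 1 - (1 - K * diagonal b) *ᵥ Pi.single u 1 := by
    rw [sub_mulVec, one_mulVec, sub_sub_cancel, ← mulVec_mulVec]
    congr 1
    funext v
    by_cases h : v = u <;> simp [mulVec_diagonal, h]
  rw [e, mulVec_sub, mulVec_mulVec, nonsing_inv_mul _ hN.isUnit, one_mulVec]; abel

end perm

variable {Λ : Type} [Fintype Λ] [DecidableEq Λ] {T : ℕ} [NeZero T] (ex ey : Fin T → Λ)

/-- the Green function of the averaged walk with source `u`, tested against `t`. -/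
noncomputable def Gf (p : Fin T → ℝ) (b t : Fin T × Λ → ℝ) (u : Fin T × Λ) : ℝ :=
  t ⬝ᵥ (1 - Kb ex ey p * diagonal b)⁻¹ *ᵥ Pi.single u 1

/-- admissible killing fields. -/
structure Fld (b : Fin T × Λ → ℝ) : Prop where
  mem : ∀ v, 0 ≤ b v ∧ b v ≤ 1
  lt : ∀ x, b (0, x) < 1

lemma Fld.kill {b : Fin T × Λ → ℝ} (h : Fld b) (O : Finset (Fin T × Λ)) : Fld (kill b O) :=
  ⟨fun v => by unfold Arc.kill; split_ifs; exacts [⟨le_rfl, zero_le_one⟩, h.mem v],
    fun x => by unfold Arc.kill; split_ifs; exacts [zero_lt_one, h.lt x]⟩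

lemma Fld.pr_lt {b : Fin T × Λ → ℝ} (h : Fld b) (ξ : Fin T → Bool) (g : Orb (Sg ex ey ξ)) :
    pr (Sg ex ey ξ) b g < 1 := by
  obtain ⟨x, hx⟩ := exists_time ex ey ξ g 0
  rw [pr, ← mul_prod_erase _ _ (show (0, x) ∈ univ.filter fun v => o (Sg ex ey ξ) v = g from
    mem_filter.2 ⟨mem_univ _, hx⟩)]
  exact (mul_le_of_le_one_right (h.mem _).1
    (prod_le_one (fun v _ => (h.mem v).1) fun v _ => (h.mem v).2)).trans_lt (h.lt x)

lemma det_mat1 {S : Type} [Fintype S] [DecidableEq S] (π : Perm S) (b : S → ℝ) :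
    (mat π (fun _ => 1) b).det = ∏ g, (1 - pr π b g) := by
  rw [det_mat]; simp only [pr_one fun _ _ => rfl]

lemma Fld.det_pos {b : Fin T × Λ → ℝ} (h : Fld b) (ξ : Fin T → Bool) :
    0 < (mat (Sg ex ey ξ) (fun _ => 1) b).det := by
  rw [det_mat1]; exact prod_pos fun g _ => sub_pos.2 (h.pr_lt ex ey ξ g)

variable {p : Fin T → ℝ} {b t : Fin T × Λ → ℝ}

lemma Fld.detA_pos (h : Fld b) (hp : ∀ s, 0 ≤ p s ∧ p s ≤ 1) :
    0 < (1 - Kb ex ey p * diagonal b).det := by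
  rw [← avg_det]
  simp only [← mat_eq]
  obtain ⟨ξ, -, hξ⟩ := exists_ne_zero_of_sum_ne_zero ((sum_Pw p).trans_ne one_ne_zero)
  exact sum_pos' (fun ξ _ => mul_nonneg (Pw_nonneg hp ξ) (h.det_pos ex ey ξ).le)
    ⟨ξ, mem_univ _, mul_pos ((Pw_nonneg hp ξ).lt_of_ne hξ.symm) (h.det_pos ex ey ξ)⟩

/-- the cofactor identity. -/
theorem avg_cof (h : Fld b) (hp : ∀ s, 0 ≤ p s ∧ p s ≤ 1) (t : Fin T × Λ → ℝ) (u : Fin T × Λ) :
    ∑ ξ, Pw p ξ * ((mat (Sg ex ey ξ) (fun _ => 1) b).det *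
      (t ⬝ᵥ (mat (Sg ex ey ξ) (fun _ => 1) b)⁻¹ *ᵥ Pi.single u 1)) =
      (1 - Kb ex ey p * diagonal b).det * Gf ex ey p b t u := by
  have key : ∀ K : Matrix (Fin T × Λ) (Fin T × Λ) ℝ, (1 - K * diagonal b).det ≠ 0 →
      (1 - K * diagonal b).det * (t ⬝ᵥ (1 - K * diagonal b)⁻¹ *ᵥ Pi.single u 1) =
        (t u + 1) * (1 - K * diagonal b).det -
          (1 - K * (diagonal b + vecMulVec (b u • Pi.single u 1) t)).det := by
    intro K hK
    rw [green_step K b hK u, Matrix.mul_add, mul_vecMulVec, ← sub_sub, det_rank_one hK,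
      dotProduct_add, dotProduct_single]
    ring
  have h1 := fun ξ => key (PM (Sg ex ey ξ)) (by rw [← mat_eq]; exact (h.det_pos ex ey ξ).ne')
  simp only [mat_eq, h1, Gf]
  rw [key _ (h.detA_pos ex ey hp).ne', ← avg_det, ← avg_det ex ey p (diagonal b + _), mul_sum,
    ← sum_sub_distrib]
  exact sum_congr rfl fun ξ _ => by ring

/-- weight of the alive set `D` given the coins. -/
noncomputable def aliv (b : Fin T × Λ → ℝ) (ξ : Fin T → Bool) (D : Fin T × Λ → Bool) : ℝ :=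
  if ∀ v, D (Sg ex ey ξ v) = D v then
    zd b D * ∏ g, (1 - pr (Sg ex ey ξ) (kill b (on D)) g) else 0

lemma zd_nn {S : Type} [Fintype S] {b : S → ℝ} (h : ∀ v, 0 ≤ b v) (D : S → Bool) : 0 ≤ zd b D :=
  prod_nonneg fun v _ => by split_ifs; exacts [h v, zero_le_one]

lemma aliv_nn (h : Fld b) (ξ : Fin T → Bool) (D : Fin T × Λ → Bool) : 0 ≤ aliv ex ey b ξ D := by
  unfold aliv; split_ifs
  · exact mul_nonneg (zd_nn (fun v => (h.mem v).1) D)
      (prod_nonneg fun g _ => (sub_pos.2 ((h.kill _).pr_lt ex ey ξ g)).le)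
  · exact le_rfl

lemma sum_aliv (b : Fin T × Λ → ℝ) (ξ : Fin T → Bool) : ∑ D, aliv ex ey b ξ D = 1 := by
  unfold aliv
  rw [sum_inv_prod (Sg ex ey ξ) _ fun g k =>
    if k = true then pr (Sg ex ey ξ) b g else 1 - pr (Sg ex ey ξ) b g]
  · simp
  · intro c
    rw [zd_comp, ← prod_mul_distrib]
    refine prod_congr rfl fun g _ => ?_
    split_ifs with h
    · obtain ⟨v, hv⟩ := o_surj _ g
      rw [pr_zero (a := kill b _) hv (if_pos (mem_on.2 (by simp [hv, h])))]; ring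
    · rw [one_mul, pr_congr (a := kill b _) (b := b) fun v hv =>
        if_neg fun k => h (by simpa [mem_on, hv] using k)]

open Classical in
/-- the mass of the alive sets whose child model is not good. -/
noncomputable def badm (p : Fin T → ℝ) (b : Fin T × Λ → ℝ)
    (Good : Finset (Fin T × Λ) → (Fin T → ℝ) → Prop) : ℝ :=
  ∑ ξ, Pw p ξ * ∑ D, aliv ex ey b ξ D *
    if Good (on D) (pin p (tch ex ey (on D)) ξ) then 0 else 1

open Classical in
/-- **RET**, with the weight kept in the bad part. -/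
theorem ret0 (hp : ∀ s, 0 ≤ p s ∧ p s ≤ 1) (hb : Fld b) (u : Fin T × Λ)
    (hu : ∀ ξ, Pw p ξ ≠ 0 → pr (Sg ex ey ξ) b (o _ u) = 0)
    (Gd : Finset (Fin T × Λ) → (Fin T → Bool) → Prop)
    (hloc : ∀ O ξ ξ', (∀ s ∈ tch ex ey O, ξ' s = ξ s) → Gd O ξ → Gd O ξ')
    {γ L : ℝ} (hγ0 : 0 ≤ γ) (hL : 0 ≤ L)
    (hγ : ∀ D ξ, Pw p ξ ≠ 0 → (∀ v, D (Sg ex ey ξ v) = D v) → Gd (on D) ξ →
      Gf ex ey (pin p (tch ex ey (on D)) ξ) (kill b (on D)) t u ≤ γ)
    (H : (Fin T → Bool) → ℝ) (hH : ∀ ξ, Pw p ξ ≠ 0 → H ξ ≤ L * aw (Sg ex ey ξ) b t u) :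
    ∑ ξ, Pw p ξ * H ξ ≤ L * γ +
      ∑ ξ, Pw p ξ * ∑ D, aliv ex ey b ξ D * if Gd (on D) ξ then 0 else H ξ := by
  set g : (Fin T × Λ → Bool) → (Fin T → Bool) → ℝ := fun D ξ =>
    if (∀ v, D (Sg ex ey ξ v) = D v) ∧ Gd (on D) ξ then zd b D else 0
    with hg
  set M := fun (D : Fin T × Λ → Bool) ξ => mat (Sg ex ey ξ) (fun _ => 1) (kill b (on D)) with hM
  have g0 : ∀ D ξ, 0 ≤ g D ξ := fun D ξ => by
    simp only [hg]; split_ifs; exacts [zd_nn (fun v => (hb.mem v).1) D, le_rfl]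
  have gm : ∀ D, PH.Meas (E := fun _ : Fin T => Bool) (fun _ => tch ex ey (on D)) (g D) := by
    intro D ξ ξ' h
    have e : ∀ η η' : Fin T → Bool, (∀ s ∈ tch ex ey (on D), η' s = η s) →
        (∀ v, D (Sg ex ey η v) = D v) → ∀ v, D (Sg ex ey η' v) = D v := fun η η' k hi =>
      inv_of_fwd fun v hv => by rw [Sg_congr ex ey k (mem_on.2 hv), hi, hv]
    simp only [hg]
    exact if_congr (and_congr ⟨e _ _ fun s hs => (h s hs).symm, e _ _ h⟩
      ⟨hloc _ _ _ fun s hs => (h s hs).symm, hloc _ _ _ h⟩) rfl rfl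
  have tow : ∀ D (F : (Fin T → Bool) → ℝ), ∑ ξ, Pw p ξ * (g D ξ * F ξ) =
      ∑ ξ, Pw p ξ * (g D ξ * ∑ ξ', Pw (pin p (tch ex ey (on D)) ξ) ξ' * F ξ') := by
    intro D F
    have := (PH.stop_const (E := fun _ : Fin T => Bool) (tch ex ey (on D))).ex_mul_P
      (pr_pb hp) (gm D) F
    simp only [P_pin] at this
    exact this.symm
  have s1 : ∀ ξ, Pw p ξ * H ξ ≤ L * ∑ D, Pw p ξ * (g D ξ * ((M D ξ).det *
      (t ⬝ᵥ (M D ξ)⁻¹ *ᵥ Pi.single u 1))) + Pw p ξ * ∑ D, aliv ex ey b ξ D *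
        if Gd (on D) ξ then 0 else H ξ := by
    intro ξ
    by_cases h0 : Pw p ξ = 0
    · simp [h0]
    rw [← mul_sum, mul_left_comm, ← mul_add]
    refine mul_le_mul_of_nonneg_left ?_ (Pw_nonneg hp ξ)
    have eH : H ξ = ∑ D, aliv ex ey b ξ D * H ξ := by rw [← sum_mul, sum_aliv, one_mul]
    rw [mul_sum, ← sum_add_distrib]
    refine eH.trans_le (sum_le_sum fun D _ => ?_)
    have a0 := aliv_nn ex ey hb ξ D
    by_cases hG : Gd (on D) ξ
    swap
    · simp only [hg, hG, and_false, if_false, zero_mul, mul_zero, zero_add, le_refl]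
    by_cases hi : ∀ v, D (Sg ex ey ξ v) = D v
    swap
    · simp only [hg, aliv, hi, false_and, if_false, zero_mul, mul_zero, add_zero, le_refl]
    by_cases hz : zd b D = 0
    · simp only [hg, aliv, hz, ite_self, zero_mul, mul_zero, add_zero, le_refl]
    have hD : ∀ i, D ((Sg ex ey ξ)^[i] u) = false := by
      intro i
      obtain ⟨v, hv, hv0⟩ := prod_eq_zero_iff.1 (hu ξ h0)
      rw [show (univ.filter fun v => o (Sg ex ey ξ) v = o (Sg ex ey ξ) u) = ob _ _ from rfl,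
        ob_eq] at hv
      obtain ⟨j, -, rfl⟩ := mem_image.1 hv
      rw [inv_it hi, ← inv_it hi j]
      by_contra hc
      exact hz (prod_eq_zero (mem_univ _) (by rw [if_pos (by simpa using hc), hv0]))
    have hk : ∀ i, kill b (on D) ((Sg ex ey ξ)^[i] u) = b ((Sg ex ey ξ)^[i] u) := fun i =>
      if_neg fun k => by simpa [hD i] using mem_on.1 k
    have e1 : aw (Sg ex ey ξ) b t u = aw (Sg ex ey ξ) (kill b (on D)) t u := by
      simp only [aw, hk]
    have e2 : pr (Sg ex ey ξ) (kill b (on D)) (o _ u) = 0 := by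
      rw [← hu ξ h0, pr, pr, prod_ob, prod_ob]; simp only [hk]
    have e3 := aw_eq (Sg ex ey ξ) (kill b (on D)) t ((hb.kill _).det_pos ex ey ξ).ne' u
    rw [e2, sub_zero, one_mul, ← e1] at e3
    have e4 : aliv ex ey b ξ D = g D ξ * (M D ξ).det := by
      simp only [aliv, hg, hM, hi, hG, implies_true, and_self, if_true, det_mat1]
    rw [if_pos hG, mul_zero, add_zero, show t ⬝ᵥ (M D ξ)⁻¹ *ᵥ Pi.single u 1 = _ from e3.symm,
      ← mul_assoc (g D ξ), ← e4, mul_left_comm]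
    exact mul_le_mul_of_nonneg_left (hH ξ h0) a0
  refine (sum_le_sum fun ξ _ => s1 ξ).trans ?_
  rw [sum_add_distrib, ← mul_sum, sum_comm]
  refine add_le_add (mul_le_mul_of_nonneg_left ?_ hL) le_rfl
  have s2 : ∀ D, ∑ ξ, Pw p ξ * (g D ξ * ((M D ξ).det * (t ⬝ᵥ (M D ξ)⁻¹ *ᵥ Pi.single u 1))) ≤
      γ * ∑ ξ, Pw p ξ * (g D ξ * (M D ξ).det) := by
    intro D
    rw [tow D fun ξ => (M D ξ).det * (t ⬝ᵥ (M D ξ)⁻¹ *ᵥ Pi.single u 1),
      tow D fun ξ => (M D ξ).det, mul_sum]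
    refine sum_le_sum fun ξ _ => ?_
    have hp' := pin_mem hp (tch ex ey (on D)) ξ
    by_cases h0 : Pw p ξ = 0
    · simp [h0]
    rw [mul_left_comm γ]
    refine mul_le_mul_of_nonneg_left ?_ (Pw_nonneg hp ξ)
    simp only [hM]
    rw [avg_cof ex ey (hb.kill _) hp']
    simp only [mat_eq, avg_det]
    by_cases hG : (∀ v, D (Sg ex ey ξ v) = D v) ∧ Gd (on D) ξ
    · rw [mul_comm γ, mul_assoc]
      exact mul_le_mul_of_nonneg_left (mul_le_mul_of_nonneg_left (hγ _ _ h0 hG.1 hG.2)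
        ((hb.kill _).detA_pos ex ey hp').le) (g0 D ξ)
    · simp only [hg, if_neg hG, zero_mul, mul_zero, le_refl]
  refine (sum_le_sum fun D _ => s2 D).trans ?_
  rw [← mul_sum, sum_comm]
  refine mul_le_of_le_one_right hγ0 ?_
  rw [← sum_Pw p]
  refine sum_le_sum fun ξ _ => ?_
  rw [← mul_sum]
  refine mul_le_of_le_one_right (Pw_nonneg hp ξ) ?_
  rw [← sum_aliv ex ey b ξ]
  refine sum_le_sum fun D _ => ?_
  simp only [hg, hM, det_mat1]
  split_ifs with h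
  · simp only [aliv, h.1, implies_true, if_true, le_refl]
  · rw [zero_mul]; exact aliv_nn ex ey hb ξ D

open Classical in
/-- **RET.** -/
theorem ret (hp : ∀ s, 0 ≤ p s ∧ p s ≤ 1) (hb : Fld b) (_ht : ∀ v, 0 ≤ t v) (u : Fin T × Λ)
    (hu : ∀ ξ, Pw p ξ ≠ 0 → pr (Sg ex ey ξ) b (o _ u) = 0)
    (Good : Finset (Fin T × Λ) → (Fin T → ℝ) → Prop) {γ L : ℝ} (hγ0 : 0 ≤ γ) (hL : 0 ≤ L)
    (hγ : ∀ O ξ, Good O (pin p (tch ex ey O) ξ) →
      Gf ex ey (pin p (tch ex ey O) ξ) (kill b O) t u ≤ γ)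
    (H : (Fin T → Bool) → ℝ) (H1 : ∀ ξ, H ξ ≤ 1)
    (hH : ∀ ξ, Pw p ξ ≠ 0 → H ξ ≤ L * aw (Sg ex ey ξ) b t u) :
    ∑ ξ, Pw p ξ * H ξ ≤ L * γ + badm ex ey p b Good := by
  refine (ret0 ex ey hp hb u hu (fun O ξ => Good O (pin p (tch ex ey O) ξ))
    (fun O ξ ξ' h k => by rwa [pin_congr p h]) hγ0 hL (fun D ξ _ _ k => hγ _ _ k) H hH).trans
    (add_le_add le_rfl (sum_le_sum fun ξ _ => mul_le_mul_of_nonneg_left
      (sum_le_sum fun D _ => mul_le_mul_of_nonneg_left ?_ (aliv_nn ex ey hb ξ D))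
      (Pw_nonneg hp ξ)))
  split_ifs; exacts [le_rfl, H1 ξ]

variable {ex ey} {ok : (ℕ → Fin T × Λ) → ℕ → Prop} {u : Fin T × Λ}

/-- given a running arc, the loop of the tip is killed in the child model. -/
lemma tip_killed {n : ℕ} {ξ ξ' : Fin T → Bool} (hr : run ex ey ok u ξ n)
    (h : Pw (pin p (X ex ey ok u (n + 1) ξ) ξ) ξ' ≠ 0) :
    pr (Sg ex ey ξ') (kill b (Al ex ey ok u (n + 1) ξ)) (o _ (arc ex ey u ξ (n + 1))) = 0 := by
  have hA : arc ex ey u ξ n ∈ Al ex ey ok u (n + 1) ξ := mem_Al.2 ⟨n, n.lt_succ_self, hr, rfl⟩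
  refine pr_zero (v := arc ex ey u ξ n) ?_ (if_pos hA)
  rw [arc_succ, ← Sg_congr ex ey (Pw_pin_supp h) hA, o_apply]

/-- **RET along an arc**: conditional hitting bound given the first `n + 1` steps. -/
theorem ret_arc (hp : ∀ s, 0 ≤ p s ∧ p s ≤ 1) (hb : Fld b) (ht : ∀ v, 0 ≤ t v) {n : ℕ}
    {ξ : Fin T → Bool} (hr : run ex ey ok u ξ n)
    (Good : Finset (Fin T × Λ) → (Fin T → ℝ) → Prop) {γ L : ℝ} (hγ0 : 0 ≤ γ) (hL : 0 ≤ L)
    (hγ : ∀ O η, Good O (pin (pin p (X ex ey ok u (n + 1) ξ) ξ) (tch ex ey O) η) →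
      Gf ex ey (pin (pin p (X ex ey ok u (n + 1) ξ) ξ) (tch ex ey O) η)
        (kill (kill b (Al ex ey ok u (n + 1) ξ)) O) t (arc ex ey u ξ (n + 1)) ≤ γ)
    (H : (Fin T → Bool) → ℝ) (H1 : ∀ ξ', H ξ' ≤ 1)
    (hH : ∀ ξ', (∀ s ∈ X ex ey ok u (n + 1) ξ, ξ' s = ξ s) → H ξ' ≤ L * aw (Sg ex ey ξ')
      (kill b (Al ex ey ok u (n + 1) ξ)) t (arc ex ey u ξ (n + 1))) :
    PH.P (pb p) (X ex ey ok u (n + 1)) H ξ ≤ L * γ +
      badm ex ey (pin p (X ex ey ok u (n + 1) ξ) ξ) (kill b (Al ex ey ok u (n + 1) ξ)) Good := by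
  rw [P_pin]
  exact ret ex ey (pin_mem hp _ _) (hb.kill _) ht _ (fun ξ' h => tip_killed hr h) Good hγ0 hL hγ
    H H1 fun ξ' h => hH ξ' (Pw_pin_supp h)

end Crest.Agent.N337.Arc
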