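import Crest.Agent.N337.L4.Hoeff

/-!
# Row 337, L4: adaptive Shearer inequality

Explorers reveal cells of a product space adaptively.  If every cell is revealed by explorers of
total weight at most `m` and every explorer reveals at most `N` cells then
`∑ a, ρ a * Var (E[g | F^a]) ≤ 8 m (log₂ N + 1) Var g`.
-/

set_option autoImplicit false
set_option linter.unusedSectionVars false

namespace Crest.Agent.N337.PH

open Finset

variable {ι : Type} [Fintype ι] [DecidableEq ι] {E : ι → Type} [∀ i, Fintype (E i)]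

/-- an explorer: increasing predictable sequence of revealed sets with a fixed first set. -/
structure Expl (R : ℕ → (∀ i, E i) → Finset ι) : Prop where
  zero : ∀ ω ω', R 0 ω' = R 0 ω
  mono : ∀ t ω, R t ω ⊆ R (t + 1) ω
  pred : ∀ t ω ω', (∀ i ∈ R t ω, ω' i = ω i) → R (t + 1) ω' = R (t + 1) ω

variable {p : ∀ i, E i → ℝ} {f g : (∀ i, E i) → ℝ} {X : ℕ → (∀ i, E i) → Finset ι}

lemma Expl.stop (h : Expl X) : ∀ t, Stop (X t)
  | 0 => fun ω ω' _ => h.zero ω ω'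
  | t + 1 => fun ω ω' e => h.pred t ω ω' fun i hi => e i (h.mono t ω hi)

lemma Expl.le (h : Expl X) {s t : ℕ} (hst : s ≤ t) (ω : ∀ i, E i) : X s ω ⊆ X t ω :=
  monotone_nat_of_le_succ (f := fun t => X t ω) (fun t => h.mono t ω) hst

lemma Expl.union (h : Expl X) (A : Finset ι) : Expl fun t ω => X t ω ∪ A :=
  ⟨fun ω ω' => by rw [h.zero ω ω'], fun t ω => union_subset_union_left (h.mono t ω),
    fun t ω ω' e => by rw [h.pred t ω ω' fun i hi => e i (mem_union_left _ hi)]⟩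

/-- weighted Efron-Stein. -/
lemma Pr.es_w (hp : Pr p) {A B : Finset ι} (h : A ⊆ B) (hf : Meas (fun _ => A) f)
    (g : (∀ i, E i) → ℝ) :
    ex p (fun ω => f ω ^ 2 * (C p B g ω - C p A g ω) ^ 2) ≤
      ∑ c ∈ B \ A, ex p fun ω => f ω ^ 2 * D p c g ω ^ 2 := by
  have k := hp.es h fun ω => f ω * g ω
  have hB : Meas (fun _ => B) f := hf.mono fun _ => h
  simp only [C, hf.P_mul, hB.P_mul, nsq, ← mul_sub, mul_pow] at k
  refine k.trans (le_of_eq (sum_congr rfl fun c hc => ?_))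
  have hc' : Meas (fun _ => ({c}ᶜ : Finset ι)) f :=
    hf.mono fun _ => subset_compl_single.2 (mem_sdiff.1 hc).2
  simp only [D, C, hc'.P_mul, ← mul_sub, mul_pow]

/-- one predictable step. -/
lemma Pr.step (hp : Pr p) {R R' : (∀ i, E i) → Finset ι} (hR : Stop R) (h : ∀ ω, R ω ⊆ R' ω)
    (h' : ∀ ω ω', (∀ i ∈ R ω, ω' i = ω i) → R' ω' = R' ω) (g : (∀ i, E i) → ℝ) :
    nsq p (fun ω => P p R' g ω - P p R g ω) ≤ ex p fun ω => ∑ c ∈ R' ω \ R ω, D p c g ω ^ 2 := by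
  set I : Finset ι × Finset ι → (∀ i, E i) → ℝ := fun x ω => if x = (R ω, R' ω) then 1 else 0
  have hI : ∀ x, Meas (fun _ => x.1) (I x) := by
    rintro ⟨A, B⟩ ω ω' e
    simp only [I, Prod.mk.injEq]
    by_cases h1 : A = R ω
    · subst h1; rw [hR ω ω' e, h' ω ω' e]
    · rw [if_neg (c := A = R ω ∧ B = R' ω) fun k => h1 k.1, if_neg]
      rintro ⟨rfl, -⟩
      exact h1 (hR ω' ω fun i hi => (e i hi).symm).symm
  have e1 : (fun ω => (P p R' g ω - P p R g ω) ^ 2) =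
      fun ω => ∑ x, I x ω ^ 2 * (C p x.2 g ω - C p x.1 g ω) ^ 2 := by
    ext ω; simp [I, P_eq_C]
  have e2 : (fun ω => ∑ c ∈ R' ω \ R ω, D p c g ω ^ 2) =
      fun ω => ∑ x, ∑ c ∈ x.2 \ x.1, I x ω ^ 2 * D p c g ω ^ 2 := by
    ext ω; simp [I]
  rw [nsq, e1, e2, ex_sum, ex_sum]
  refine sum_le_sum fun x _ => ?_
  rw [ex_sum]
  by_cases hx : x.1 ⊆ x.2
  · exact hp.es_w hx (hI x) g
  · have : ∀ ω, I x ω = 0 := fun ω => if_neg fun k => hx (by rw [k]; exact h ω)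
    simp [this, ex]

/-- Schramm-Steif inequality for one explorer. -/
theorem Expl.ss (hp : Pr p) (h : Expl X) (g : (∀ i, E i) → ℝ) (T : ℕ) :
    nsq p (fun ω => P p (X T) g ω - P p (X 0) g ω) ≤
      ex p fun ω => ∑ c ∈ X T ω \ X 0 ω, D p c g ω ^ 2 := by
  induction T with
  | zero => simp [nsq, ex]
  | succ T ih =>
    have a := (h.stop 0).nsq_incr hp (h.stop (T + 1)) (h.le (Nat.zero_le _)) g
    have b := (h.stop 0).nsq_incr hp (h.stop T) (h.le (Nat.zero_le _)) g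
    have c := (h.stop T).nsq_incr hp (h.stop (T + 1)) (h.mono T) g
    have d := hp.step (h.stop T) (h.mono T) (h.pred T) g
    have e : (fun ω => ∑ c ∈ X (T + 1) ω \ X 0 ω, D p c g ω ^ 2) = fun ω =>
        ∑ c ∈ X T ω \ X 0 ω, D p c g ω ^ 2 + ∑ c ∈ X (T + 1) ω \ X T ω, D p c g ω ^ 2 := by
      ext ω
      rw [← sum_union, union_comm, sdiff_union_sdiff_cancel (h.mono T ω) (h.le (Nat.zero_le _) ω)]
      exact disjoint_sdiff_self_right.mono_left sdiff_subset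
    rw [e, ex_add]; linarith

variable {α : Type} {s : Finset α} {ρ : α → ℝ} {Y : α → ℕ → (∀ i, E i) → Finset ι} {T : ℕ} {m : ℝ}

/-- functions of conditional mean zero given the cells off `U`. -/
lemma Pr.shearer_U (hp : Pr p) (hY : ∀ a ∈ s, Expl (Y a)) (h0 : ∀ a ∈ s, ∀ ω, Y a 0 ω = ∅)
    (hρ : ∀ a ∈ s, 0 ≤ ρ a) (hm : ∀ ω c, ∑ a ∈ s, (if c ∈ Y a T ω then ρ a else 0) ≤ m)
    (U : Finset ι) (hg : ∀ ω, C p Uᶜ g ω = 0) :
    ∑ a ∈ s, ρ a * nsq p (P p (Y a T) g) ≤ m * ∑ c ∈ U, nsq p (D p c g) := by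
  have k : ∀ a ∈ s, ρ a * nsq p (P p (Y a T) g) ≤
      ex p fun ω => ∑ c ∈ U, (if c ∈ Y a T ω then ρ a else 0) * D p c g ω ^ 2 := by
    intro a ha
    have h1 := ((hY a ha).stop T).nsq_mono hp (((hY a ha).union Uᶜ).stop T)
      (fun ω => subset_union_left) g
    have h2 := ((hY a ha).union Uᶜ).ss hp g T
    have hg' : ∀ ω, P p (fun _ => Uᶜ) g ω = 0 := hg
    simp only [h0 a ha, empty_union, hg', sub_zero] at h2
    refine (mul_le_mul_of_nonneg_left (h1.trans h2) (hρ a ha)).trans (le_of_eq ?_)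
    rw [← ex_mul]
    congr 1; ext ω
    rw [union_sdiff_right, sdiff_compl, inf_eq_inter, inter_comm, ← filter_mem_eq_inter,
      sum_filter, mul_sum]
    exact sum_congr rfl fun c _ => by split_ifs <;> simp
  refine (sum_le_sum k).trans ?_
  simp only [nsq]
  rw [← ex_sum, ← ex_sum, ← ex_mul]
  refine hp.ex_mono fun ω => ?_
  rw [sum_comm, mul_sum]
  refine sum_le_sum fun c _ => ?_
  rw [← sum_mul]
  exact mul_le_mul_of_nonneg_right (hm ω c) (sq_nonneg _)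

lemma ex_prod (F : ∀ i, E i → ℝ) : ex p (fun ω => ∏ i, F i (ω i)) = ∏ i, ∑ x, p i x * F i x := by
  rw [Finset.prod_univ_sum, Fintype.piFinset_univ]
  simp only [ex, w, prod_mul_distrib]

/-- Bernoulli coins. -/
def ber (ι : Type) (t : ℝ) : ι → Bool → ℝ := fun _ b => if b then t else 1 - t

lemma pr_ber {t : ℝ} (h0 : 0 ≤ t) (h1 : t ≤ 1) : Pr (ber ι t) :=
  ⟨fun _ b => by cases b <;> simp [ber, h0, h1], fun _ => by simp [ber]⟩

/-- the random set of the coins. -/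
def rs (b : ι → Bool) : Finset ι := univ.filter fun i => b i

lemma ex_disj (t : ℝ) (S : Finset ι) :
    ex (ber ι t) (fun b => if S ⊆ (rs b)ᶜ then 1 else 0) = (1 - t) ^ S.card := by
  have e : (fun b : ι → Bool => if S ⊆ (rs b)ᶜ then (1 : ℝ) else 0) =
      fun b => ∏ i, if i ∈ S ∧ b i then 0 else 1 := by
    ext b
    split_ifs with h
    · exact (prod_eq_one fun i _ => if_neg fun k => by simpa [rs, k.2] using h k.1).symm
    · obtain ⟨i, hi, hb⟩ := not_subset.1 h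
      refine (prod_eq_zero (mem_univ i) ?_).symm
      exact if_pos ⟨hi, by simpa [rs] using hb⟩
  rw [e, ex_prod (p := ber ι t) fun i x => if i ∈ S ∧ x = true then 0 else 1,
    ← prod_const, ← prod_ite_mem_eq S]
  exact prod_congr rfl fun i _ => by by_cases h : i ∈ S <;> simp [ber, h]

lemma ex_card (t : ℝ) (S : Finset ι) : ex (ber ι t) (fun b => ((rs b ∩ S).card : ℝ)) = t * S.card := by
  have e : (fun b : ι → Bool => ((rs b ∩ S).card : ℝ)) =
      fun b => ∑ i ∈ S, ∏ j, if j = i then (if b j then 1 else 0) else 1 := by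
    ext b
    simp only [prod_ite_eq', mem_univ, if_true, sum_boole, rs]
    congr 2; ext; simp [and_comm]
  rw [e, ex_sum, sum_congr rfl fun i _ =>
    ex_prod (p := ber ι t) fun j x => if j = i then (if x = true then 1 else 0) else 1]
  have : ∀ i : ι, ∏ j : ι, ∑ x, ber ι t j x * (if j = i then (if x = true then 1 else 0) else 1) = t := by
    intro i
    rw [prod_eq_single i (fun j _ h => by simp [ber, h]) (by simp)]
    simp [ber]
  simp only [this, sum_const, nsmul_eq_mul]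
  ring

/-- spectral form: a multiplier `(1 - (1-t)^|S|) b S` costs `m t |S| b S ^ 2`. -/
theorem Pr.shearer_Mu (hp : Pr p) (hY : ∀ a ∈ s, Expl (Y a)) (h0 : ∀ a ∈ s, ∀ ω, Y a 0 ω = ∅)
    (hρ : ∀ a ∈ s, 0 ≤ ρ a) (hm : ∀ ω c, ∑ a ∈ s, (if c ∈ Y a T ω then ρ a else 0) ≤ m)
    (hm0 : 0 ≤ m) {t : ℝ} (t0 : 0 ≤ t) (t1 : t ≤ 1) (b : Finset ι → ℝ) (g : (∀ i, E i) → ℝ) :
    ∑ a ∈ s, ρ a * nsq p (P p (Y a T) (Mu p (fun S => (1 - (1 - t) ^ S.card) * b S) g)) ≤
      m * ∑ S, t * S.card * b S ^ 2 * nsq p (hf p S g) := by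
  have hb := pr_ber (ι := ι) t0 t1
  set B : (ι → Bool) → Finset ι → ℝ := fun β S => (1 - if S ⊆ (rs β)ᶜ then 1 else 0) * b S
  have e : Mu p (fun S => (1 - (1 - t) ^ S.card) * b S) g =
      fun ω => ∑ β, w (ber ι t) β * Mu p (B β) g ω := by
    ext ω
    rw [Mu_sum]
    congr 1; ext S
    have : 1 - (1 - t) ^ S.card = ex (ber ι t) fun β => 1 - if S ⊆ (rs β)ᶜ then 1 else 0 := by
      rw [ex_sub, hb.ex_const, ex_disj]
    rw [this, ex, sum_mul]
    simp only [B, mul_assoc]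
  have j : ∀ a, nsq p (P p (Y a T) fun ω => ∑ β, w (ber ι t) β * Mu p (B β) g ω) ≤
      ex (ber ι t) fun β => nsq p (P p (Y a T) (Mu p (B β) g)) := by
    intro a
    have : (ex (ber ι t) fun β => nsq p (P p (Y a T) (Mu p (B β) g))) =
        ex p fun ω => nsq (ber ι t) fun β => P p (Y a T) (Mu p (B β) g) ω := by
      simp only [nsq, ex, mul_sum]
      rw [sum_comm]
      exact sum_congr rfl fun _ _ => sum_congr rfl fun _ _ => by ring
    rw [this]
    refine hp.ex_mono fun ω => ?_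
    simp only [P_sum, P_smul]
    exact hb.sq_ex_le _
  rw [e]
  refine (sum_le_sum fun a ha => mul_le_mul_of_nonneg_left (j a) (hρ a ha)).trans ?_
  simp only [← ex_mul]
  rw [← ex_sum]
  have k : ∀ β, ∑ a ∈ s, ρ a * nsq p (P p (Y a T) (Mu p (B β) g)) ≤
      m * ∑ S, b S ^ 2 * nsq p (hf p S g) * ((rs β ∩ S).card : ℝ) := by
    intro β
    refine (hp.shearer_U hY h0 hρ hm (rs β) fun ω => ?_).trans ?_
    · rw [hp.C_Mu]
      exact sum_eq_zero fun S _ => by by_cases h : S ⊆ (rs β)ᶜ <;> simp [B, h]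
    · rw [hp.sum_nsq_D]
      refine mul_le_mul_of_nonneg_left (sum_le_sum fun S _ => ?_) hm0
      have := hp.nsq_nn (hf p S g)
      by_cases h : S ⊆ (rs β)ᶜ
      · simp only [B, h, if_true, sub_self, zero_mul, mul_zero, ne_eq, OfNat.ofNat_ne_zero,
          not_false_eq_true, zero_pow]
        positivity
      · simp only [B, h, if_false, sub_zero, one_mul]
        exact le_of_eq (by ring)
  refine (hb.ex_mono k).trans (le_of_eq ?_)
  rw [ex_mul, ex_sum]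
  simp only [ex_mul, ex_card]
  congr 1
  exact sum_congr rfl fun _ _ => by ring

lemma half_le {k n : ℕ} (h : 2 ^ k ≤ n) : 1 / 2 ≤ 1 - (1 - 1 / (2 : ℝ) ^ k) ^ n := by
  have h1 : (1 : ℝ) ≤ 2 ^ k := one_le_pow₀ one_le_two
  set d : ℝ := 2 ^ k with hd
  have t1 : 1 / d ≤ 1 := by rw [div_le_one (by linarith)]; exact h1
  have t0 : 0 ≤ 1 / d := by positivity
  have a : 1 + (n : ℝ) * (1 / d) ≤ (1 + 1 / d) ^ n := one_add_mul_le_pow (by linarith) n
  have b : (1 : ℝ) ≤ n * (1 / d) := by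
    rw [mul_one_div, le_div_iff₀ (by linarith), one_mul, hd]; exact_mod_cast h
  have c : (1 - 1 / d) ^ n * (1 + 1 / d) ^ n ≤ 1 := by
    rw [← mul_pow]; exact pow_le_one₀ (by nlinarith) (by nlinarith)
  have e : 0 ≤ (1 - 1 / d) ^ n := pow_nonneg (by linarith) n
  nlinarith

/-- **adaptive Shearer inequality**. -/
theorem Pr.shearer (hp : Pr p) (hY : ∀ a ∈ s, Expl (Y a)) (h0 : ∀ a ∈ s, ∀ ω, Y a 0 ω = ∅)
    (hρ : ∀ a ∈ s, 0 ≤ ρ a) (hm : ∀ ω c, ∑ a ∈ s, (if c ∈ Y a T ω then ρ a else 0) ≤ m)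
    (hm0 : 0 ≤ m) {N : ℕ} (hN : ∀ a ∈ s, ∀ ω, (Y a T ω).card ≤ N) (g : (∀ i, E i) → ℝ) :
    ∑ a ∈ s, ρ a * nsq p (fun ω => P p (Y a T) g ω - ex p g) ≤
      8 * m * (Nat.log 2 N + 1) * var p g := by
  set A : ℕ → Finset ι → ℝ := fun k S => if S ≠ ∅ ∧ Nat.log 2 S.card = k then 1 else 0 with hA
  set K := Nat.log 2 N + 1 with hK
  have e : ∀ a ∈ s, ∀ ω, P p (Y a T) g ω - ex p g =
      ∑ k ∈ range K, 1 * P p (Y a T) (Mu p (A k) g) ω := by
    intro a ha ω
    rw [← hp.P_const (R := Y a T) (ex p g) ω, ← P_sub, hp.sub_ex]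
    simp only [hp.P_Mu]
    rw [Mu_sum]
    congr 1; ext S
    by_cases h : S ⊆ Y a T ω
    · have : Nat.log 2 S.card < K :=
        Nat.lt_succ_of_le (Nat.log_mono_right ((card_le_card h).trans (hN a ha ω)))
      by_cases h' : S = ∅ <;> simp [h, A, h', this]
    · simp [h]
  have blk : ∀ k, ∑ a ∈ s, ρ a * nsq p (P p (Y a T) (Mu p (A k) g)) ≤
      8 * m * ∑ S, A k S * nsq p (hf p S g) := by
    intro k
    have h1 : (1 : ℝ) ≤ 2 ^ k := one_le_pow₀ one_le_two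
    have h := hp.shearer_Mu hY h0 hρ hm hm0 (t := 1 / 2 ^ k) (by positivity)
      (by rw [div_le_one (by linarith)]; exact h1)
      (fun S => A k S / (1 - (1 - 1 / 2 ^ k) ^ S.card)) g
    have q : ∀ S : Finset ι, S ≠ ∅ → Nat.log 2 S.card = k →
        1 / 2 ≤ 1 - (1 - 1 / (2 : ℝ) ^ k) ^ S.card := fun S h1 h2 =>
      half_le (h2 ▸ Nat.pow_log_le_self 2 (card_ne_zero.2 (nonempty_iff_ne_empty.2 h1)))
    have e1 : (fun S : Finset ι => (1 - (1 - 1 / (2 : ℝ) ^ k) ^ S.card) *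
        (A k S / (1 - (1 - 1 / 2 ^ k) ^ S.card))) = A k := by
      ext S
      by_cases hS : S ≠ ∅ ∧ Nat.log 2 S.card = k
      · have := q S hS.1 hS.2
        rw [mul_div_cancel₀ _ (by linarith)]
      · simp only [A, hS, if_false, zero_div, mul_zero]
    rw [e1] at h
    refine h.trans ?_
    rw [mul_comm 8 m, mul_assoc, mul_sum _ _ 8]
    refine mul_le_mul_of_nonneg_left (sum_le_sum fun S _ => ?_) hm0
    rw [← mul_assoc]
    refine mul_le_mul_of_nonneg_right ?_ (hp.nsq_nn _)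
    by_cases hS : S ≠ ∅ ∧ Nat.log 2 S.card = k
    · have h2 := q S hS.1 hS.2
      have h3 : (S.card : ℝ) ≤ 2 * 2 ^ k := by
        have := Nat.lt_pow_succ_log_self one_lt_two S.card
        rw [hS.2, pow_succ, mul_comm] at this
        exact_mod_cast this.le
      have h4 : 1 / (2 : ℝ) ^ k * S.card ≤ 2 := by
        rw [one_div_mul_eq_div, div_le_iff₀ (by linarith)]; exact h3
      have h5 : (1 / (1 - (1 - 1 / (2 : ℝ) ^ k) ^ S.card)) ^ 2 ≤ 2 ^ 2 := by
        gcongr; rw [div_le_iff₀ (by linarith)]; linarith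
      simp only [A, hS, ne_eq, not_false_eq_true, and_self, if_true]
      calc _ ≤ (2 : ℝ) * 2 ^ 2 := by gcongr
        _ = _ := by norm_num
    · simp [A, hS]
  have cs : ∀ a ∈ s, nsq p (fun ω => P p (Y a T) g ω - ex p g) ≤
      K * ∑ k ∈ range K, nsq p (P p (Y a T) (Mu p (A k) g)) := by
    intro a ha
    simp only [nsq]
    rw [← ex_sum, ← ex_mul]
    refine hp.ex_mono fun ω => ?_
    rw [e a ha]
    simpa using sum_mul_sq_le_sq_mul_sq (range K) (fun _ => (1 : ℝ))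
      fun k => P p (Y a T) (Mu p (A k) g) ω
  calc _ ≤ ∑ a ∈ s, ρ a * (K * ∑ k ∈ range K, nsq p (P p (Y a T) (Mu p (A k) g))) :=
        sum_le_sum fun a ha => mul_le_mul_of_nonneg_left (cs a ha) (hρ a ha)
    _ = K * ∑ k ∈ range K, ∑ a ∈ s, ρ a * nsq p (P p (Y a T) (Mu p (A k) g)) := by
        rw [sum_comm, mul_sum]
        exact sum_congr rfl fun a _ => by rw [← mul_sum]; ring
    _ ≤ K * ∑ k ∈ range K, 8 * m * ∑ S, A k S * nsq p (hf p S g) := by
        gcongr with k; exact blk k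
    _ ≤ K * (8 * m * var p g) := by
        rw [← mul_sum, sum_comm, hp.var_eq]
        gcongr with S
        rw [← sum_mul]
        refine mul_le_mul_of_nonneg_right ?_ (hp.nsq_nn _)
        by_cases h : S = ∅
        · simp [A, h]
        · simp only [A, h, ne_eq, not_false_eq_true, true_and, sum_ite_eq, if_false]
          split_ifs <;> simp
    _ = _ := by rw [hK]; push_cast; ring

/-- **dual form**: sums of centred functions of the explored cells. -/
theorem Pr.shearer_dual (hp : Pr p) (hY : ∀ a ∈ s, Expl (Y a)) (h0 : ∀ a ∈ s, ∀ ω, Y a 0 ω = ∅)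
    (hρ : ∀ a ∈ s, 0 < ρ a) (hm : ∀ ω c, ∑ a ∈ s, (if c ∈ Y a T ω then ρ a else 0) ≤ m)
    (hm0 : 0 ≤ m) {N : ℕ} (hN : ∀ a ∈ s, ∀ ω, (Y a T ω).card ≤ N) (φ : α → (∀ i, E i) → ℝ)
    (hφ : ∀ a ∈ s, Meas (Y a T) (φ a)) (hφ0 : ∀ a ∈ s, ex p (φ a) = 0) :
    nsq p (fun ω => ∑ a ∈ s, φ a ω) ≤ 8 * m * (Nat.log 2 N + 1) * ∑ a ∈ s, nsq p (φ a) / ρ a := by
  set g : (∀ i, E i) → ℝ := fun ω => ∑ a ∈ s, φ a ω with hg
  have g0 : ex p g = 0 := by rw [hg, ex_sum]; exact sum_eq_zero hφ0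
  have h := hp.shearer hY h0 (fun a ha => (hρ a ha).le) hm hm0 hN g
  simp only [g0, sub_zero, var] at h
  have e : nsq p g = ∑ a ∈ s, ex p fun ω => φ a ω * P p (Y a T) g ω := by
    rw [sum_congr rfl fun a ha => ((hY a ha).stop T).ex_mul_P hp (hφ a ha) g, ← ex_sum]
    simp only [nsq, sq, ← sum_mul, g]
  have c : (∑ a ∈ s, ex p fun ω => φ a ω * P p (Y a T) g ω) ^ 2 ≤
      (∑ a ∈ s, nsq p (φ a) / ρ a) * ∑ a ∈ s, ρ a * nsq p (P p (Y a T) g) := by
    refine sum_sq_le_sum_mul_sum_of_sq_le_mul _ (fun a ha => div_nonneg (hp.nsq_nn _) (hρ a ha).le)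
      (fun a ha => mul_nonneg (hρ a ha).le (hp.nsq_nn _)) fun a ha => (hp.cs _ _).trans (le_of_eq ?_)
    have := (hρ a ha).ne'
    field_simp
  have s0 : 0 ≤ ∑ a ∈ s, nsq p (φ a) / ρ a :=
    sum_nonneg fun a ha => div_nonneg (hp.nsq_nn _) (hρ a ha).le
  rw [← e] at c
  have c2 := c.trans (mul_le_mul_of_nonneg_left h s0)
  rcases (hp.nsq_nn g).eq_or_lt with h1 | h1
  · rw [← h1]; positivity
  · refine le_of_mul_le_mul_right ?_ h1
    nlinarith

end Crest.Agent.N337.PH
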