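import Crest.Agent.N337.L4.Grp

/-!
# Row 337, L4: the Zeno-Shearer lemma `Pr.zs` and the grouped Shearer inequality

Explorers `Y a` reveal cells; the active groups `G` are revealed as a whole.  `h` is any function of
the active groups, `φ a` is a function of the cells revealed by `Y a`.  In the *early* steps
(`θ a t ω`) the chance of the event `e a`, given the revealed cells and ALL active groups, is at
most `q`; the other steps reveal only groups of `L a ω`.  Then the correlation of `∑ φ a` with `h`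
gains the factor `q m + m'` up to the part of `φ a` off `e a`.
-/

set_option autoImplicit false
set_option linter.unusedSectionVars false

namespace Crest.Agent.N337.PH

open Finset L4

variable {ι : Type} [Fintype ι] [DecidableEq ι] {E : ι → Type} [∀ i, Fintype (E i)]
  {κ : Type} [Fintype κ] [DecidableEq κ] {α : Type}

/-- data and hypotheses of the Zeno-Shearer lemma. -/
structure ZS (p : ∀ i, E i → ℝ) (gr : ι → κ) (G : Finset κ) (s : Finset α) (ρ : α → ℝ)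
    (Y : α → ℕ → (∀ i, E i) → Finset ι) (T : ℕ) (e : α → (∀ i, E i) → ℝ)
    (q m m' : ℝ) (N : ℕ) : Prop where
  expl : ∀ a ∈ s, Expl (Y a)
  zero : ∀ a ∈ s, ∀ ω, Y a 0 ω = ∅
  cl : ∀ a ∈ s, ∀ t ω, Cl gr G (Y a t ω)
  pos : ∀ a ∈ s, 0 < ρ a
  e0 : ∀ a ∈ s, ∀ ω, 0 ≤ e a ω
  e1 : ∀ a ∈ s, ∀ ω, e a ω ≤ 1
  q0 : 0 < q
  m0 : 0 ≤ m
  m0' : 0 ≤ m'
  mult : ∀ ω, ∀ γ ∈ G, ∑ a ∈ s, (if γ ∈ mt gr G (Y a T ω) then ρ a else 0) ≤ m
  card : ∀ a ∈ s, ∀ ω, (mt gr G (Y a T ω)).card ≤ N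
  split : ∃ (θ : α → ℕ → (∀ i, E i) → Prop) (L : α → (∀ i, E i) → Finset κ),
    (∀ a ∈ s, ∀ t, t < T → ∀ ω ω', (∀ i ∈ Y a t ω, ω' i = ω i) → (θ a t ω' ↔ θ a t ω)) ∧
    (∀ a ∈ s, ∀ t, t < T → ∀ ω, θ a t ω → P p (fun η => Y a t η ∪ pre gr G) (e a) ω ≤ q ∧
      P p (fun η => Y a (t + 1) η ∪ pre gr G) (e a) ω ≤ q) ∧
    (∀ a ∈ s, ∀ t, t < T → ∀ ω, ¬ θ a t ω → mt gr G (Y a (t + 1) ω \ Y a t ω) ⊆ L a ω) ∧
    ∀ ω, ∀ γ ∈ G, ∑ a ∈ s, (if γ ∈ L a ω then ρ a else 0) ≤ m'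

variable {p : ∀ i, E i → ℝ} {gr : ι → κ} {G : Finset κ} {s : Finset α} {ρ : α → ℝ}
  {Y : α → ℕ → (∀ i, E i) → Finset ι} {T : ℕ} {e φ : α → (∀ i, E i) → ℝ} {q m m' : ℝ} {N : ℕ}
  {g h : (∀ i, E i) → ℝ}

lemma Pr.mult_le (hp : Pr p) (L : α → (∀ i, E i) → Finset κ) (U : Finset κ) (hm0 : 0 ≤ m)
    (hm : ∀ ω, ∀ γ ∈ G, ∑ a ∈ s, (if γ ∈ L a ω then ρ a else 0) ≤ m) (F : κ → (∀ i, E i) → ℝ) :
    ∑ a ∈ s, ρ a * ex p (fun ω => ∑ γ ∈ U ∩ G ∩ L a ω, F γ ω ^ 2) ≤ m * ∑ γ ∈ U, nsq p (F γ) := by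
  simp only [nsq, ← ex_mul]
  rw [← ex_sum, ← ex_sum, ← ex_mul]
  refine hp.ex_mono fun ω => ?_
  calc _ = ∑ γ ∈ U ∩ G, (∑ a ∈ s, if γ ∈ L a ω then ρ a else 0) * F γ ω ^ 2 := by
        simp only [sum_mul]
        rw [sum_comm]
        refine sum_congr rfl fun a _ => ?_
        rw [← filter_mem_eq_inter (s := U ∩ G), sum_filter, mul_sum]
        exact sum_congr rfl fun γ _ => by split_ifs <;> simp
    _ ≤ ∑ γ ∈ U ∩ G, m * F γ ω ^ 2 := sum_le_sum fun γ hγ =>
        mul_le_mul_of_nonneg_right (hm ω γ (mem_inter.1 hγ).2) (sq_nonneg _)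
    _ ≤ _ := by
        rw [mul_sum]
        exact sum_le_sum_of_subset_of_nonneg inter_subset_left fun _ _ _ => by positivity

lemma mt_sub {A B : Finset ι} (U : Finset κ) :
    mt gr G ((B ∪ pre gr (G \ U)) \ (A ∪ pre gr (G \ U))) ⊆ U ∩ G ∩ mt gr G (B \ A) := by
  intro γ hγ
  obtain ⟨⟨i, hi, rfl⟩, hG⟩ := mem_mt.1 hγ
  simp only [mem_sdiff, mem_union, mem_pre, not_or, not_and, not_not] at hi
  refine mem_inter.2 ⟨mem_inter.2 ⟨hi.2.2 hG, hG⟩, mem_mt.2 ⟨⟨i, mem_sdiff.2 ⟨?_, hi.2.1⟩, rfl⟩, hG⟩⟩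
  exact hi.1.resolve_right fun k => k.2 (hi.2.2 hG)

/-- the cost of the tests. -/
noncomputable def cost (p : ∀ i, E i → ℝ) (s : Finset α) (ρ : α → ℝ)
    (e φ : α → (∀ i, E i) → ℝ) (q m m' : ℝ) : ℝ :=
  (64 * q * m + m') * ∑ a ∈ s, nsq p (φ a) / ρ a +
    m * ∑ a ∈ s, nsq p (fun ω => φ a ω * (1 - e a ω)) / ρ a

lemma ZS.cost_nn (hp : Pr p) (H : ZS p gr G s ρ Y T e q m m' N) : 0 ≤ cost p s ρ e φ q m m' := by
  have := H.q0; have := H.m0; have := H.m0'
  have a := sum_nonneg fun a ha => div_nonneg (hp.nsq_nn (φ a)) (H.pos a ha).le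
  have b := sum_nonneg fun a ha =>
    div_nonneg (hp.nsq_nn fun ω => φ a ω * (1 - e a ω)) (H.pos a ha).le
  unfold cost; positivity

/-- functions of conditional mean zero given the active groups off `U`. -/
theorem ZS.zs_U (hp : Pr p) (H : ZS p gr G s ρ Y T e q m m' N)
    (hφ : ∀ a ∈ s, Meas (Y a T) (φ a)) (U : Finset κ) (hg : Meas (fun _ => pre gr G) g)
    (hU : ∀ ω, C p (pre gr (G \ U)) g ω = 0) :
    (∑ a ∈ s, ex p fun ω => φ a ω * g ω) ^ 2 ≤
      3 * cost p s ρ e φ q m m' * ∑ γ ∈ U, nsq p (DG p gr γ g) := by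
  classical
  obtain ⟨θ, L, hθ, hq, hL, hm'⟩ := H.split
  set X : α → ℕ → (∀ i, E i) → Finset ι := fun a t ω => Y a t ω ∪ pre gr (G \ U) with hX
  have eX : ∀ a ∈ s, Expl (X a) := fun a ha => (H.expl a ha).union _
  have cX : ∀ a ∈ s, ∀ t ω, Cl gr G (X a t ω) := fun a ha t ω => (H.cl a ha t ω).union (cl_pre _)
  set ψ : α → ℕ → (∀ i, E i) → ℝ := fun a t ω => if θ a t ω then 1 else 0 with hψ
  have mψ : ∀ a ∈ s, ∀ t, t < T → Meas (X a t) (ψ a t) := fun a ha t ht ω ω' k => by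
    simp only [ψ, hθ a ha t ht ω ω' fun i hi => k i (mem_union_left _ hi)]
  set M : α → ℕ → (∀ i, E i) → ℝ := fun a t => P p (X a t) g with hM
  have M0 : ∀ a ∈ s, ∀ ω, M a 0 ω = 0 := fun a ha ω => by
    simp only [M, X, P_eq_C, H.zero a ha, empty_union, hU]
  set W := ∑ γ ∈ U, nsq p (DG p gr γ g) with hW
  have W0 : 0 ≤ W := sum_nonneg fun _ _ => hp.nsq_nn _
  have full : ∑ a ∈ s, ρ a * nsq p (M a T) ≤ m * W := by
    refine le_trans (sum_le_sum fun a ha => mul_le_mul_of_nonneg_left ?_ (H.pos a ha).le)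
      (hp.mult_le (fun a ω => mt gr G (Y a T ω)) U H.m0 H.mult _)
    have k := (eX a ha).ss_tr hp (T := T) (ψ := fun _ _ => 1) (cX a ha) (fun _ _ => meas_const 1)
      (fun _ _ => by simp) (fun ω => U ∩ G ∩ mt gr G (Y a T ω)) (fun t ht ω _ => (mt_sub U).trans
        (inter_subset_inter_left (inter_subset_inter_right (image_subset_image
          (sdiff_subset.trans ((H.expl a ha).le ht ω)))))) hg
    refine le_trans (le_of_eq ?_) k
    congr 1; ext ω
    rw [tr_one]; exact (sub_eq_self.2 (M0 a ha ω)).symm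
  have late : ∑ a ∈ s, ρ a * nsq p (fun ω => e a ω * tr (fun t ω => 1 - ψ a t ω) (M a) T ω) ≤
      m' * W := by
    refine le_trans (sum_le_sum fun a ha => mul_le_mul_of_nonneg_left ?_ (H.pos a ha).le)
      (hp.mult_le L U H.m0' hm' _)
    refine le_trans (hp.ex_mono fun ω => ?_) ((eX a ha).ss_tr hp (T := T)
      (ψ := fun t ω => 1 - ψ a t ω) (cX a ha) (fun t ht => (meas_const 1).sub (mψ a ha t ht))
      (fun t ω => by simp only [ψ]; split_ifs <;> simp) (fun ω => U ∩ G ∩ L a ω)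
      (fun t ht ω z => (mt_sub U).trans (inter_subset_inter_left (hL a ha t ht ω fun k => z ?_))) hg)
    · rw [mul_pow]
      exact mul_le_of_le_one_left (sq_nonneg _) (pow_le_one₀ (H.e0 a ha ω) (H.e1 a ha ω))
    · simp [ψ, k]
  have early : ∑ a ∈ s, ρ a * nsq p (fun ω => e a ω * tr (ψ a) (M a) T ω) ≤ 64 * q * m * W := by
    have q0 := H.q0
    rw [mul_assoc (64 * q)]
    refine le_trans ?_ (mul_le_mul_of_nonneg_left full (by positivity))
    rw [mul_sum]
    refine sum_le_sum fun a ha => ?_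
    rw [mul_left_comm]
    refine mul_le_mul_of_nonneg_left ?_ (H.pos a ha).le
    have sub : ∀ t ω, X a t ω ⊆ Y a t ω ∪ pre gr G := fun t ω =>
      union_subset_union_right fun i hi => mem_pre.2 (mem_sdiff.1 (mem_pre.1 hi)).1
    have z := (eX a ha).zeno hp q0 (H.e0 a ha) (mψ a ha)
      (fun t ω => by simp only [ψ]; split_ifs <;> simp) (fun t ht ω z => by
        have k : θ a t ω := by by_contra k; simp [ψ, k] at z
        have k' : ∀ η, (∀ i ∈ X a t ω, η i = ω i) → θ a t η := fun η b =>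
          (hθ a ha t ht ω η fun i hi => b i (mem_union_left _ hi)).2 k
        exact ⟨((eX a ha).stop t).P_le hp (((H.expl a ha).union _).stop t) (sub t) ω
            fun η b => (hq a ha t ht η (k' η b)).1,
          ((eX a ha).stop (t + 1)).P_le hp (((H.expl a ha).union _).stop (t + 1)) (sub (t + 1)) ω
            fun η b => (hq a ha t ht η (k' η fun i hi => b i ((eX a ha).mono t ω hi))).2⟩) g
    have M0' : ∀ ω, P p (X a 0) g ω = 0 := M0 a ha
    simp only [M0', sub_zero] at z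
    refine le_trans (hp.ex_mono fun ω => ?_) z
    rw [mul_pow]
    refine mul_le_mul_of_nonneg_right ?_ (sq_nonneg _)
    nlinarith [H.e0 a ha ω, H.e1 a ha ω]
  have dec : ∑ a ∈ s, ex p (fun ω => φ a ω * g ω) =
      ∑ a ∈ s, ex p (fun ω => φ a ω * (e a ω * tr (ψ a) (M a) T ω)) +
      ∑ a ∈ s, ex p (fun ω => φ a ω * (e a ω * tr (fun t ω => 1 - ψ a t ω) (M a) T ω)) +
      ∑ a ∈ s, ex p (fun ω => φ a ω * (1 - e a ω) * M a T ω) := by
    rw [← sum_add_distrib, ← sum_add_distrib]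
    refine sum_congr rfl fun a ha => ?_
    rw [← ex_add, ← ex_add, ← ((eX a ha).stop T).ex_mul_P hp
      ((hφ a ha).mono fun _ => subset_union_left) g]
    congr 1; ext ω
    have := tr_add_tr (ψ a) (M a) T ω
    rw [M0 a ha, sub_zero] at this
    change φ a ω * M a T ω = _
    linear_combination (-(φ a ω * e a ω)) * this
  have s0 : ∀ u : α → (∀ i, E i) → ℝ, 0 ≤ ∑ a ∈ s, nsq p (u a) / ρ a := fun u =>
    sum_nonneg fun a ha => div_nonneg (hp.nsq_nn _) (H.pos a ha).le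
  have c1 := (hp.cs_sum s H.pos φ _).trans (mul_le_mul_of_nonneg_left early (s0 φ))
  have c2 := (hp.cs_sum s H.pos φ _).trans (mul_le_mul_of_nonneg_left late (s0 φ))
  have c3 := (hp.cs_sum s H.pos (fun a ω => φ a ω * (1 - e a ω)) _).trans
    (mul_le_mul_of_nonneg_left full (s0 _))
  rw [dec, cost]
  have t3 : ∀ x y z : ℝ, (x + y + z) ^ 2 ≤ 3 * (x ^ 2 + y ^ 2 + z ^ 2) := fun x y z => by
    nlinarith [sq_nonneg (x - y), sq_nonneg (x - z), sq_nonneg (y - z)]
  refine (t3 _ _ _).trans ?_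
  nlinarith

lemma Pr.meas_Mu (hp : Pr p) {J : Finset ι} {b : Finset ι → ℝ} (hb : ∀ S, ¬ S ⊆ J → b S = 0)
    (f : (∀ i, E i) → ℝ) : Meas (fun _ => J) (Mu p b f) := by
  have : Mu p b f = C p J (Mu p b f) := by
    rw [hp.C_Mu]; congr 1; ext S; by_cases k : S ⊆ J <;> simp [k, hb]
  rw [this]; exact (stop_const J).meas_P _

/-- spectral form. -/
theorem ZS.zs_Mu (hp : Pr p) (H : ZS p gr G s ρ Y T e q m m' N)
    (hφ : ∀ a ∈ s, Meas (Y a T) (φ a)) {t : ℝ} (t0 : 0 ≤ t) (t1 : t ≤ 1) (b : Finset ι → ℝ)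
    (hb : ∀ S, ¬ S ⊆ pre gr G → b S = 0) (h : (∀ i, E i) → ℝ) :
    (∑ a ∈ s, ex p fun ω => φ a ω * Mu p (fun S => (1 - (1 - t) ^ (S.image gr).card) * b S) h ω) ^ 2
      ≤ 3 * cost p s ρ e φ q m m' * ∑ S, t * (S.image gr).card * b S ^ 2 * nsq p (hf p S h) := by
  have hb' := pr_ber (ι := κ) t0 t1
  set B : (κ → Bool) → Finset ι → ℝ := fun β S =>
    (1 - if S.image gr ⊆ (rs β)ᶜ then 1 else 0) * b S
  have e1 : ∀ ω, Mu p (fun S => (1 - (1 - t) ^ (S.image gr).card) * b S) h ω =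
      ∑ β, w (ber κ t) β * Mu p (B β) h ω := by
    intro ω
    rw [Mu_sum]
    congr 1; ext S
    have : 1 - (1 - t) ^ (S.image gr).card =
        ex (ber κ t) fun β => 1 - if S.image gr ⊆ (rs β)ᶜ then 1 else 0 := by
      rw [ex_sub, hb'.ex_const, ex_disj]
    rw [this, ex, sum_mul]
    simp only [B, mul_assoc]
  have e2 : (∑ a ∈ s, ex p fun ω =>
      φ a ω * Mu p (fun S => (1 - (1 - t) ^ (S.image gr).card) * b S) h ω) =
      ex (ber κ t) fun β => ∑ a ∈ s, ex p fun ω => φ a ω * Mu p (B β) h ω := by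
    rw [ex_sum]
    refine sum_congr rfl fun a _ => ?_
    simp only [e1, mul_sum, ex_sum]
    refine sum_congr rfl fun β _ => ?_
    rw [← ex_mul]; congr 1; ext ω; ring
  have c0 := H.cost_nn hp (φ := φ)
  rw [e2]
  refine (hb'.sq_ex_le _).trans ((hb'.ex_mono (g := fun β => 3 * cost p s ρ e φ q m m' *
    ∑ S, b S ^ 2 * nsq p (hf p S h) * ((rs β ∩ S.image gr).card : ℝ)) fun β => ?_).trans
    (le_of_eq ?_))
  · refine (H.zs_U hp hφ (rs β) (hp.meas_Mu (fun S k => by simp [B, hb S k]) h) fun ω => ?_).trans ?_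
    · rw [hp.C_Mu]
      refine sum_eq_zero fun S _ => ?_
      by_cases k : S ⊆ pre gr (G \ rs β)
      · have : S.image gr ⊆ (rs β)ᶜ := (subset_pre.1 k).trans fun γ hγ =>
          mem_compl.2 (mem_sdiff.1 hγ).2
        simp only [B, this, if_true, sub_self, zero_mul, ite_self]
      · simp [k]
    · rw [hp.sum_nsq_DG]
      refine mul_le_mul_of_nonneg_left (sum_le_sum fun S _ => ?_) (by positivity)
      have := hp.nsq_nn (hf p S h)
      by_cases k : S.image gr ⊆ (rs β)ᶜ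
      · simp only [B, k, if_true, sub_self, zero_mul, mul_zero, ne_eq, OfNat.ofNat_ne_zero,
          not_false_eq_true, zero_pow]
        positivity
      · simp only [B, k, if_false, sub_zero, one_mul]
        exact le_of_eq (by ring)
  · rw [ex_mul, ex_sum]
    simp only [ex_mul, ex_card]
    congr 1
    exact sum_congr rfl fun _ _ => by ring

/-- **Zeno-Shearer lemma.** -/
theorem ZS.zs (hp : Pr p) (H : ZS p gr G s ρ Y T e q m m' N)
    (hφ : ∀ a ∈ s, Meas (Y a T) (φ a)) (hh : Meas (fun _ => pre gr G) h) :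
    (∑ a ∈ s, ex p fun ω => φ a ω * (h ω - ex p h)) ^ 2 ≤
      24 * (Nat.log 2 N + 1) * cost p s ρ e φ q m m' * var p h := by
  set d : Finset ι → ℕ := fun S => (S.image gr).card with hd
  set A : ℕ → Finset ι → ℝ := fun k S =>
    if S ≠ ∅ ∧ S ⊆ pre gr G ∧ Nat.log 2 (d S) = k then 1 else 0 with hA
  set K := Nat.log 2 N + 1 with hK
  have c0 := H.cost_nn hp (φ := φ)
  have eh : (fun ω => h ω - ex p h) =
      Mu p (fun S => if S ≠ ∅ ∧ S ⊆ pre gr G then 1 else 0) h := by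
    ext ω
    rw [← C_empty h ω, ← hh.P_eq hp ω, P_eq_C]
    conv_lhs => rw [hp.eq_Mu h, hp.C_Mu, hp.C_Mu, Mu_sub]
    congr 1; ext S
    by_cases k : S = ∅ <;> simp [k]
  have e1 : ∀ a ∈ s, ex p (fun ω => φ a ω * (h ω - ex p h)) =
      ∑ k ∈ range K, 1 * ex p fun ω => φ a ω * Mu p (A k) h ω := by
    intro a ha
    have st := (H.expl a ha).stop T
    simp only [one_mul, ← st.ex_mul_P hp (hφ a ha) (Mu p _ h), eh,
      ← st.ex_mul_P hp (hφ a ha) fun ω => h ω - ex p h]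
    rw [← ex_sum]
    congr 1; ext ω
    rw [← mul_sum]
    congr 1
    simp only [hp.P_Mu]
    rw [sum_congr rfl fun k _ => (one_mul _).symm, Mu_sum]
    congr 1; ext S
    by_cases k : S ⊆ Y a T ω
    · by_cases k' : S ≠ ∅ ∧ S ⊆ pre gr G
      · have : Nat.log 2 (d S) < K := Nat.lt_succ_of_le (Nat.log_mono_right ((card_le_card
          (subset_inter (image_subset_image k) (subset_pre.1 k'.2))).trans (H.card a ha ω)))
        simp [k, A, k'.1, k'.2, this]
      · simp only [k, A, ← and_assoc, k', false_and, if_false, if_true, mul_zero, sum_const_zero]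
    · simp [k]
  have blk : ∀ k, (∑ a ∈ s, ex p fun ω => φ a ω * Mu p (A k) h ω) ^ 2 ≤
      3 * cost p s ρ e φ q m m' * (8 * ∑ S, A k S * nsq p (hf p S h)) := by
    intro k
    have h1 : (1 : ℝ) ≤ 2 ^ k := one_le_pow₀ one_le_two
    have z := H.zs_Mu hp hφ (t := 1 / 2 ^ k) (by positivity)
      (by rw [div_le_one (by linarith)]; exact h1)
      (fun S => A k S / (1 - (1 - 1 / 2 ^ k) ^ d S)) (fun S k => by simp [A, k]) h
    have u : ∀ S : Finset ι, S ≠ ∅ → Nat.log 2 (d S) = k →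
        1 / 2 ≤ 1 - (1 - 1 / (2 : ℝ) ^ k) ^ d S := fun S h1 h2 => half_le (h2 ▸ Nat.pow_log_le_self
          2 (card_ne_zero.2 ((nonempty_iff_ne_empty.2 h1).image gr)))
    have e2 : (fun S : Finset ι => (1 - (1 - 1 / (2 : ℝ) ^ k) ^ (S.image gr).card) *
        (A k S / (1 - (1 - 1 / 2 ^ k) ^ d S))) = A k := by
      ext S
      by_cases hS : S ≠ ∅ ∧ S ⊆ pre gr G ∧ Nat.log 2 (d S) = k
      · have := u S hS.1 hS.2.2
        rw [mul_div_cancel₀ _ (by linarith)]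
      · simp only [A, hS, if_false, zero_div, mul_zero]
    rw [e2] at z
    refine z.trans (mul_le_mul_of_nonneg_left ?_ (by positivity))
    rw [mul_sum _ _ 8]
    refine sum_le_sum fun S _ => ?_
    rw [← mul_assoc]
    refine mul_le_mul_of_nonneg_right ?_ (hp.nsq_nn _)
    by_cases hS : S ≠ ∅ ∧ S ⊆ pre gr G ∧ Nat.log 2 (d S) = k
    · have h2 := u S hS.1 hS.2.2
      have h3 : (d S : ℝ) ≤ 2 * 2 ^ k := by
        have := Nat.lt_pow_succ_log_self one_lt_two (d S)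
        rw [hS.2.2, pow_succ, mul_comm] at this
        exact_mod_cast this.le
      have h4 : 1 / (2 : ℝ) ^ k * d S ≤ 2 := by
        rw [one_div_mul_eq_div, div_le_iff₀ (by linarith)]; exact h3
      have h5 : (1 / (1 - (1 - 1 / (2 : ℝ) ^ k) ^ d S)) ^ 2 ≤ 2 ^ 2 := by
        gcongr; rw [div_le_iff₀ (by linarith)]; linarith
      simp only [A, hS, ne_eq, not_false_eq_true, and_self, if_true]
      calc _ ≤ (2 : ℝ) * 2 ^ 2 := by gcongr
        _ = _ := by norm_num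
    · simp only [A, hS, if_false, zero_div]; simp
  rw [sum_congr rfl e1, sum_comm]
  simp only [one_mul]
  refine sq_sum_le_card_mul_sum_sq.trans ?_
  rw [card_range]
  calc _ ≤ (K : ℝ) * ∑ k ∈ range K, 3 * cost p s ρ e φ q m m' *
        (8 * ∑ S, A k S * nsq p (hf p S h)) := by gcongr with k; exact blk k
    _ ≤ K * (3 * cost p s ρ e φ q m m' * (8 * var p h)) := by
        rw [← mul_sum, ← mul_sum, sum_comm, hp.var_eq]
        gcongr with S
        rw [← sum_mul]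
        refine mul_le_mul_of_nonneg_right ?_ (hp.nsq_nn _)
        by_cases k : S = ∅
        · simp [A, k]
        · by_cases k' : S ⊆ pre gr G
          · simp only [A, k, k', ne_eq, not_false_eq_true, true_and, sum_ite_eq, if_false]
            split_ifs <;> simp
          · simp [A, k, k']
    _ = _ := by rw [hK]; push_cast; ring

end Crest.Agent.N337.PH
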